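import Crest.Agent.N207.Ga.Defs
import Crest.Agent.N207.I.Car4
import Crest.Agent.N207.I.Cal1
import Crest.Agent.N207.TR.Core

/-!
# Row 207 (helper18): scale invariant jets, the reference metrics `gb` of the cores
-/

set_option autoImplicit false

open scoped ContDiff
open Metric Set Filter Topology
open Crest.GeometryTopology.CoordMetric Crest.Agent.R202.Tens
open Crest.Agent.N207.I Crest.Agent.N207.CB Crest.Agent.N207.Jt

noncomputable section

namespace Crest.Agent.N207.Ga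

/-! ### scale invariant jets -/

/-- `|x|^k |D^k f x| ≤ C k * ϖ` -/
structure SJ (C : ℕ → ℝ) (ϖ : ℝ) (f : E4 → ℝ) (x : E4) : Prop where
  sm : ContDiffAt ℝ ∞ f x
  bd : ∀ k, ‖iteratedFDeriv ℝ k f x‖ * ‖x‖ ^ k ≤ C k * ϖ

variable {C D : ℕ → ℝ} {ϖ ϖ' : ℝ} {f f' : E4 → ℝ} {x : E4}

theorem SJ.congr (h : SJ C ϖ f x) (e : f' =ᶠ[𝓝 x] f) : SJ C ϖ f' x :=
  ⟨h.sm.congr_of_eventuallyEq e, fun k => by
    rw [(e.iteratedFDeriv ℝ k).eq_of_nhds]; exact h.bd k⟩

theorem SJ.mono (h : SJ C ϖ f x) (e : ∀ k, C k * ϖ ≤ D k * ϖ') : SJ D ϖ' f x :=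
  ⟨h.sm, fun k => (h.bd k).trans (e k)⟩

theorem SJ.smul {c : ℝ} (hc : 0 < c) (h : SJ C ϖ f (c • x)) : SJ C ϖ (fun z => f (c • z)) x :=
  ⟨h.sm.comp x (f := fun z : E4 => c • z) (by fun_prop), fun k => by
    refine le_trans ?_ (h.bd k)
    rw [norm_smul, Real.norm_of_nonneg hc.le, mul_pow, ← mul_assoc, mul_comm _ (c ^ k)]
    exact mul_le_mul_of_nonneg_right (norm_iter_smul f hc k x) (by positivity)⟩

theorem SJ.add (h : SJ C ϖ f x) (h' : SJ C ϖ' f' x) : SJ C (ϖ + ϖ') (fun z => f z + f' z) x :=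
  ⟨h.sm.add h'.sm, fun k => by
    have e := iteratedFDeriv_add_apply (h.sm.of_le (kle k)) (h'.sm.of_le (kle k))
    rw [show (fun z => f z + f' z) = f + f' from rfl, e, mul_add]
    refine (mul_le_mul_of_nonneg_right (norm_add_le _ _) (by positivity)).trans ?_
    rw [add_mul]; exact add_le_add (h.bd k) (h'.bd k)⟩

/-- the constants of a product -/
def cv (D C : ℕ → ℝ) (k : ℕ) : ℝ := ∑ i ∈ Finset.range (k + 1), (k.choose i : ℝ) * D i * C (k - i)

theorem cv_nonneg (hD : ∀ k, 0 ≤ D k) (hC : ∀ k, 0 ≤ C k) (k : ℕ) : 0 ≤ cv D C k :=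
  Finset.sum_nonneg fun i _ => mul_nonneg (mul_nonneg (by positivity) (hD i)) (hC _)

theorem SJ.mul (h' : SJ D 1 f' x) (h : SJ C ϖ f x) : SJ (cv D C) ϖ (fun z => f' z * f z) x :=
  ⟨h'.sm.mul h.sm, fun k => by
    have e := TR.bil_le (ContinuousLinearMap.mul ℝ ℝ) h'.sm h.sm k
    simp only [ContinuousLinearMap.mul_apply', ContinuousLinearMap.opNorm_mul, one_mul] at e
    refine (mul_le_mul_of_nonneg_right e (by positivity)).trans ?_
    rw [cv, Finset.sum_mul, Finset.sum_mul]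
    refine Finset.sum_le_sum fun i hi => ?_
    have hi' : i ≤ k := by simpa [Nat.lt_succ_iff] using hi
    have h1 := h'.bd i
    have h2 := mul_le_mul h1 (h.bd (k - i)) (by positivity) (le_trans (by positivity) h1)
    have h3 : ‖x‖ ^ k = ‖x‖ ^ i * ‖x‖ ^ (k - i) := by rw [← pow_add]; congr 1; omega
    have h4 := mul_le_mul_of_nonneg_left h2 (Nat.cast_nonneg (α := ℝ) (k.choose i))
    rw [h3]
    linarith⟩

theorem sj_const (c : ℝ) (hC : ∀ k, 0 ≤ C k * ϖ) (h0 : |c| ≤ C 0 * ϖ) : SJ C ϖ (fun _ => c) x :=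
  ⟨contDiffAt_const, fun k => by
    rcases eq_or_ne k 0 with rfl | hk
    · simpa [norm_iteratedFDeriv_zero] using h0
    · simpa [iteratedFDeriv_const_of_ne hk] using hC k⟩

theorem SJ.le (h : SJ C ϖ f x) (hx : x ≠ 0) (k : ℕ) :
    ‖iteratedFDeriv ℝ k f x‖ ≤ C k * (‖x‖ ^ k)⁻¹ * ϖ := by
  have h1 : 0 < ‖x‖ ^ k := pow_pos (norm_pos_iff.2 hx) k
  rw [mul_right_comm, ← div_eq_mul_inv, le_div_iff₀ h1]; exact h.bd k

/-- finitely many constants -/
theorem exists_seq {α : Type} [Finite α] {P : α → ℕ → ℝ → Prop} (h : ∀ a k, ∃ c, P a k c)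
    (hm : ∀ a k c c', c ≤ c' → P a k c → P a k c') : ∃ C : ℕ → ℝ, (∀ k, 0 ≤ C k) ∧ ∀ a k, P a k (C k) := by
  choose c hc using h
  choose B hB using fun k => (finite_range fun a => c a k).bddAbove
  exact ⟨fun k => max (B k) 0, fun k => le_max_right _ _, fun a k =>
    hm a k _ _ ((hB k (mem_range_self a)).trans (le_max_left _ _)) (hc a k)⟩

/-! ### the cut-off -/

theorem stp_zero {t : ℝ} (h : t ≤ 0) : stp 0 (1 / 10) t = 0 :=
  Real.smoothTransition.zero_of_nonpos (by rw [sub_zero, sub_zero]; linarith)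

theorem stp_one {t : ℝ} (h : 1 / 10 ≤ t) : stp 0 (1 / 10) t = 1 :=
  Real.smoothTransition.one_of_one_le (by rw [sub_zero, sub_zero]; linarith)

theorem cut_abs (t : ℝ) : |1 - stp 0 (1 / 10) t| ≤ 1 :=
  abs_le.2 ⟨by linarith [Real.smoothTransition.le_one ((t - 0) / (1 / 10 - 0)), show stp 0 (1 / 10) t =
    Real.smoothTransition ((t - 0) / (1 / 10 - 0)) from rfl], by
      linarith [Real.smoothTransition.nonneg ((t - 0) / (1 / 10 - 0)), show stp 0 (1 / 10) t =
        Real.smoothTransition ((t - 0) / (1 / 10 - 0)) from rfl]⟩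

theorem log_sm (hx : x ≠ 0) : ContDiffAt ℝ ∞ (fun z : E4 => Real.log ‖z‖) x :=
  (contDiffAt_norm ℝ hx).log (norm_ne_zero_iff.2 hx)

theorem cut_sj : ∃ A : ℕ → ℝ, (∀ k, 0 ≤ A k) ∧ ∀ σ : ℝ, σ = 1 ∨ σ = -1 → ∀ x : E4, x ≠ 0 →
    SJ A 1 (fun z => 1 - stp 0 (1 / 10) (σ * Real.log ‖z‖)) x := by
  have hs : ∀ (σ : ℝ) (x : E4), x ≠ 0 →
      ContDiffAt ℝ ∞ (fun z : E4 => 1 - stp 0 (1 / 10) (σ * Real.log ‖z‖)) x := fun σ x hx =>
    contDiffAt_const.sub (Real.smoothTransition.contDiff.contDiffAt.comp x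
      (((contDiffAt_const.mul (log_sm hx)).sub contDiffAt_const).div_const _))
  have hK : IsCompact (closedBall (0 : E4) 2 \ ball 0 (1 / 2)) :=
    (isCompact_closedBall _ _).diff isOpen_ball
  obtain ⟨A, h0, hA⟩ := exists_seq (α := Bool) (P := fun b k c => 1 ≤ c ∧
    ∀ x ∈ closedBall (0 : E4) 2 \ ball 0 (1 / 2), ‖iteratedFDeriv ℝ k
      (fun z : E4 => 1 - stp 0 (1 / 10) ((if b then 1 else -1) * Real.log ‖z‖)) x‖ * ‖x‖ ^ k ≤ c)
    (fun b k => by
      obtain ⟨c, hc⟩ := hK.exists_bound_of_continuousOn (f := fun x => ‖iteratedFDeriv ℝ k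
        (fun z : E4 => 1 - stp 0 (1 / 10) ((if b then 1 else -1) * Real.log ‖z‖)) x‖ * ‖x‖ ^ k)
        fun x hx => (((hs _ x (by rintro rfl; simp at hx)).continuousAt_iteratedFDeriv
          (kle k)).norm.mul (by fun_prop)).continuousWithinAt
      exact ⟨max 1 c, le_max_left _ _, fun x hx =>
        ((le_abs_self _).trans (hc x hx)).trans (le_max_right _ _)⟩)
    fun _ _ _ _ h h' => ⟨h'.1.trans h, fun x hx => (h'.2 x hx).trans h⟩
  have l2 : 1 / 10 < Real.log 2 := by linarith [Real.log_two_gt_d9]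
  refine ⟨A, h0, fun σ hσ x hx => ?_⟩
  have hc : ∀ c : ℝ, |c| ≤ 1 → SJ A 1 (fun _ => c) x := fun c h =>
    sj_const c (fun k => by simpa using h0 k) (by linarith [(hA true 0).1])
  have hl := (log_sm hx).continuousAt
  by_cases h1 : x ∈ closedBall (0 : E4) 2 \ ball 0 (1 / 2)
  · refine ⟨hs σ x hx, fun k => ?_⟩
    rcases hσ with rfl | rfl
    · simpa using (hA true k).2 x h1
    · simpa using (hA false k).2 x h1
  have h2 : 1 / 10 < Real.log ‖x‖ ∨ Real.log ‖x‖ < -(1 / 10) := by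
    simp only [Set.mem_sdiff, mem_closedBall_zero_iff, mem_ball_zero_iff, not_and_or, not_le,
      not_not] at h1
    refine h1.imp (fun h => l2.trans (Real.log_lt_log two_pos h)) fun h => ?_
    have := Real.log_lt_log (norm_pos_iff.2 hx) h
    rw [one_div, Real.log_inv] at this
    linarith
  rcases h2 with h2 | h2 <;> rcases hσ with rfl | rfl
  · exact (hc (1 - 1) (by simp)).congr ((hl.eventually (lt_mem_nhds h2)).mono fun z hz => by
      simp only; rw [stp_one (by linarith)])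
  · exact (hc (1 - 0) (by simp)).congr ((hl.eventually (lt_mem_nhds h2)).mono fun z hz => by
      simp only; rw [stp_zero (by linarith)])
  · exact (hc (1 - 0) (by simp)).congr ((hl.eventually (gt_mem_nhds h2)).mono fun z hz => by
      simp only; rw [stp_zero (by linarith)])
  · exact (hc (1 - 1) (by simp)).congr ((hl.eventually (gt_mem_nhds h2)).mono fun z hz => by
      simp only; rw [stp_one (by linarith)])

theorem log_smul (t : ℝ) (hx : x ≠ 0) : Real.log ‖Real.exp t • x‖ = t + Real.log ‖x‖ := by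
  rw [norm_smul, Real.norm_of_nonneg (Real.exp_pos t).le,
    Real.log_mul (Real.exp_pos t).ne' (norm_ne_zero_iff.2 hx), Real.log_exp]

/-! ### pull-back of matrices -/

/-- `A = Dᵀ B D` -/
def PM (D : E4 →L[ℝ] E4) (A B : Matrix (Fin 4) (Fin 4) ℝ) : Prop :=
  ∀ i j, A i j = bil B (D (AI.eb i)) (D (AI.eb j))

theorem pm_iff {G G' : MetricField 4} {F : E4 → E4} :
    matT G x = pullT F (matT G') x ↔ PM (fderiv ℝ F x) (G x) (G' (F x)) := by
  refine ⟨fun h i j => ?_, fun h => funext fun I => ?_⟩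
  · have := congrFun h ![i, j]
    rw [pullT, AI.evT_matT] at this
    exact this
  · rw [pullT, AI.evT_matT]; exact h _ _

section pm

variable {D : E4 →L[ℝ] E4} {A B A' B' : Matrix (Fin 4) (Fin 4) ℝ}

theorem PM.add (h : PM D A B) (h' : PM D A' B') : PM D (A + A') (B + B') := fun i j => by
  rw [Matrix.add_apply, h i j, h' i j]
  simp only [bil_apply, Matrix.add_apply, add_mul, Finset.sum_add_distrib]

theorem PM.sub (h : PM D A B) (h' : PM D A' B') : PM D (A - A') (B - B') := fun i j => by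
  rw [Matrix.sub_apply, h i j, h' i j]
  simp only [bil_apply, Matrix.sub_apply, sub_mul, Finset.sum_sub_distrib]

theorem PM.smul (h : PM D A B) (c : ℝ) : PM D (c • A) (c • B) := fun i j => by
  rw [Matrix.smul_apply, h i j]
  simp only [bil_apply, Matrix.smul_apply, smul_eq_mul, Finset.mul_sum, mul_assoc]

theorem PM.scale {c : ℝ} (h : PM (c • D) A B) : PM D A (c ^ 2 • B) := fun i j => by
  rw [h i j]
  simp only [bil_apply, Matrix.smul_apply, smul_eq_mul, _root_.smul_apply,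
    PiLp.smul_apply]
  exact Finset.sum_congr rfl fun _ _ => Finset.sum_congr rfl fun _ _ => by ring

theorem pm_one (γ : Iso4) : PM (γ.toContinuousLinearEquiv : E4 →L[ℝ] E4) 1 1 := fun i j => by
  have h := TR.bil_sub_inner (A := 1) (c := 0) (by simp) (γ (AI.eb i)) (γ (AI.eb j))
  rw [mul_zero, zero_mul, abs_nonpos_iff, sub_eq_zero, γ.inner_map_map] at h
  refine Eq.trans ?_ h.symm
  simp [Matrix.one_apply, EuclideanSpace.inner_single_left]

theorem pos_near {c : ℝ} (h : Pos c A) (hs : ∀ a b, B a b = B b a)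
    (h1 : ∀ a b, |B a b - A a b| ≤ c / 32) : Pos (c / 2) B := by
  refine ⟨hs, fun v => ?_⟩
  have h2 := (abs_le.1 (abs_bil_le (A := B - A) (C := c / 32) h1 v v)).1
  have h3 : bil (B - A) v v = bil B v v - bil A v v := by
    simp only [bil_apply, Matrix.sub_apply, sub_mul, Finset.sum_sub_distrib]
  have := h.2 v
  push_cast at h2
  nlinarith

theorem pos_one : Pos 1 (1 : Matrix (Fin 4) (Fin 4) ℝ) := by
  refine ⟨fun a b => by simp [Matrix.one_apply, eq_comm], fun v => ?_⟩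
  have h := TR.bil_sub_inner (A := 1) (c := 0) (by simp) v v
  rw [mul_zero, zero_mul, abs_nonpos_iff, sub_eq_zero, real_inner_self_eq_norm_sq] at h
  rw [h, one_mul]

end pm

/-! ### the reference metrics of the cores -/

variable {M : Type*} {T : TD M} {g : T.V → Fam T} {γ T0 : ℝ} {v w : T.V}

/-- the weight of the ends of `core v` -/
def ew (γ : ℝ) (v w : T.V) (x : E4) : ℝ := if w = v then ‖x‖ ^ (-γ) else ‖x‖ ^ γ

theorem ew_nonneg : 0 ≤ ew γ v w x := by unfold ew; split_ifs <;> positivity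

theorem core_ne (hx : x ∈ (T.core v).U (Sum.inr w)) : x ≠ 0 := by
  rw [← norm_pos_iff]
  by_cases h : w = v
  · subst h; linarith [TD.mem_core_out.1 hx]
  · exact ((TD.mem_core_inn h).1 hx).2.1

theorem tau_sj : ∃ A : ℕ → ℝ, (∀ k, 0 ≤ A k) ∧ ∀ (v w : T.V) (T0 : ℝ) (x : E4), x ≠ 0 →
    SJ A 1 (fun z => 1 - stp 0 (1 / 10) (tau T v w T0 z)) x := by
  obtain ⟨A, h0, hA⟩ := cut_sj
  refine ⟨A, h0, fun v w T0 x hx => ?_⟩
  have he : ∀ᶠ z in 𝓝 x, z ≠ 0 := isOpen_ne.mem_nhds hx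
  by_cases h : w = v
  · refine (SJ.smul (Real.exp_pos (-T0)) (hA 1 (Or.inl rfl) _
      (smul_ne_zero (Real.exp_pos _).ne' hx))).congr (he.mono fun z hz => ?_)
    simp only [tau, if_pos h, log_smul _ hz]
    congr 2; ring
  · refine (SJ.smul (Real.exp_pos T0) (hA (-1) (Or.inr rfl) _
      (smul_ne_zero (Real.exp_pos _).ne' hx))).congr (he.mono fun z hz => ?_)
    simp only [tau, if_neg h, log_smul _ hz]
    congr 2; ring

theorem lim_sj (hL : T.Lim g γ) : ∃ C : ℕ → ℝ, (∀ k, 0 ≤ C k) ∧ ∀ v w,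
    ∀ x ∈ (T.core v).U (Sum.inr w), ∀ a b, SJ C (ew γ v w x) (TD.dv (g v (Sum.inr w)) a b) x := by
  obtain ⟨C, h0, hC⟩ := exists_seq (α := T.V × T.V) (P := fun p k c =>
    ∀ x ∈ (T.core p.1).U (Sum.inr p.2), ∀ a b, ‖iteratedFDeriv ℝ k
      (TD.dv (g p.1 (Sum.inr p.2)) a b) x‖ * ‖x‖ ^ k ≤ c * ew γ p.1 p.2 x)
    (fun ⟨v, w⟩ k => by
      have key : ∀ (x : E4) (s c d : ℝ), x ≠ 0 → d ≤ c * ‖x‖ ^ (s - k) →
          d * ‖x‖ ^ k ≤ c * ‖x‖ ^ s := fun x s c d hx h => by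
        have h1 := norm_pos_iff.2 hx
        rwa [Real.rpow_sub h1, Real.rpow_natCast, ← mul_div_assoc, le_div_iff₀ (pow_pos h1 k)] at h
      by_cases h : w = v
      · subst h
        obtain ⟨c, hc⟩ := hL.out w k
        exact ⟨c, fun x hx a b => by
          simp only [ew, if_true]
          exact key x _ _ _ (core_ne hx) (hc a b x (TD.mem_core_out.1 hx))⟩
      by_cases hk : T.kid v w
      · obtain ⟨h1, rfl⟩ := hk
        obtain ⟨c, hc⟩ := hL.inn w h1 k
        exact ⟨c, fun x hx a b => by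
          have h2 := (TD.mem_core_inn h).1 hx
          simp only [ew, if_neg h]
          exact key x _ _ _ (core_ne hx) (hc a b x h2.2.1 h2.2.2)⟩
      · exact ⟨0, fun x hx => absurd ((TD.mem_core_inn h).1 hx).1 hk⟩)
    fun _ _ _ _ h h' x hx a b => (h' x hx a b).trans (mul_le_mul_of_nonneg_right h ew_nonneg)
  exact ⟨C, h0, fun v w x hx a b =>
    ⟨TR.sm_dv ((hL.met v).riem _) hx a b, fun k => hC (v, w) k x hx a b⟩⟩

theorem lim_small (hL : T.Lim g γ) (hx : x ∈ (T.core v).U (Sum.inr w)) (a b : Fin 4) :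
    |TD.dv (g v (Sum.inr w)) a b x| ≤ 1 / 100 := by
  by_cases h : w = v
  · subst h; exact hL.small_out w a b x (TD.mem_core_out.1 hx)
  · obtain ⟨⟨h1, rfl⟩, h2, h3⟩ := (TD.mem_core_inn h).1 hx
    exact hL.small_inn w h1 a b x h2 h3

theorem dv_gb (a b : Fin 4) : TD.dv (gb T g T0 v (Sum.inr w)) a b =
    fun z => (1 - stp 0 (1 / 10) (tau T v w T0 z)) * TD.dv (g v (Sum.inr w)) a b z := by
  funext z; simp [gb, TD.dv]

/-- jets of `gb - δ` on the ends, uniformly in `T0` -/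
theorem gb_sj (hL : T.Lim g γ) : ∃ C : ℕ → ℝ, (∀ k, 0 ≤ C k) ∧ ∀ T0 v w,
    ∀ x ∈ (T.core v).U (Sum.inr w), ∀ a b,
      SJ C (ew γ v w x) (TD.dv (gb T g T0 v (Sum.inr w)) a b) x := by
  obtain ⟨A, h0, hA⟩ := tau_sj (T := T)
  obtain ⟨C, h1, hC⟩ := lim_sj hL
  exact ⟨cv A C, cv_nonneg h0 h1, fun T0 v w x hx a b => by
    rw [dv_gb]; exact (hA v w T0 x (core_ne hx)).mul (hC v w x hx a b)⟩

theorem gb_small (hL : T.Lim g γ) (hx : x ∈ (T.core v).U (Sum.inr w)) (a b : Fin 4) :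
    |TD.dv (gb T g T0 v (Sum.inr w)) a b x| ≤ 1 / 100 := by
  rw [dv_gb, abs_mul]
  exact (mul_le_of_le_one_left (abs_nonneg _) (cut_abs _)).trans (lim_small hL hx a b)

theorem gb_symm (hL : T.Lim g γ) (hx : x ∈ (T.core v).U (Sum.inr w)) (a b : Fin 4) :
    gb T g T0 v (Sum.inr w) x a b = gb T g T0 v (Sum.inr w) x b a := by
  simp [gb, metric_symm ((hL.met v).riem _) hx a b, Matrix.one_apply, eq_comm]

theorem sm_of_dv {G : MetricField 4} {a b : Fin 4} (h : ContDiffAt ℝ ∞ (TD.dv G a b) x) :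
    ContDiffAt ℝ ∞ (fun y => G y a b) x := by
  simpa [TD.dv] using h.add (contDiffAt_const (c := (1 : Matrix (Fin 4) (Fin 4) ℝ) a b))

theorem gb_riem (hL : T.Lim g γ) (s : T.S) : IsRiemannianOn (gb T g T0 v s) ((T.core v).U s) := by
  cases s with
  | inl a => exact (hL.met v).riem _
  | inr w =>
    obtain ⟨C, -, hC⟩ := gb_sj hL
    exact ⟨((hL.met v).riem _).isOpen, fun a b x hx =>
      (sm_of_dv (hC T0 v w x hx a b).sm).contDiffWithinAt, fun x hx =>
      (pos_of_small (gb_symm hL hx) (gb_small hL hx)).posDef (by norm_num)⟩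

theorem gb_eq (h : tau T v w T0 x ≤ 0) : gb T g T0 v (Sum.inr w) x = g v (Sum.inr w) x := by
  simp [gb, -one_div, stp_zero h]

theorem gb_one (h : 1 / 10 ≤ tau T v w T0 x) : gb T g T0 v (Sum.inr w) x = 1 := by
  simp [gb, -one_div, stp_one h]

theorem gb_inv (h : T.Ok) (hL : T.Lim g γ) {e : Iso4} (he : e ∈ T.Γ w)
    (hx : x ∈ (T.core v).U (Sum.inr w)) : PM (e.toContinuousLinearEquiv : E4 →L[ℝ] E4)
      (gb T g T0 v (Sum.inr w) x) (gb T g T0 v (Sum.inr w) (e x)) := by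
  have h1 := pm_iff.1 ((hL.met v).compat _ _ _ _ ((h.core_ok v).tr_deck (a := Sum.inr w) he hx))
  rw [LinearIsometryEquiv.fderiv] at h1
  have h2 : tau T v w T0 (e x) = tau T v w T0 x := by simp [tau]
  simp only [gb, Sum.elim_inr, h2]
  exact (pm_one e).add ((h1.sub (pm_one e)).smul _)

theorem tau_base (h : T.Ok) (hT : 4 / T.r ≤ T0) (hx : x ∈ (T.base v).U (Sum.inr w)) :
    tau T v w T0 x ≤ 0 ∧ -(2 * T0) ≤ tau T v w T0 x := by
  have hr := h.r_pos
  have h4 : 4 < 4 / T.r := by rw [lt_div_iff₀ hr]; linarith [h.r_lt]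
  by_cases hw : w = v
  · subst hw
    obtain ⟨h1, h2⟩ := TD.mem_base_out.1 hx
    have := Real.log_le_self (norm_nonneg x)
    have := Real.log_pos h1
    simp only [tau, if_true]
    constructor <;> linarith
  · obtain ⟨-, h1, h2⟩ := (TD.mem_base_inn hw).1 hx
    have h3 : 0 < ‖x‖ := by linarith
    have h5 := Real.log_le_self (inv_pos.2 h3).le
    have h6 : ‖x‖⁻¹ ≤ 4 / T.r := by rw [inv_le_comm₀ h3 (by positivity), inv_div]; exact h1.le
    have := Real.log_neg h3 (h2.trans h.r_lt)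
    rw [Real.log_inv] at h5
    simp only [tau, if_neg hw]
    constructor <;> linarith

theorem gb_base (h : T.Ok) (hT : 4 / T.r ≤ T0) {s : T.S} (hx : x ∈ (T.base v).U s) :
    gb T g T0 v s x = g v s x := by
  cases s with
  | inl a => rfl
  | inr w => exact gb_eq (tau_base h hT hx).1

/-- the reference metric of a core -/
theorem gb_met (h : T.Ok) (hL : T.Lim g γ) (hT : 4 / T.r ≤ T0) (v : T.V) :
    (T.core v).IsMet (gb T g T0 v) := by
  refine ⟨gb_riem hL, (h.str_core v).compat_of h (fun a b x F u hu t e => ?_) fun w e he x hx => ?_⟩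
  · subst hu
    have e0 := e.self_of_nhds
    have h1 : ∀ s : T.S, TD.sc (fun _ _ => (1 : ℝ)) s u = 1 := fun s => by cases s <;> rfl
    simp only [h1, one_smul] at e0
    rw [pm_iff, gb_base h hT e0.1, gb_base h hT e0.2.1]
    exact pm_iff.1 ((hL.met u).compat _ _ _ _ t)
  · rw [pm_iff, LinearIsometryEquiv.fderiv]; exact gb_inv h hL he hx

end Crest.Agent.N207.Ga

end
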