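import Crest.Agent.N207.Ga.Defs
import Crest.Agent.N207.I.Cal1
import Crest.Agent.N207.I.Car3

/-!
# Row 207, GAUGE (helper67): `glue : GLUE X` and the shrunk atlas `sh L t`
-/

set_option autoImplicit false

open scoped ContDiff Topology
open Metric Set Filter
open Crest.GeometryTopology.CoordMetric
open Crest.Agent.N207.I Crest.Agent.N207.CB

noncomputable section

namespace Crest.Agent.N207.Ga

section res

variable {X : Type*} {α : Type} {A : Atl X α} {U' : α → Set E4} {k : ℕ} {a a' b : α} {x y : E4}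
  {F F' : E4 → E4} {S : α → Tn 4 k}

theorem tr_res (t : A.Tr a b x F) (h1 : x ∈ U' a) (h2 : F x ∈ U' b) : (res A U').Tr a b x F :=
  ⟨h1, h2, t.sm, t.eq⟩

theorem tr_of_res (hU : ∀ a, U' a ⊆ A.U a) (t : (res A U').Tr a b x F) : A.Tr a b x F :=
  ⟨hU a t.mem, hU b t.mem', t.sm, t.eq⟩

theorem res_ok (h : A.Ok) (ho : ∀ a, IsOpen (U' a)) (hU : ∀ a, U' a ⊆ A.U a)
    (hi : ∀ a, ∀ γ ∈ A.Γ a, ∀ x ∈ U' a, γ x ∈ U' a) : (res A U').Ok where
  isOpen := ho
  fin := h.fin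
  inv := hi
  free a γ hγ x hx := h.free a γ hγ x (hU a hx)
  fib a x hx y hy := h.fib a x (hU a hx) y (hU a hy)
  loc a b x hx y hy e := by
    obtain ⟨F, t, rfl⟩ := h.loc a b x (hU a hx) y (hU b hy) e
    exact ⟨F, tr_res t hx hy, rfl⟩
  t2 a b x hx y hy := h.t2 a b x (hU a hx) y (hU b hy)

theorem res_pou [Fintype α] {χ : α → X → ℝ} {K : α → Set E4} (hχ : A.PoU χ K)
    (hU : ∀ a, U' a ⊆ A.U a) (hK : ∀ a, K a ⊆ U' a) : (res A U').PoU χ K where
  sm a b := (hχ.sm a b).mono (hU b)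
  nonneg := hχ.nonneg
  sum b y hy := hχ.sum b y (hU b hy)
  sub := hK
  supp a b y hy := hχ.supp a b y (hU b hy)
  cl a b y hy := hχ.cl a b y (hU b hy)

theorem res_compat (hU : ∀ a, U' a ⊆ A.U a) (hS : A.Compat S) : (res A U').Compat S :=
  fun a b x F t => hS a b x F (tr_of_res hU t)

theorem res_sec (hU : ∀ a, U' a ⊆ A.U a) (hS : A.Sec S) : (res A U').Sec S :=
  ⟨fun a I => (hS.sm a I).mono (hU a), res_compat hU hS.compat⟩

theorem res_compF {Y : Type*} {f : α → E4 → Y} (hU : ∀ a, U' a ⊆ A.U a) (hf : A.CompF f) :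
    (res A U').CompF f := fun a b x hx y hy e => hf a b x (hU a hx) y (hU b hy) e

/-- every point is seen in a chart, inside the support of the partition of unity -/
theorem pou_cover [Fintype α] {χ : α → X → ℝ} {K : α → Set E4} (h : A.Ok) (hχ : A.PoU χ K)
    (hy : y ∈ A.U b) : ∃ a F, A.Tr b a y F ∧ F y ∈ K a := by
  obtain ⟨a, -, ha⟩ := Finset.exists_ne_zero_of_sum_ne_zero (s := Finset.univ)
    (f := fun a => χ a (A.c b y)) (by rw [hχ.sum b y hy]; exact one_ne_zero)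
  obtain ⟨x, hx, e⟩ := hχ.supp a b y hy ha
  obtain ⟨F, t, rfl⟩ := h.loc b a y hy x (hχ.sub a hx) e.symm
  exact ⟨a, F, t, hx⟩

theorem pull_wd (h : A.Ok) (hS : (res A U').Compat S) (t : A.Tr b a y F) (hF : F y ∈ U' a)
    (t' : A.Tr b a' y F') (hF' : F' y ∈ U' a') : pullT F (S a) y = pullT F' (S a') y := by
  obtain ⟨H, s, e⟩ := h.loc a a' _ t.mem' _ t'.mem' (t.eq0.trans t'.eq0.symm)
  have h1 := hS a a' _ H (tr_res s hF (e ▸ hF'))
  rw [AI.pullT_congr (T := S a) (T' := pullT H (S a')) EventuallyEq.rfl h1,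
    AI.pullT_comp (S a') t.diff s.diff]
  exact AI.pullT_congr ((t.comp s).uniq h t' e) rfl

open Classical in
/-- the extension of a section of the restricted atlas -/
def glT (A : Atl X α) (U' : α → Set E4) (S : α → Tn 4 k) (b : α) : Tn 4 k := fun y =>
  if h : ∃ p : α × (E4 → E4), A.Tr b p.1 y p.2 ∧ p.2 y ∈ U' p.1 then
    pullT h.choose.2 (S h.choose.1) y else 0

theorem glT_eq (h : A.Ok) (hS : (res A U').Compat S) (t : A.Tr b a y F) (hF : F y ∈ U' a) :
    glT A U' S b y = pullT F (S a) y := by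
  have h1 : ∃ p : α × (E4 → E4), A.Tr b p.1 y p.2 ∧ p.2 y ∈ U' p.1 := ⟨(a, F), t, hF⟩
  rw [glT, dif_pos h1]
  exact pull_wd h hS h1.choose_spec.1 h1.choose_spec.2 t hF

theorem glT_self (h : A.Ok) (hU : ∀ a, U' a ⊆ A.U a) (hS : (res A U').Compat S) (hx : x ∈ U' a) :
    glT A U' S a x = S a x := by
  rw [glT_eq h hS (Atl.tr_id (hU a hx)) hx, AI.pullT_id]

theorem sec_glT (h : A.Ok) (ho : ∀ a, IsOpen (U' a)) (hS : (res A U').Sec S)
    (hc : ∀ b, ∀ y ∈ A.U b, ∃ a F, A.Tr b a y F ∧ F y ∈ U' a) : A.Sec (glT A U' S) := by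
  refine ⟨fun b I y hy => ContDiffAt.contDiffWithinAt ?_, fun b d y F t => ?_⟩
  · obtain ⟨a, F, t, hF⟩ := hc b y hy
    obtain ⟨V, h1, h2, h3⟩ :=
      _root_.eventually_nhds_iff.1 ((t.ev h).and (t.cont ((ho a).mem_nhds hF)))
    have h4 : SmT (pullT F (S a)) V :=
      AI.smT_pullT h2 (fun z hz => (h1 z hz).1.cda.contDiffWithinAt) (fun z hz => (h1 z hz).2)
        (hS.sm a)
    refine ((h4 I).contDiffAt (h2.mem_nhds h3)).congr_of_eventuallyEq ?_
    filter_upwards [h2.mem_nhds h3] with z hz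
    rw [glT_eq h hS.compat (h1 z hz).1 (h1 z hz).2]
  · obtain ⟨a, F', t', hF⟩ := hc d _ t.mem'
    rw [glT_eq h hS.compat (t.comp t') hF, ← AI.pullT_comp (S a) t.diff t'.diff]
    exact AI.pullT_congr EventuallyEq.rfl (glT_eq h hS.compat t' hF).symm

end res

/-- **GLUE** -/
theorem glue {X : Type*} : GLUE X := by
  intro α _ A χ K U' k S h hχ h' hK hU hS
  refine ⟨glT A U' S, sec_glT h h'.isOpen hS fun b y hy => ?_,
    fun a x hx => glT_self h hU hS.compat hx⟩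
  obtain ⟨a, F, t, hF⟩ := pou_cover h hχ hy
  exact ⟨a, F, t, hK a hF⟩

variable {M : Type*} {T : TD M} {L : T.V → ℝ} {t : ℝ}

theorem mem_gU_inl {a : T.B} {x : E4} : x ∈ gU T L t (Sum.inl a) ↔ ‖x‖ < 3 / 2 + t / 8 := by
  simp [gU]

theorem mem_gU_inr {w : T.V} {x : E4} : x ∈ gU T L t (Sum.inr w) ↔ 3 / 2 * (1 - t / 8) < ‖x‖ ∧
    (w ≠ T.root → ‖x‖ < 3 / 4 * T.r * Real.exp (L w) * (1 + t / 8)) := Iff.rfl

theorem gU_open (s : T.S) : IsOpen (gU T L t s) := by
  cases s with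
  | inl a => exact isOpen_ball
  | inr w =>
    by_cases hw : w = T.root
    · have : gU T L t (Sum.inr w) = {x | 3 / 2 * (1 - t / 8) < ‖x‖} := by
        ext x; simp [mem_gU_inr, hw]
      rw [this]; exact isOpen_lt continuous_const continuous_norm
    · have : gU T L t (Sum.inr w) = {x | 3 / 2 * (1 - t / 8) < ‖x‖} ∩
          {x | ‖x‖ < 3 / 4 * T.r * Real.exp (L w) * (1 + t / 8)} := by
        ext x; simp [mem_gU_inr, hw]
      rw [this]
      exact (isOpen_lt continuous_const continuous_norm).inter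
        (isOpen_lt continuous_norm continuous_const)

theorem gK_sub (h : T.Ok) (ht : 0 < t) (s : T.S) : T.gK L s ⊆ gU T L t s := by
  intro x hx
  cases s with
  | inl a => rw [TD.mem_gK_inl] at hx; rw [mem_gU_inl]; linarith
  | inr w =>
    rw [TD.mem_gK_inr] at hx
    refine mem_gU_inr.2 ⟨by linarith [hx.1], fun hw => (hx.2 hw).trans_lt ?_⟩
    have := h.r_pos
    have h1 : 0 < 3 / 4 * T.r * Real.exp (L w) := by positivity
    nlinarith

theorem gU_mono (h : T.Ok) {t' : ℝ} (ht : t ≤ t') (s : T.S) : gU T L t s ⊆ gU T L t' s := by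
  intro x hx
  cases s with
  | inl a => rw [mem_gU_inl] at hx ⊢; linarith
  | inr w =>
    rw [mem_gU_inr] at hx ⊢
    refine ⟨by linarith [hx.1], fun hw => (hx.2 hw).trans_le ?_⟩
    have := h.r_pos
    have h1 : 0 < 3 / 4 * T.r * Real.exp (L w) := by positivity
    nlinarith

theorem gU_sub' (h : T.Ok) (ht : t ≤ 2) (s : T.S) : gU T L t s ⊆ (T.glob L).U s := by
  intro x hx
  cases s with
  | inl a => rw [mem_gU_inl] at hx; rw [TD.mem_glob_inl]; linarith
  | inr w =>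
    rw [mem_gU_inr] at hx
    refine TD.mem_glob_inr.2 ⟨by linarith [hx.1], fun hw => (hx.2 hw).trans_le ?_⟩
    have := h.r_pos
    have h1 : 0 < T.r * Real.exp (L w) := by positivity
    nlinarith

theorem gU_sub (h : T.Ok) (ht : t ≤ 1) (s : T.S) : gU T L t s ⊆ (T.glob L).U s :=
  gU_sub' h (by linarith) s

theorem gU_inv (s : T.S) {γ : Iso4} (hγ : γ ∈ (T.glob L).Γ s) {x : E4} (hx : x ∈ gU T L t s) :
    γ x ∈ gU T L t s := by
  cases s with
  | inl a => rw [mem_gU_inl] at hx ⊢; rwa [γ.norm_map]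
  | inr w => rw [mem_gU_inr] at hx ⊢; rwa [γ.norm_map]

theorem sh_Ok (h : T.Ok) (hL : T.Long L) (ht : t ≤ 2) : (sh T L t).Ok :=
  res_ok (h.glob_ok hL) gU_open (gU_sub' h ht) fun s _ hγ _ hx => gU_inv s hγ hx

theorem sh_pou (h : T.Ok) (hL : T.Long L) (h0 : 0 < t) (ht : t ≤ 2) :
    (sh T L t).PoU T.χ (T.gK L) := res_pou (h.glob_pou hL) (gU_sub' h ht) (gK_sub h h0)

theorem norm_rs {x : E4} (hx : x ≠ 0) {c : ℝ} (hc : 0 ≤ c) : ‖(c / ‖x‖) • x‖ = c := by
  have := norm_pos_iff.2 hx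
  rw [norm_smul, Real.norm_of_nonneg (by positivity)]; field_simp

theorem dist_rs {x : E4} (hx : x ≠ 0) (c : ℝ) : dist x ((c / ‖x‖) • x) = |‖x‖ - c| := by
  have := norm_pos_iff.2 hx
  rw [dist_eq_norm, show x - (c / ‖x‖) • x = (1 - c / ‖x‖) • x by rw [sub_smul, one_smul],
    norm_smul, Real.norm_eq_abs, ← abs_of_pos this, ← abs_mul, abs_of_pos this]
  congr 1; field_simp

/-- every point of `gU L t` lies in a cell of radius `t * rad` -/
theorem gU_cell (hL : T.Long L) (h0 : 0 < t) (ht : t ≤ 2) (s : T.S) {x : E4}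
    (hx : x ∈ gU T L t s) : ∃ x0 ∈ T.gK L s, x ∈ ball x0 (t * rad T s x0) := by
  cases s with
  | inl a =>
    rw [mem_gU_inl] at hx
    by_cases h1 : ‖x‖ ≤ 3 / 2
    · exact ⟨x, TD.mem_gK_inl.2 h1, mem_ball_self (by simp only [rad, Sum.elim_inl]; positivity)⟩
    · have hx0 : x ≠ 0 := by rintro rfl; simp at h1; linarith
      refine ⟨((3 / 2) / ‖x‖) • x, TD.mem_gK_inl.2 (norm_rs hx0 (by norm_num)).le, ?_⟩
      rw [mem_ball, dist_rs hx0, abs_of_nonneg (by linarith)]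
      simp only [rad, Sum.elim_inl]; linarith
  | inr w =>
    rw [mem_gU_inr] at hx
    have hp : 0 < ‖x‖ := by linarith [hx.1]
    have hx0 : x ≠ 0 := norm_pos_iff.1 hp
    by_cases h1 : ‖x‖ < 3 / 2
    · refine ⟨((3 / 2) / ‖x‖) • x, TD.mem_gK_inr.2 ?_, ?_⟩
      · rw [norm_rs hx0 (by norm_num)]
        exact ⟨le_rfl, fun hw => by linarith [hL w hw]⟩
      · rw [mem_ball, dist_rs hx0, abs_of_neg (by linarith)]
        simp only [rad, Sum.elim_inr]
        rw [norm_rs hx0 (by norm_num)]; linarith [hx.1]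
    · by_cases h2 : w ≠ T.root → ‖x‖ ≤ 3 / 4 * T.r * Real.exp (L w)
      · exact ⟨x, TD.mem_gK_inr.2 ⟨by linarith, h2⟩,
          mem_ball_self (by simp only [rad, Sum.elim_inr]; positivity)⟩
      · push Not at h2
        obtain ⟨hw, h2⟩ := h2
        have h3 := hL w hw
        have h4 : 0 ≤ 3 / 4 * T.r * Real.exp (L w) := by linarith
        refine ⟨((3 / 4 * T.r * Real.exp (L w)) / ‖x‖) • x, TD.mem_gK_inr.2 ?_, ?_⟩
        · rw [norm_rs hx0 h4]
          exact ⟨by linarith, fun _ => le_rfl⟩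
        · rw [mem_ball, dist_rs hx0, abs_of_pos (by linarith)]
          simp only [rad, Sum.elim_inr]
          rw [norm_rs hx0 h4]; linarith [hx.2 hw]

/-- cells of radius `t * rad` lie in `gU L t` -/
theorem cell_gU (h0 : 0 ≤ t) (s : T.S) {x0 x : E4} (hx0 : x0 ∈ T.gK L s)
    (hx : x ∈ ball x0 (t * rad T s x0)) (ht : t ≤ 8) : x ∈ gU T L t s := by
  rw [mem_ball, dist_eq_norm] at hx
  have h1 := norm_sub_norm_le x x0
  have h2 := norm_sub_norm_le x0 x
  rw [norm_sub_rev] at h2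
  cases s with
  | inl a =>
    rw [TD.mem_gK_inl] at hx0
    simp only [rad, Sum.elim_inl] at hx
    rw [mem_gU_inl]; linarith
  | inr w =>
    rw [TD.mem_gK_inr] at hx0
    simp only [rad, Sum.elim_inr] at hx
    refine mem_gU_inr.2 ⟨by nlinarith [hx0.1], fun hw => ?_⟩
    nlinarith [hx0.2 hw]

/-- **sh_ok** -/
theorem sh_ok (h : T.Ok) (hL : T.Long L) (h0 : 0 < t) (ht : t ≤ 1) :
    (sh T L t).Ok ∧ (sh T L t).PoU T.χ (T.gK L) ∧ (∀ s, T.gK L s ⊆ gU T L t s) ∧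
      (∀ s, gU T L t s ⊆ (T.glob L).U s) ∧
      ∀ s, ∀ x ∈ gU T L t s, ∃ x0 ∈ T.gK L s, x ∈ ball x0 (t * rad T s x0) :=
  ⟨sh_Ok h hL (by linarith), sh_pou h hL h0 (by linarith), gK_sub h h0, gU_sub h ht,
    fun s _ hx => gU_cell hL h0 (by linarith) s hx⟩

end Crest.Agent.N207.Ga

end
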