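import Crest.Agent.N207.Ga.St2

/-!
# Row 207, GAUGE (helper56): `C³` harmonic maps are smooth (Schauder bootstrap)
-/

set_option autoImplicit false

open scoped ContDiff
open Metric Set Filter Topology
open Crest.GeometryTopology.CoordMetric Crest.Agent.R202.Tens
open Crest.Agent.NLib.Ell Crest.Agent.N207.K
open Crest.Agent.R238 (Ell)

noncomputable section

namespace Crest.Agent.N207.Ga

/-- uniform ellipticity on a compact set -/
theorem bt_ell {K : Set E4} (hK : IsCompact K) {A : E4 → Matrix (Fin 4) (Fin 4) ℝ}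
    (hA : ∀ i j, ContinuousOn (fun y => A y i j) K) (hp : ∀ y ∈ K, (A y).PosDef) :
    ∃ lo hi : ℝ, 0 < lo ∧ lo ≤ hi ∧ ∀ y ∈ K, Ell lo hi (A y) := by
  have hS : IsCompact (K ×ˢ sphere (0 : E4) 1) := hK.prod (isCompact_sphere _ _)
  have hc : ContinuousOn (fun z : E4 × E4 => ∑ i, ∑ j, A z.1 i j * z.2 i * z.2 j)
      (K ×ˢ sphere (0 : E4) 1) :=
    continuousOn_finsetSum _ fun i _ => continuousOn_finsetSum _ fun j _ =>
      (((hA i j).comp continuousOn_fst fun _ h => h.1).mul (by fun_prop)).mul (by fun_prop)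
  obtain ⟨lo, hlo, H1⟩ := hS.exists_forall_le' hc (a := 0) fun z hz => by
    have h0 : (z.2.ofLp : Fin 4 → ℝ) ≠ 0 := fun h => by
      have h1 : z.2 = 0 := by ext i; exact congrFun h i
      have h2 := hz.2
      rw [h1] at h2; simp at h2
    have := (hp z.1 hz.1).dotProduct_mulVec_pos h0
    simp only [dotProduct, Matrix.mulVec, star_trivial, Finset.mul_sum] at this
    refine this.trans_eq (Finset.sum_congr rfl fun i _ => Finset.sum_congr rfl fun j _ => by ring)
  obtain ⟨hi, H2⟩ := hS.exists_bound_of_continuousOn hc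
  refine ⟨lo, max lo hi, hlo, le_max_left _ _, fun y hy => ⟨fun i j => ?_, fun z => ?_⟩⟩
  · simpa using ((hp y hy).isHermitian.apply j i)
  · by_cases hz : z = 0
    · simp [hz]
    have hN : 0 < ‖(WithLp.toLp 2 z : E4)‖ := norm_pos_iff.2 fun h => hz (by simpa using h)
    have hm : (y, ‖(WithLp.toLp 2 z : E4)‖⁻¹ • (WithLp.toLp 2 z : E4)) ∈
        K ×ˢ sphere (0 : E4) 1 := ⟨hy, by simp [norm_smul, hN.ne']⟩
    have hsq : ‖(WithLp.toLp 2 z : E4)‖ ^ 2 = ∑ i, z i ^ 2 := by
      simp [EuclideanSpace.real_norm_sq_eq]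
    have e : ∑ i, ∑ j, A y i j * z i * z j = (∑ i, ∑ j, A y i j
        * (‖(WithLp.toLp 2 z : E4)‖⁻¹ • (WithLp.toLp 2 z : E4)) i
        * (‖(WithLp.toLp 2 z : E4)‖⁻¹ • (WithLp.toLp 2 z : E4)) j) * ∑ i, z i ^ 2 := by
      rw [← hsq]
      simp only [Finset.sum_mul, PiLp.smul_apply, smul_eq_mul]
      refine Finset.sum_congr rfl fun i _ => Finset.sum_congr rfl fun j _ => ?_
      field_simp
    have hpos : 0 ≤ ∑ i, z i ^ 2 := by positivity
    rw [e]
    exact ⟨mul_le_mul_of_nonneg_right (H1 _ hm) hpos,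
      mul_le_mul_of_nonneg_right (((le_abs_self _).trans (H2 _ hm)).trans (le_max_right _ _)) hpos⟩

/-- of class `C^{k,1/2}` on `S` -/
def EC {F : Type} [NormedAddCommGroup F] [NormedSpace ℝ F] (S : Set E4) (k : ℕ) (f : E4 → F) :
    Prop := ∃ V, CKA (1 / 2) S k V f

variable {S : Set E4} {k : ℕ}

theorem EC.mul {f g : E4 → ℝ} (hS : IsOpen S) (hf : EC S k f) (hg : EC S k g) :
    EC S k fun x => f x * g x := ⟨_, hf.choose_spec.mul hS hg.choose_spec⟩

theorem EC.sub {f g : E4 → ℝ} (hS : IsOpen S) (hf : EC S k f) (hg : EC S k g) :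
    EC S k fun x => f x - g x := ⟨_, hf.choose_spec.sub hS hg.choose_spec⟩

theorem EC.sum {F : Type} [NormedAddCommGroup F] [NormedSpace ℝ F] {f : Fin 4 → E4 → F}
    (hS : IsOpen S) (h : ∀ i, EC S k (f i)) : EC S k fun x => ∑ i, f i x := by
  simp only [Fin.sum_univ_four]
  exact ⟨_, (((h 0).choose_spec.add hS (h 1).choose_spec).add hS (h 2).choose_spec).add hS
    (h 3).choose_spec⟩

theorem EC.cmp {u : E4 → E4} (hS : IsOpen S) (h : EC S k u) (n : Fin 4) :
    EC S k fun x => u x n :=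
  ⟨_, h.choose_spec.clm hS (EuclideanSpace.proj n : E4 →L[ℝ] ℝ) le_rfl⟩

theorem EC.of_cmp {u : E4 → E4} (hS : IsOpen S) (h : ∀ n, EC S k fun x => u x n) : EC S k u := by
  obtain ⟨V, hV⟩ := EC.sum (f := fun n x => u x n • (EuclideanSpace.single n 1 : E4)) hS fun n =>
    ⟨_, (h n).choose_spec.smulF hS (CKA.const _)⟩
  exact ⟨V, hV.congr hS fun x _ => eq_sum_single (u x)⟩

theorem EC.pd {w : E4 → ℝ} (h : EC S (k + 1) w) (i : Fin 4) : EC S k (pderiv i w) :=
  ⟨_, h.choose_spec.pd i⟩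

theorem D2_pd {w : E4 → ℝ} {x : E4} (hu : ContDiffAt ℝ 2 w x) (i j : Fin 4) :
    fderiv ℝ (fderiv ℝ w) x (ei i) (ei j) = pderiv i (pderiv j w) x := by
  have hd : DifferentiableAt ℝ (fderiv ℝ w) x :=
    (hu.fderiv_right (m := 1) (by norm_num)).differentiableAt (by norm_num)
  exact (congrArg (fun L : E4 →L[ℝ] ℝ => L (ei i))
    ((ContinuousLinearMap.apply ℝ ℝ (ei j : E4)).hasFDerivAt.comp x hd.hasFDerivAt).fderiv).symm

theorem boot : BOOT := by
  intro G g U W u hG hg hu hm ht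
  have hU := hG.isOpen
  refine contDiffOn_infty.2 fun m y hy => ContDiffAt.contDiffWithinAt ?_
  obtain ⟨ρ, hρ, hρW⟩ := Metric.nhds_basis_closedBall.mem_iff.1 (hg.isOpen.mem_nhds (hm y hy))
  obtain ⟨r0, hr0, h0⟩ := Metric.nhds_basis_closedBall.mem_iff.1 (inter_mem (hU.mem_nhds hy)
    ((hu.continuousOn.continuousAt (hU.mem_nhds hy)).preimage_mem_nhds (ball_mem_nhds _ hρ)))
  obtain ⟨r, hr, hr1, hrr⟩ : ∃ r : ℝ, 0 < r ∧ r ≤ 1 ∧ r ≤ r0 :=
    ⟨min 1 r0, lt_min one_pos hr0, min_le_left _ _, min_le_right _ _⟩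
  have hB : ∀ {s : ℝ}, s ≤ r → closedBall y s ⊆ U := fun hs x hx =>
    (h0 (closedBall_subset_closedBall (hs.trans hrr) hx)).1
  have hi : ∀ i j, ContDiffOn ℝ ∞ (fun x => (G x)⁻¹ i j) U := contDiffOn_inv_entry hG
  obtain ⟨lo, hi', hlo, hlh, hE⟩ := bt_ell (isCompact_closedBall y r) (A := fun x => (G x)⁻¹)
    (fun i j => (hi i j).continuousOn.mono (hB le_rfl)) fun x hx => (hG.posDef x (hB le_rfl hx)).inv
  have step : ∀ (k : ℕ) (s : ℝ), 0 < s → s ≤ r → EC (ball y s) (k + 2) u →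
      EC (ball y (s / 2)) (k + 3) u := fun k s hs hsr h => by
    have o : IsOpen (ball y s) := isOpen_ball
    have sm : ∀ {F : Type} [NormedAddCommGroup F] [NormedSpace ℝ F] {f : E4 → F},
        ContDiffOn ℝ ∞ f U → EC (ball y s) (k + 1) f := fun hf =>
      exists_cka hU hf (hB hsr) (by norm_num) (by norm_num) _
    obtain ⟨M, hM⟩ := sm (f := fun x i j => (G x)⁻¹ i j)
      (contDiffOn_pi.2 fun i => contDiffOn_pi.2 fun j => hi i j)
    have hM0 : 0 ≤ M := hM.nonneg (mem_ball_self hs)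
    obtain ⟨C, -, hC⟩ := schAll 4 (k + 1) (1 / 2) lo hi' M s (by norm_num) (by norm_num) hlo hlh hs
      (hsr.trans hr1)
    have hΓ : ∀ n p q, EC (ball y s) (k + 1) fun x => christoffel g (u x) n p q := fun n p q => by
      obtain ⟨K, -, hK⟩ := exists_db hg.isOpen (contDiffOn_christoffel hg n p q)
        (isCompact_closedBall _ ρ) hρW ball_subset_closedBall (k + 1 + 1)
      exact ⟨_, hK.comp o isOpen_ball (convex_ball _ _) (fun x hx =>
        (h0 (closedBall_subset_closedBall (hsr.trans hrr) (ball_subset_closedBall hx))).2)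
        h.choose_spec.pred⟩
    refine EC.of_cmp isOpen_ball fun n => ?_
    obtain ⟨N, hN⟩ : EC (ball y s) (k + 1) fun x => ∑ a, ∑ d, (G x)⁻¹ a d *
        (∑ l, pderiv l (fun z => u z n) x * christoffel G x l a d - ∑ p, ∑ q,
          christoffel g (u x) n p q * (pderiv a (fun z => u z p) x * pderiv d (fun z => u z q) x)) :=
      EC.sum o fun a => EC.sum o fun d => (sm (hi a d)).mul o
        ((EC.sum o fun l => ((h.cmp o n).pd l).mul o (sm (contDiffOn_christoffel hG l a d))).sub o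
          (EC.sum o fun p => EC.sum o fun q =>
            (hΓ n p q).mul o (((h.cmp o p).pd a).mul o ((h.cmp o q).pd d))))
    obtain ⟨V, hV⟩ := h.cmp o n
    refine ⟨_, hC y (fun x => (G x)⁻¹) (fun _ _ => 0) (fun _ => 0) _ _ N V
      (fun x hx => hE x (closedBall_subset_closedBall hsr (ball_subset_closedBall hx)))
      (fun i j => (hM.apply o i).apply o j) (fun _ => CKA.zero.mono hM0) (CKA.zero.mono hM0) hN
      ⟨V, hV.of_le (by omega)⟩ (fun x hx => hV.bdd hx) fun x hx => ?_⟩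
    have h2 : ContDiffAt ℝ 2 (fun z => u z n) x :=
      ((hV.of_le (j := 2) (by omega)).contDiffOn o (by norm_num)).contDiffAt (o.mem_nhds hx)
    have e := ht x (hB hsr (ball_subset_closedBall hx)) n
    simp only [tau, add_sub_assoc, mul_add, mul_sub, Finset.sum_add_distrib,
      Finset.sum_sub_distrib, ← D2_pd h2] at e
    simp only [zero_mul, Finset.sum_const_zero, add_zero, R273.SchB_152.P2, R238.Sch.D2, mul_sub,
      Finset.sum_sub_distrib]
    exact eq_sub_of_add_eq (by rw [← sub_eq_zero, ← e]; exact (add_sub_assoc _ _ _))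
  have H : ∀ k : ℕ, EC (ball y (r / 2 ^ k)) (k + 2) u := fun k => by
    induction k with
    | zero =>
      have hb : ∀ j : Fin 4, ∃ B, ∀ x ∈ closedBall y r, ‖iteratedFDeriv ℝ j u x‖ ≤ B := fun j =>
        (isCompact_closedBall y r).exists_bound_of_continuousOn fun x hx =>
          ((hu.contDiffAt (hU.mem_nhds (hB le_rfl hx))).continuousAt_iteratedFDeriv
            (by exact_mod_cast Nat.lt_succ_iff.1 j.2)).continuousWithinAt
      choose B hB' using hb
      rw [pow_zero, div_one]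
      refine ⟨_, CKA.of_bounds (M := ∑ j, |B j|) isOpen_ball (convex_ball _ _) (by norm_num)
        (by norm_num) (hu.mono (ball_subset_closedBall.trans (hB le_rfl))) fun j hj x hx => ?_⟩
      exact ((hB' ⟨j, by omega⟩ x (ball_subset_closedBall hx)).trans (le_abs_self _)).trans
        (Finset.single_le_sum (f := fun j => |B j|) (fun _ _ => abs_nonneg _) (Finset.mem_univ _))
    | succ k ih =>
      have := step k _ (by positivity) (div_le_self hr.le (one_le_pow₀ one_le_two)) ih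
      rwa [div_div, ← pow_succ] at this
  obtain ⟨V, hV⟩ := H m
  exact ((hV.of_le (j := m) (by omega)).contDiffOn isOpen_ball (by norm_num)).contDiffAt
    (ball_mem_nhds y (by positivity))

end Crest.Agent.N207.Ga

end
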