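import Crest.Agent.N207.Ga.Met3
import Crest.Agent.N207.A.Co3
import Crest.Agent.N207.K.Sch

/-!
# Row 207 (helper18): the metric data of one cell from bounds on the jets
-/

set_option autoImplicit false

open scoped ContDiff
open Metric Set Filter Topology
open Crest.GeometryTopology.CoordMetric Crest.Agent.NLib.Ell
open Crest.Agent.N207.CB Crest.Agent.N207.Jt Crest.Agent.N207.K Crest.Agent.N207.TR

noncomputable section

namespace Crest.Agent.N207.Ga

theorem ob2 : IsOpen B2 := isOpen_ball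

section fo

variable {ι : Type} {m : ℕ} {w : ι → ℝ} {x : ι → E4} {g : ι → MetricField 4}

theorem fo_of_db {f : ι → E4 → ℝ} {K : ℝ} (hx : ∀ j, x j ∈ B2)
    (h : ∀ j, DB B2 m (K * |w j|) (f j)) : FO m w f x :=
  FO.of_le (fun j => (h j).sm.contDiffAt (ob2.mem_nhds (hx j))) fun k hk j => (h j).bd k hk _ (hx j)

theorem fo_le {α : Type} [Finite α] {f : α → ι → E4 → ℝ} (h : ∀ a, FO m w (f a) x) :
    ∃ C, 0 < C ∧ ∀ a j, ∀ k ≤ m, ‖iteratedFDeriv ℝ k (f a j) (x j)‖ ≤ C * |w j| := by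
  choose C _ hC using fun a => (h a).le
  obtain ⟨D, hD⟩ := (finite_range C).bddAbove
  exact ⟨max D 1, by positivity, fun a j k hk => (hC a k hk j).trans (mul_le_mul_of_nonneg_right
    ((hD (mem_range_self a)).trans (le_max_left _ _)) (abs_nonneg _))⟩

theorem fo_mul {u v : ι → E4 → ℝ} (hu : FO m w u x) (hv : FO m (fun _ => 1) v x) :
    FO m w (fun j z => u j z * v j z) x := hu.bil (ContinuousLinearMap.mul ℝ ℝ) hv

theorem fo_inv {c : ℝ} (hc : 0 < c) (h : ∀ a b, FO m (fun _ => 1) (fun j y => g j y a b) x)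
    (hp : ∀ j, Pos c (g j (x j))) (a b : Fin 4) : FO m (fun _ => 1) (fun j y => (g j y)⁻¹ a b) x := by
  have h2 : FO m (fun _ => 1) (fun j y => fun a b => g j y a b) x :=
    FO.pi fun a => FO.pi fun b => h a b
  obtain ⟨C, -, hC⟩ := h2.le
  exact FO.smoothOn (Φ := fun A : Fin 4 → Fin 4 → ℝ => (Matrix.of A)⁻¹ a b)
    ((isCompact_closedBall (0 : Fin 4 → Fin 4 → ℝ) C).inter_right (isClosed_pos c))
    (fun A hA => TR.sm_inv a b A (hA.2.posDef hc)) h2 fun j =>
      ⟨by simpa [norm_iteratedFDeriv_zero] using hC 0 (Nat.zero_le _) j, hp j⟩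

theorem fo_chr (hi : ∀ a b, FO m (fun _ => 1) (fun j y => (g j y)⁻¹ a b) x)
    (hd : ∀ a b c, FO m w (fun j => pderiv c fun y => g j y a b) x) (c a b : Fin 4) :
    FO m w (fun j y => christoffel (g j) y c a b) x :=
  (FO.const (1 / 2 : ℝ)).mul (FO.sum Finset.univ fun d _ => (hi c d).mul
    (((hd b d a).add (hd a d b)).sub (hd a b d)))

end fo

/-- one metric on a cell -/
structure P1 (K δ : ℝ) (g : MetricField 4) : Prop where
  nn : 0 ≤ δ
  riem : IsRiemannianOn g B2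
  pos : ∀ y ∈ B2, Pos K⁻¹ (g y)
  j0 : ∀ a b, DB B2 6 K fun y => g y a b
  j1 : ∀ a b c, DB B2 5 δ (pderiv c fun y => g y a b)

/-- two metrics on a cell -/
structure P2 (K δ : ℝ) (g G : MetricField 4) : Prop where
  nn : 0 ≤ δ
  riem : IsRiemannianOn g B2
  riemG : IsRiemannianOn G B2
  pos : ∀ y ∈ B2, Pos K⁻¹ (g y)
  posG : ∀ y ∈ B2, Pos K⁻¹ (G y)
  j0 : ∀ a b, DB B2 4 K fun y => g y a b
  j0G : ∀ a b, DB B2 4 K fun y => G y a b
  df : ∀ a b, DB B2 4 δ fun y => G y a b - g y a b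

theorem cell_one {K : ℝ} (hK : 0 < K) : ∃ C, 0 < C ∧ ∀ δ g, P1 K δ g →
    (∀ a b, DB B2 5 C fun y => (g y)⁻¹ a b) ∧
    (∀ a b c, DB B2 4 (C * δ) (pderiv c fun y => (g y)⁻¹ a b)) ∧
    (∀ k a b, DB B2 5 (C * δ) fun y => christoffel g y k a b) ∧
    ∀ a b, DB B2 3 (C * δ) fun y => ricci g y a b := by
  let ι := {p : (ℝ × MetricField 4) × E4 // P1 K p.1.1 p.1.2 ∧ p.2 ∈ B2}
  let x : ι → E4 := fun j => j.1.2
  let w : ι → ℝ := fun j => j.1.1.1
  let g : ι → MetricField 4 := fun j => j.1.1.2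
  have hx : ∀ j, x j ∈ B2 := fun j => j.2.2
  have h0 : ∀ a b, FO 6 (fun _ => 1) (fun j y => g j y a b) x := fun a b =>
    fo_of_db (K := K) hx fun j => by simpa using j.2.1.j0 a b
  have h1 : ∀ a b c, FO 5 w (fun j => pderiv c fun y => g j y a b) x := fun a b c =>
    fo_of_db (K := 1) hx fun j => by
      rw [one_mul, abs_of_nonneg j.2.1.nn]; exact j.2.1.j1 a b c
  have hi : ∀ a b, FO 5 (fun _ => 1) (fun j y => (g j y)⁻¹ a b) x := fun a b =>
    (fo_inv (inv_pos.2 hK) h0 (fun j => j.2.1.pos _ j.2.2) a b).mono (by norm_num)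
  have h2 : ∀ a b c, FO 4 w (fun j => pderiv c fun y => (g j y)⁻¹ a b) x := fun a b c =>
    ((FO.zero.sub (FO.sum Finset.univ fun p _ => FO.sum Finset.univ fun q _ =>
      fo_mul ((hi a p).mul (h1 p q c)) (hi q b))).mono (by norm_num)).congr fun j =>
      eventually_of_mem (ob2.mem_nhds (hx j)) fun z hz => by
        simp only [zero_sub]; exact pd_ginv' j.2.1.riem hz c a b
  have h3 := fo_chr hi h1
  have h4 := fo_chr hi fun a b c => (h0 a b).pd c
  have h5 : ∀ k a b, FO 3 w (fun j y => christoffel (g j) y k a b) x := fun k a b =>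
    (h3 k a b).mono (by norm_num)
  have h6 : ∀ k a b, FO 3 (fun _ => 1) (fun j y => christoffel (g j) y k a b) x := fun k a b =>
    (h4 k a b).mono (by norm_num)
  have h7 : ∀ a b, FO 3 w (fun j y => ricci (g j) y a b) x := fun a b =>
    (((FO.sum Finset.univ fun c _ => ((h3 c a b).mono (by norm_num)).pd c).sub
      ((FO.sum Finset.univ fun c _ => (h3 c c a).mono (by norm_num)).pd b)).add
      (FO.sum Finset.univ fun c _ => FO.sum Finset.univ fun d _ => (h6 c c d).mul (h5 d a b))).sub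
      (FO.sum Finset.univ fun c _ => FO.sum Finset.univ fun d _ => (h6 c b d).mul (h5 d c a))
  obtain ⟨C1, p1, q1⟩ := fo_le (α := Fin 4 × Fin 4) fun p => hi p.1 p.2
  obtain ⟨C2, p2, q2⟩ := fo_le (α := Fin 4 × Fin 4 × Fin 4) fun p => h2 p.1 p.2.1 p.2.2
  obtain ⟨C3, p3, q3⟩ := fo_le (α := Fin 4 × Fin 4 × Fin 4) fun p => h3 p.1 p.2.1 p.2.2
  obtain ⟨C4, p4, q4⟩ := fo_le (α := Fin 4 × Fin 4) fun p => h7 p.1 p.2
  refine ⟨C1 + C2 + C3 + C4, by positivity, fun δ g h => ?_⟩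
  have hδ := h.nn
  have e : ∀ {C : ℝ}, C ≤ C1 + C2 + C3 + C4 → C * |δ| ≤ (C1 + C2 + C3 + C4) * δ := fun hC => by
    rw [abs_of_nonneg hδ]; gcongr
  refine ⟨fun a b => ⟨fun y hy => ((hi a b).sm ⟨((δ, g), y), h, hy⟩).contDiffWithinAt,
      fun k hk y hy => (q1 (a, b) ⟨((δ, g), y), h, hy⟩ k hk).trans (by simp; linarith)⟩,
    fun a b c => ⟨fun y hy => ((h2 a b c).sm ⟨((δ, g), y), h, hy⟩).contDiffWithinAt,
      fun k hk y hy => (q2 (a, b, c) ⟨((δ, g), y), h, hy⟩ k hk).trans (e (by linarith))⟩,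
    fun a b c => ⟨fun y hy => ((h3 a b c).sm ⟨((δ, g), y), h, hy⟩).contDiffWithinAt,
      fun k hk y hy => (q3 (a, b, c) ⟨((δ, g), y), h, hy⟩ k hk).trans (e (by linarith))⟩,
    fun a b => ⟨fun y hy => ((h7 a b).sm ⟨((δ, g), y), h, hy⟩).contDiffWithinAt,
      fun k hk y hy => (q4 (a, b) ⟨((δ, g), y), h, hy⟩ k hk).trans (e (by linarith))⟩⟩

theorem cell_two {K : ℝ} (hK : 0 < K) : ∃ C, 0 < C ∧ ∀ δ g G, P2 K δ g G →
    (∀ a b, DB B2 3 (C * δ) fun y => (G y)⁻¹ a b - (g y)⁻¹ a b) ∧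
    ∀ k a b, DB B2 3 (C * δ) fun y => christoffel G y k a b - christoffel g y k a b := by
  let ι := {p : (ℝ × MetricField 4 × MetricField 4) × E4 // P2 K p.1.1 p.1.2.1 p.1.2.2 ∧ p.2 ∈ B2}
  let x : ι → E4 := fun j => j.1.2
  let w : ι → ℝ := fun j => j.1.1.1
  let g : ι → MetricField 4 := fun j => j.1.1.2.1
  let G : ι → MetricField 4 := fun j => j.1.1.2.2
  have hx : ∀ j, x j ∈ B2 := fun j => j.2.2
  have h0 : ∀ a b, FO 4 (fun _ => 1) (fun j y => g j y a b) x := fun a b =>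
    fo_of_db (K := K) hx fun j => by simpa using j.2.1.j0 a b
  have H0 : ∀ a b, FO 4 (fun _ => 1) (fun j y => G j y a b) x := fun a b =>
    fo_of_db (K := K) hx fun j => by simpa using j.2.1.j0G a b
  have h1 : ∀ a b, FO 4 w (fun j y => G j y a b - g j y a b) x := fun a b =>
    fo_of_db (K := 1) hx fun j => by
      rw [one_mul, abs_of_nonneg j.2.1.nn]; exact j.2.1.df a b
  have hi := fo_inv (inv_pos.2 hK) h0 fun j => j.2.1.pos _ j.2.2
  have Hi := fo_inv (inv_pos.2 hK) H0 fun j => j.2.1.posG _ j.2.2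
  have h2 : ∀ a b, FO 3 w (fun j y => (G j y)⁻¹ a b - (g j y)⁻¹ a b) x := fun a b =>
    ((FO.sum Finset.univ fun q _ => fo_mul (FO.sum Finset.univ fun p _ =>
      (Hi a p).mul (FO.zero.sub (h1 p q))) (hi q b)).mono (by norm_num)).congr fun j =>
      eventually_of_mem (ob2.mem_nhds (hx j)) fun z hz => by
        have e := congrFun (congrFun (Matrix.inv_sub_inv (A := G j z) (B := g j z) (iff_of_true
          (j.2.1.riemG.posDef z hz).isUnit (j.2.1.riem.posDef z hz).isUnit)) a) b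
        simpa only [Matrix.sub_apply, Matrix.mul_apply, zero_sub, neg_sub] using e
  have h3 : ∀ a b c, FO 3 w (fun j y => pderiv c (fun y => G j y a b) y -
      pderiv c (fun y => g j y a b) y) x := fun a b c => ((h1 a b).pd c).congr fun j =>
    eventually_of_mem (ob2.mem_nhds (hx j)) fun z hz =>
      (pd_sub c ((j.2.1.j0G a b).diffAt ob2 hz) ((j.2.1.j0 a b).diffAt ob2 hz)).symm
  have h4 : ∀ k a b, FO 3 w (fun j y => christoffel (G j) y k a b - christoffel (g j) y k a b) x :=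
    fun k a b => ((FO.const (1 / 2 : ℝ)).mul (FO.sum Finset.univ fun d _ =>
      (fo_mul (h2 k d) ((((H0 b d).pd a).add ((H0 a d).pd b)).sub ((H0 a b).pd d))).add
      (((hi k d).mono (by norm_num)).mul (((h3 b d a).add (h3 a d b)).sub (h3 a b d))))).congr
      fun j => Eventually.of_forall fun z => by
        simp only [christoffel, inverseField, ← mul_sub, ← Finset.sum_sub_distrib]
        congr 1
        exact Finset.sum_congr rfl fun _ _ => by ring
  obtain ⟨C1, p1, q1⟩ := fo_le (α := Fin 4 × Fin 4) fun p => h2 p.1 p.2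
  obtain ⟨C2, p2, q2⟩ := fo_le (α := Fin 4 × Fin 4 × Fin 4) fun p => h4 p.1 p.2.1 p.2.2
  refine ⟨C1 + C2, by positivity, fun δ g G h => ?_⟩
  have hδ := h.nn
  have e : ∀ {C : ℝ}, C ≤ C1 + C2 → C * |δ| ≤ (C1 + C2) * δ := fun hC => by
    rw [abs_of_nonneg hδ]; gcongr
  exact ⟨fun a b => ⟨fun y hy => ((h2 a b).sm ⟨((δ, g, G), y), h, hy⟩).contDiffWithinAt,
      fun k hk y hy => (q1 (a, b) ⟨((δ, g, G), y), h, hy⟩ k hk).trans (e (by linarith))⟩,
    fun a b c => ⟨fun y hy => ((h4 a b c).sm ⟨((δ, g, G), y), h, hy⟩).contDiffWithinAt,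
      fun k hk y hy => (q2 (a, b, c) ⟨((δ, g, G), y), h, hy⟩ k hk).trans (e (by linarith))⟩⟩

/-- the input of `cell` -/
structure Pre (K η κ : ℝ) (g G : MetricField 4) : Prop where
  p1 : P1 K (K * κ) g
  p2 : P2 K (K * (η * κ)) g G
  ric : (∀ y ∈ B2, ∀ a b, ricci g y a b = 0) ∨ P1 K (K * (η * κ)) g

variable {K K' δ δ' η κ : ℝ} {g G : MetricField 4}

theorem P1.mono (h : P1 K δ g) (h0 : 0 < K) (hK : K ≤ K') (hδ : δ ≤ δ') : P1 K' δ' g :=
  ⟨h.nn.trans hδ, h.riem, fun y hy => (h.pos y hy).mono (inv_anti₀ h0 hK),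
    fun a b => (h.j0 a b).mono hK, fun a b c => (h.j1 a b c).mono hδ⟩

theorem P2.mono (h : P2 K δ g G) (h0 : 0 < K) (hK : K ≤ K') (hδ : δ ≤ δ') : P2 K' δ' g G :=
  ⟨h.nn.trans hδ, h.riem, h.riemG, fun y hy => (h.pos y hy).mono (inv_anti₀ h0 hK),
    fun y hy => (h.posG y hy).mono (inv_anti₀ h0 hK), fun a b => (h.j0 a b).mono hK,
    fun a b => (h.j0G a b).mono hK, fun a b => (h.df a b).mono hδ⟩

theorem Pre.mono (h : Pre K η κ g G) (h0 : 0 < K) (hK : K ≤ K') (hη : 0 ≤ η) (hκ : 0 ≤ κ) :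
    Pre K' η κ g G :=
  ⟨h.p1.mono h0 hK (by gcongr), h.p2.mono h0 hK (by gcongr),
    h.ric.imp_right fun h => h.mono h0 hK (by gcongr)⟩

/-- **the data of a cell** -/
theorem cell (hK : 0 < K) : ∃ K', 0 < K' ∧ ∀ η κ g G, 0 ≤ η → 0 ≤ κ → κ ≤ 2 → Pre K η κ g G →
    CellG K' (K' * η) κ g G := by
  obtain ⟨C1, p1, q1⟩ := cell_one hK
  obtain ⟨C2, p2, q2⟩ := cell_two hK
  refine ⟨(K + 1) * (1 + 2 * C1 + 4 * C2), by positivity, fun η κ g G hη hκ hκ2 h => ?_⟩
  obtain ⟨a1, a2, a3, -⟩ := q1 _ _ h.p1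
  obtain ⟨b1, b2⟩ := q2 _ _ _ h.p2
  have ck : ∀ {m : ℕ} {N N' : ℝ} {f : E4 → ℝ}, DB B2 (m + 1) N f → 2 * N ≤ N' →
      CKA (1 / 2) B1 m N' f := fun h e =>
    (db_cka h isOpen_ball (convex_ball _ _) (ball_subset_ball (by norm_num))).mono e
  have e1 := mul_pos hK p1
  have e2 := mul_pos hK p2
  have e3 := mul_nonneg hη hκ
  have f1 : 2 * (C1 * K) ≤ (K + 1) * (1 + 2 * C1 + 4 * C2) := by nlinarith
  have f2 : 4 * (C2 * K) ≤ (K + 1) * (1 + 2 * C1 + 4 * C2) := by nlinarith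
  have f3 := mul_le_mul_of_nonneg_right f1 hκ
  have f4 := mul_le_mul_of_nonneg_right f1 e3
  have f5 := mul_le_mul_of_nonneg_right f2 hη
  have f6 := mul_le_mul_of_nonneg_right f2 e3
  have f7 := mul_le_mul_of_nonneg_left hκ2 (mul_nonneg e2.le hη)
  have f8 := mul_nonneg e1.le hκ
  have f9 := mul_nonneg e2.le e3
  refine ⟨h.p1.riem, h.p2.riemG, fun a b => ((h.p1.j0 a b).of_le (by norm_num)).mono (by nlinarith),
    fun a b => ck (a1 a b) (by nlinarith), fun a b c => ck (a2 a b c) (by linarith),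
    fun k a b => (a3 k a b).mono (by linarith), fun a b => ?_,
    fun a b => ck (b1 a b) (by linarith), fun k a b => ck (b2 k a b) (by linarith)⟩
  rcases h.ric with h1 | h1
  · exact ck (N := 0) (db_congr ob2 (db_const (a := 0) (by simp)) fun y hy => h1 y hy a b)
      (by rw [mul_zero]; positivity)
  · exact ck ((q1 _ _ h1).2.2.2 a b) (by linarith)

theorem riem_aff {U : Set E4} {c : E4} {ρ : ℝ} (h : IsRiemannianOn G U)
    (hU : ∀ y ∈ B2, c + ρ • y ∈ U) : IsRiemannianOn (fun y => G (c + ρ • y)) B2 :=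
  ⟨ob2, fun a b => (h.contDiffOn a b).comp (f := fun y : E4 => c + ρ • y) (by fun_prop) hU,
    fun y hy => h.posDef _ (hU y hy)⟩

theorem ricci_aff (G : MetricField 4) (c : E4) (ρ : ℝ) (y : E4) (a b : Fin 4) :
    ricci (fun y => G (c + ρ • y)) y a b = ρ ^ 2 * ricci G (c + ρ • y) a b := by
  have h0 : ∀ (i : Fin 4) (f : E4 → ℝ) (y : E4),
      pderiv i (fun y => f (c + ρ • y)) y = ρ * pderiv i f (c + ρ • y) := fun i f y =>
    K.pd_aff i f c ρ y
  have h1 : ∀ y k i j, christoffel (fun y => G (c + ρ • y)) y k i j =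
      ρ * christoffel G (c + ρ • y) k i j := fun y k i j => by
    simp only [christoffel, inverseField, fun i p q => h0 i (fun z => G z p q) y, Finset.mul_sum]
    exact Finset.sum_congr rfl fun _ _ => by ring
  simp only [ricci, h1, ← Finset.mul_sum, pd_cmul, fun k => h0 k (fun z => christoffel G z k a b) y,
    h0 b (fun z => ∑ k, christoffel G z k k a) y]
  simp only [mul_sub, mul_add, Finset.mul_sum]
  congr 1
  · congr 1
    · congr 1
      · exact Finset.sum_congr rfl fun _ _ => by ring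
      · ring
    · exact Finset.sum_congr rfl fun _ _ => Finset.sum_congr rfl fun _ _ => by ring
  · exact Finset.sum_congr rfl fun _ _ => Finset.sum_congr rfl fun _ _ => by ring

end Crest.Agent.N207.Ga

end
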