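import Crest.Agent.N207.Ga.Data1

/-!
# Row 207 (helper18): **DATA**
-/

set_option autoImplicit false

open scoped ContDiff
open Metric Set Filter Topology
open Crest.GeometryTopology.CoordMetric Crest.Agent.R202.Tens
open Crest.Agent.N207.I Crest.Agent.N207.CB Crest.Agent.N207.Jt Crest.Agent.N207.K

noncomputable section

namespace Crest.Agent.N207.Ga

theorem ue_db {ι : Type} {l : Filter ι} {u : ι → E4 → ℝ} {v : E4 → ℝ} {S : Set E4}
    (h : UE l u (fun _ => v) fun _ => S) {δ R : ℝ} (hδ : 0 < δ) (hR : 1 ≤ R) :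
    ∀ᶠ i in l, ∀ (c : E4) (ρ : ℝ), 0 < ρ → ρ ≤ R → (∀ y ∈ B2, c + ρ • y ∈ S) →
      DB B2 4 δ fun y => u i (c + ρ • y) - v (c + ρ • y) := by
  have h1 := (Finset.range 5).eventually_all.2 fun k _ => h.ev k (ε := δ / R ^ 4) (by positivity)
  filter_upwards [h1, ev_un.1 h.left.sm, ev_un.1 h.right.sm] with i a b c x ρ h0 h2 h3
  have h4 : DB S 4 (δ / R ^ 4) fun z => u i z - v z :=
    ⟨fun z hz => ((b z hz).sub (c z hz)).contDiffWithinAt, fun k hk z hz => by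
      rw [show (fun z => u i z - v z) = u i - v from rfl,
        iteratedFDeriv_sub_apply ((b z hz).of_le (kle k)) ((c z hz).of_le (kle k))]
      exact (a k (Finset.mem_range.2 (by omega)) z hz).le⟩
  exact (db_aff h4 h0 h2 hR h3).mono (le_of_eq (by field_simp))

theorem db_sc {f : E4 → ℝ} {x : E4} {m : ℕ} {N : ℝ} (hx : x ≠ 0)
    (h : ∀ y ∈ B2, ContDiffAt ℝ ∞ f (x + (‖x‖ / 8) • y) ∧ ∀ k ≤ m,
      ‖iteratedFDeriv ℝ k f (x + (‖x‖ / 8) • y)‖ * ‖x + (‖x‖ / 8) • y‖ ^ k ≤ N) :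
    DB B2 m N fun y => f (x + (‖x‖ / 8) • y) := by
  have hp : 0 < ‖x‖ / 8 := by have := norm_pos_iff.2 hx; positivity
  refine ⟨fun y hy => ((h y hy).1.comp y (f := fun y : E4 => x + (‖x‖ / 8) • y)
    (by fun_prop)).contDiffWithinAt, fun k hk y hy => (norm_aff_le f x hp k y).trans ?_⟩
  refine le_trans ?_ ((h y hy).2 k hk)
  rw [mul_comm]
  gcongr
  linarith [(cell_norm x (mem_ball_zero_iff.1 hy).le).1]

theorem rp_le {b t s : ℝ} (hb : 0 ≤ b) (h : b ≤ 2 * t) (hs : 0 ≤ s) (hs1 : s ≤ 1) :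
    b ^ s ≤ 2 * t ^ s := by
  have ht : 0 ≤ t := by linarith
  refine (Real.rpow_le_rpow hb h hs).trans ?_
  rw [Real.mul_rpow zero_le_two ht]
  refine mul_le_mul_of_nonneg_right ?_ (by positivity)
  simpa using Real.rpow_le_rpow_of_exponent_le one_le_two hs1

theorem rp_mid {b γ T0 : ℝ} (hb : 0 < b) (h : b ≤ 2 * Real.exp (-T0)) (h0 : 0 < γ) (h1 : γ ≤ 1) :
    b ^ γ ≤ 2 * Real.exp (-(4 / 5 * γ * T0)) * b ^ (γ / 5) := by
  have h2 := rp_le (s := 4 / 5 * γ) hb.le h (by positivity) (by linarith)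
  rw [← Real.exp_mul, show -T0 * (4 / 5 * γ) = -(4 / 5 * γ * T0) by ring] at h2
  rw [show b ^ γ = b ^ (4 / 5 * γ) * b ^ (γ / 5) by rw [← Real.rpow_add hb]; congr 1; ring]
  gcongr

variable {M : Type*} {T : TD M} {g : T.V → Fam T} {γ T0 : ℝ} {w : T.V}

theorem wt_eq (γ : ℝ) (L : T.V → ℝ) (w : T.V) (x : E4) : T.wt γ L w x =
    ‖x‖⁻¹ ^ γ + if w = T.root then 0 else (Real.exp (-L w) * ‖x‖) ^ γ := by
  rw [TD.wt, Real.rpow_neg (norm_nonneg _), Real.inv_rpow (norm_nonneg _)]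

theorem wt_le {L : T.V → ℝ} {x z : E4} {c γ' : ℝ} (h1 : ‖z‖⁻¹ ^ γ ≤ c * ‖x‖⁻¹ ^ γ')
    (h2 : w ≠ T.root → (Real.exp (-L w) * ‖z‖) ^ γ ≤ c * (Real.exp (-L w) * ‖x‖) ^ γ') :
    T.wt γ L w z ≤ c * T.wt γ' L w x := by
  rw [wt_eq, wt_eq, mul_add]
  split_ifs with hw
  · simpa using h1
  · exact add_le_add h1 (h2 hw)

section nk

variable {L : T.V → ℝ} {x y : E4}

theorem gK_le (hx : x ∈ T.gK L (Sum.inr w)) (hw : w ≠ T.root) :
    Real.exp (-L w) * ‖x‖ ≤ 3 / 4 * T.r := by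
  have := TD.nrm_exp_le.2 (hx.2 hw)
  rwa [norm_smul, Real.norm_of_nonneg (Real.exp_pos _).le] at this

theorem nk_mem (hx : x ∈ T.gK L (Sum.inr w)) (hy : y ∈ B2) :
    x + (‖x‖ / 8) • y ∈ (T.glob L).U (Sum.inr w) := by
  obtain ⟨h1, h2⟩ := cell_norm x (mem_ball_zero_iff.1 hy).le
  exact ⟨by linarith [hx.1], fun hw => by linarith [hx.1, hx.2 hw]⟩

theorem wt_cell (h0 : 0 < γ) (h1 : γ ≤ 1) (hx : x ∈ T.gK L (Sum.inr w)) (hy : y ∈ B2) :
    T.wt γ L w (x + (‖x‖ / 8) • y) ≤ 2 * T.wt γ L w x := by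
  obtain ⟨h2, h3⟩ := cell_norm x (mem_ball_zero_iff.1 hy).le
  have h4 := hx.1
  refine wt_le (rp_le (by positivity) ?_ h0.le h1) fun _ => rp_le (by positivity) ?_ h0.le h1
  · rw [← div_eq_mul_inv, inv_le_comm₀ (by linarith) (by positivity), inv_div]; linarith
  · nlinarith [Real.exp_pos (-L w)]

theorem wt_exp (h : T.Ok) {γ' : ℝ} (h0 : 0 ≤ γ') (h1 : γ' ≤ γ) (hx : x ∈ T.gK L (Sum.inr w)) :
    T.wt γ L w x ≤ 1 * T.wt γ' L w x := by
  have h4 := hx.1
  refine wt_le ?_ fun hw => ?_ <;> rw [one_mul]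
  · exact Real.rpow_le_rpow_of_exponent_ge (by positivity)
      (inv_le_one_of_one_le₀ (by linarith)) h1
  · exact Real.rpow_le_rpow_of_exponent_ge (by positivity)
      (by linarith [gK_le hx hw, h.r_lt, h.r_pos]) h1

theorem wt_two (h : T.Ok) (h0 : 0 ≤ γ) (hx : x ∈ T.gK L (Sum.inr w)) : T.wt γ L w x ≤ 2 := by
  refine (wt_exp h le_rfl h0 hx).trans ?_
  rw [wt_eq]; split_ifs <;> norm_num

end nk

variable {ι : Type} {l : Filter ι} {L : ι → T.V → ℝ} {G : ι → Fam T}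

theorem nrm_riem {L : T.V → ℝ} {G : Fam T} (h : (T.glob L).IsMet G) (s : T.S) :
    IsRiemannianOn (T.nrm L G s) ((T.glob L).U s) :=
  riem_smul (h.riem s) (inv_pos.2 (pow_pos (TD.eps_pos L _) 2))

theorem pre_ball (hL : T.Lim g γ) (hS : T.Seq g γ l L G) (a : T.B) : ∃ K, 0 < K ∧
    ∀ η, 0 < η → η ≤ 1 → ∀ᶠ i in l, ∀ x : E4, ‖x‖ ≤ 3 / 2 →
      Pre K η 1 (fun y => g (T.vx a) (Sum.inl a) (x + (1 / 8 : ℝ) • y))
        fun y => T.nrm (L i) (G i) (Sum.inl a) (x + (1 / 8 : ℝ) • y) := by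
  obtain ⟨D, c, h1, hc, hD⟩ := ball_bd hL
  have p1 := sm_nonneg (m := 6) h1
  have p2 : 0 < 2 / c := by positivity
  refine ⟨sm D 6 + 1 + 2 / c, by positivity, fun η h0 hη => ?_⟩
  have hK : (sm D 6 + 1 + 2 / c)⁻¹ ≤ c / 2 := by
    rw [inv_le_comm₀ (by positivity) (by positivity), inv_div]; linarith
  filter_upwards [hS.met, eventually_all.2 fun p => eventually_all.2 fun q =>
    ue_db (hS.ball a p q _ (isCompact_closedBall 0 (15 / 8)) (closedBall_subset_ball (by norm_num)))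
      (δ := min η (c / 32)) (by positivity) le_rfl] with i hm he x hx
  have n1 : ∀ y ∈ B2, ‖x + (1 / 8 : ℝ) • y‖ ≤ 15 / 8 := fun y hy =>
    (ball_norm hx (mem_ball_zero_iff.1 hy).le).trans (by norm_num)
  have n2 : ∀ y ∈ B2, x + (1 / 8 : ℝ) • y ∈ ball (0 : E4) 2 := fun y hy =>
    mem_ball_zero_iff.2 ((n1 y hy).trans_lt (by norm_num))
  have r1 := riem_aff (lim_ball hL a) n2
  have r2 := riem_aff (nrm_riem hm.2 (Sum.inl a)) n2
  have d1 := fun p q => ball_db (m := 6) (W := B2) hL h1 (fun z hz k => (hD a z hz).2 k p q) hx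
    fun y hy => (mem_ball_zero_iff.1 hy).le.trans (by norm_num)
  have d2 := fun p q => he p q x (1 / 8) (by norm_num) (by norm_num) fun y hy =>
    mem_closedBall_zero_iff.2 (n1 y hy)
  have q1 := fun y hy => ((hD a _ (n1 y hy)).1.mono (half_le_self hc.le)).mono hK
  have m1 := min_le_left η (c / 32)
  refine ⟨⟨by positivity, r1, q1, fun p q => (d1 p q).mono (by linarith),
      fun p q r => (db_pd ob2 (d1 p q) r).mono (by linarith)⟩,
    ⟨by positivity, r1, r2, q1, fun y hy => (pos_near (hD a _ (n1 y hy)).1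
      (metric_symm r2 hy) fun p q => ((d2 p q).zero hy).trans (min_le_right _ _)).mono hK,
      fun p q => ((d1 p q).of_le (by norm_num)).mono (by linarith),
      fun p q => (db_congr ob2 (db_add ob2 ((d1 p q).of_le (by norm_num)) (d2 p q))
        fun y _ => by ring).mono (by linarith), fun p q => (d2 p q).mono (by nlinarith)⟩,
    Or.inl fun y hy p q => ?_⟩
  rw [ricci_aff, hL.ric _ _ _ (core_inl a ▸ n2 y hy), mul_zero]

theorem pre_neck (h : T.Ok) (hL : T.Lim g γ) (hS : T.Seq g γ l L G) (h0 : 0 < γ) (h1 : γ ≤ 1)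
    (w : T.V) : ∃ K, 0 < K ∧ ∀ T0, 0 ≤ T0 → ∀ᶠ i in l, ∀ x ∈ T.gK (L i) (Sum.inr w),
      Pre K (Real.exp (-(4 / 5 * γ * T0))) (T.wt (γ / 5) (L i) w x)
        (fun y => gbL T g T0 (L i) (Sum.inr w) (x + (‖x‖ / 8) • y))
        fun y => T.nrm (L i) (G i) (Sum.inr w) (x + (‖x‖ / 8) • y) := by
  obtain ⟨C, hC0, hC⟩ := gbL_sj h hL
  choose D hD using hS.neck w
  have p1 := sm_nonneg (m := 6) hC0
  have p2 := sm_nonneg (m := 4) fun k => abs_nonneg (D k)
  set A := sm C 6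
  set B := sm (fun k => |D k|) 4
  refine ⟨4 * A + 4 * B + 2, by positivity, fun T0 hT => ?_⟩
  have hK : (4 * A + 4 * B + 2)⁻¹ ≤ 1 / 2 := by
    rw [one_div]; exact inv_anti₀ two_pos (by linarith)
  set η := Real.exp (-(4 / 5 * γ * T0))
  have hη : 0 < η := Real.exp_pos _
  have hδ : 0 < η * Real.exp (-T0) ^ (γ / 5) := by positivity
  have hr := h.r_pos
  have e1 := eventually_all.2 fun p => eventually_all.2 fun q =>
    ue_db (hS.out w p q (closedBall 0 (Real.exp T0) \ ball 0 (5 / 4))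
      ((isCompact_closedBall _ _).diff isOpen_ball) fun z hz => by
        have := hz.2; simp only [mem_ball_zero_iff, not_lt] at this
        show 1 < ‖z‖; linarith) hδ (Real.one_le_exp hT)
  have e2 := eventually_all.2 fun hw : w ≠ T.root => eventually_all.2 fun p =>
    eventually_all.2 fun q =>
    ue_db (hS.inn w hw p q (closedBall 0 (7 / 8 * T.r) \ ball 0 (Real.exp (-T0)))
      ((isCompact_closedBall _ _).diff isOpen_ball) fun z hz => by
        have h2 := hz.2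
        have h3 := mem_closedBall_zero_iff.1 hz.1
        simp only [mem_ball_zero_iff, not_lt] at h2
        exact ⟨(Real.exp_pos _).trans_le h2, by linarith⟩) hδ le_rfl
  filter_upwards [hS.met, hS.small, (Finset.range 5).eventually_all.2 fun k _ => hD k, e1, e2,
    eventually_all.2 fun hw : w ≠ T.root => (hS.top w hw).eventually_ge_atTop (2 * T0 + 1)]
    with i hm hs hn ho hi hl x hx
  have x0 : 0 < ‖x‖ := by linarith [hx.1]
  have x1 := norm_pos_iff.1 x0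
  have n1 := fun y hy => nk_mem (y := y) hx hy
  have n2 := fun y (hy : y ∈ B2) => cell_norm x (mem_ball_zero_iff.1 hy).le
  have r1 := riem_aff (gbL_riem (T0 := T0) h hL (Sum.inr w)) n1
  have r2 := riem_aff (nrm_riem hm.2 (Sum.inr w)) n1
  have w0 : 0 ≤ T.wt γ (L i) w x := wt_nonneg
  have w1 := wt_exp h (γ' := γ / 5) (by positivity) (by linarith : γ / 5 ≤ γ) hx
  have w2 := wt_two h (by positivity : 0 ≤ γ / 5) hx
  set ϖ := T.wt γ (L i) w x
  set κ := T.wt (γ / 5) (L i) w x with hκ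
  have k0 : 0 ≤ η * κ := mul_nonneg hη.le (by linarith)
  have d1 : ∀ p q, DB B2 6 (A * (2 * ϖ))
      (TD.dv (fun y => gbL T g T0 (L i) (Sum.inr w) (x + (‖x‖ / 8) • y)) p q) := fun p q =>
    db_sj hC0 (by positivity) x1 (fun y hy => (mem_ball_zero_iff.1 hy).le.trans (by norm_num))
      fun y hy => (hC T0 (L i) w _ (n1 y hy) p q).mono fun k =>
        mul_le_mul_of_nonneg_left (wt_cell h0 h1 hx hy) (hC0 k)
  have d2 : ∀ p q, DB B2 4 (B * (2 * ϖ))
      (TD.dv (fun y => T.nrm (L i) (G i) (Sum.inr w) (x + (‖x‖ / 8) • y)) p q) := fun p q =>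
    db_sc (f := TD.dv (T.nrm (L i) (G i) (Sum.inr w)) p q) x1 fun y hy =>
      ⟨TR.sm_dv (nrm_riem hm.2 _) (n1 y hy) p q, fun k hk => by
        have a1 := hn k (Finset.mem_range.2 (by omega)) p q _ (n1 y hy)
        have a2 : 0 < ‖x + (‖x‖ / 8) • y‖ ^ k := pow_pos (norm_pos_iff.2 (glob_ne (n1 y hy))) k
        rw [mul_right_comm, ← div_eq_mul_inv, le_div_iff₀ a2] at a1
        exact a1.trans (mul_le_mul ((le_abs_self _).trans (le_sm (C := fun k => |D k|)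
          (fun k => abs_nonneg _) hk)) (wt_cell h0 h1 hx hy) wt_nonneg p2)⟩
  have q1 := fun y hy => (gbL_pos (T0 := T0) h hL (n1 y hy)).mono hK
  have b1 : A * (2 * ϖ) + 1 ≤ 4 * A + 4 * B + 2 := by nlinarith
  have b2 : B * (2 * ϖ) + 1 ≤ 4 * A + 4 * B + 2 := by nlinarith
  have P : ∀ δ, A * (2 * ϖ) ≤ δ → P1 (4 * A + 4 * B + 2) δ
      fun y => gbL T g T0 (L i) (Sum.inr w) (x + (‖x‖ / 8) • y) := fun δ hδ =>
    ⟨le_trans (by positivity) hδ, r1, q1, fun p q => (db_of_dv ob2 (d1 p q)).mono b1,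
      fun p q r => by rw [TR.pd_dv]; exact (db_pd ob2 (d1 p q) r).mono hδ⟩
  have Q : (∀ p q, DB B2 4 ((4 * A + 4 * B + 2) * (η * κ)) fun y =>
      T.nrm (L i) (G i) (Sum.inr w) (x + (‖x‖ / 8) • y) p q -
        gbL T g T0 (L i) (Sum.inr w) (x + (‖x‖ / 8) • y) p q) → P2 (4 * A + 4 * B + 2)
      ((4 * A + 4 * B + 2) * (η * κ)) (fun y => gbL T g T0 (L i) (Sum.inr w) (x + (‖x‖ / 8) • y))
      fun y => T.nrm (L i) (G i) (Sum.inr w) (x + (‖x‖ / 8) • y) := fun hd =>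
    ⟨by positivity, r1, r2, q1, fun y hy =>
      (pos_of_small (metric_symm r2 hy) fun p q => hs w p q _ (n1 y hy)).mono hK,
      fun p q => ((db_of_dv ob2 (d1 p q)).mono b1).of_le (by norm_num),
      fun p q => (db_of_dv ob2 (d2 p q)).mono b2, hd⟩
  have lo : Real.exp (-T0) ^ (γ / 5) ≤ κ →
      η * Real.exp (-T0) ^ (γ / 5) ≤ (4 * A + 4 * B + 2) * (η * κ) := fun hh => by
    have := mul_le_mul_of_nonneg_left hh hη.le
    nlinarith [mul_nonneg (add_nonneg p1 p2) k0]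
  have ex := Real.exp_pos T0
  have ex' := Real.exp_pos (-T0)
  by_cases z1 : ‖x‖ < Real.exp T0 / 2
  · have a1 : ∀ y ∈ B2, gbL T g T0 (L i) (Sum.inr w) (x + (‖x‖ / 8) • y) =
        g w (Sum.inr w) (x + (‖x‖ / 8) • y) := fun y hy =>
      gbL_out h (glob_ne (n1 y hy)) ((Real.log_le_iff_le_exp (norm_pos_iff.2 (glob_ne (n1 y hy)))).2
        (by linarith [(n2 y hy).2])) hl
    refine ⟨P _ (by nlinarith), Q fun p q => (db_congr ob2 (ho p q x (‖x‖ / 8) (by positivity)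
      (by linarith) fun y hy => ⟨mem_closedBall_zero_iff.2 (by linarith [(n2 y hy).2]), fun h2 => by
        linarith [mem_ball_zero_iff.1 h2, (n2 y hy).1, hx.1]⟩) fun y hy => by rw [a1 y hy]).mono
      (lo ?_), Or.inl fun y hy p q => ?_⟩
    · rw [hκ, wt_eq]
      refine le_add_of_le_of_nonneg (Real.rpow_le_rpow ex'.le ?_ (by positivity))
        (by split_ifs <;> positivity)
      rw [Real.exp_neg]; exact inv_anti₀ x0 (by linarith)
    · rw [(AI.ricci_congr (eventuallyEq_of_mem (ob2.mem_nhds hy) a1)).eq_of_nhds, ricci_aff,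
        hL.ric _ _ _ (glob_out (n1 y hy)), mul_zero]
  by_cases z2 : w ≠ T.root ∧ 2 * Real.exp (-T0) < Real.exp (-L i w) * ‖x‖
  · obtain ⟨hw, z2⟩ := z2
    have el := Real.exp_pos (-L i w)
    have g1 := gK_le hx hw
    have a0 : ∀ y : E4, Real.exp (-L i w) • (x + (‖x‖ / 8) • y) =
        Real.exp (-L i w) • x + (Real.exp (-L i w) * (‖x‖ / 8)) • y := fun y => by
      rw [smul_add, smul_smul]
    have a2 : ∀ y ∈ B2, Real.exp (-T0) ≤ ‖Real.exp (-L i w) • (x + (‖x‖ / 8) • y)‖ ∧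
        ‖Real.exp (-L i w) • (x + (‖x‖ / 8) • y)‖ ≤ 7 / 8 * T.r := fun y hy => by
      rw [norm_smul, Real.norm_of_nonneg el.le]
      constructor <;> nlinarith [mul_le_mul_of_nonneg_left (n2 y hy).1 el.le,
        mul_le_mul_of_nonneg_left (n2 y hy).2 el.le]
    have a1 : ∀ y ∈ B2, gbL T g T0 (L i) (Sum.inr w) (x + (‖x‖ / 8) • y) = g (T.par w) (Sum.inr w)
        (Real.exp (-L i w) • x + (Real.exp (-L i w) * (‖x‖ / 8)) • y) := fun y hy => by
      rw [← a0]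
      refine gbL_inn h hw (glob_ne (n1 y hy)) ?_ (hl hw)
      have := Real.log_le_log ex' (a2 y hy).1
      rw [Real.log_exp, log_smul _ (glob_ne (n1 y hy))] at this
      linarith
    refine ⟨P _ (by nlinarith), Q fun p q => (db_congr ob2 (hi hw p q (Real.exp (-L i w) • x)
      (Real.exp (-L i w) * (‖x‖ / 8)) (by positivity) (by linarith [h.r_lt]) fun y hy => by
        rw [← a0]
        exact ⟨mem_closedBall_zero_iff.2 (a2 y hy).2, fun h2 =>
          absurd (mem_ball_zero_iff.1 h2) (not_lt.2 (a2 y hy).1)⟩) fun y hy => ?_).mono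
      (lo ?_), Or.inl fun y hy p q => ?_⟩
    · rw [a1 y hy, ← a0, smul_smul, ← Real.exp_add, add_neg_cancel, Real.exp_zero, one_smul]
    · rw [hκ, wt_eq, if_neg hw]
      exact le_add_of_nonneg_of_le (by positivity)
        (Real.rpow_le_rpow ex'.le (by linarith) (by positivity))
    · rw [(AI.ricci_congr (eventuallyEq_of_mem (ob2.mem_nhds hy) a1)).eq_of_nhds, ricci_aff,
        hL.ric _ _ _ (a0 y ▸ glob_inn h hw (n1 y hy)), mul_zero]
  have a1 : ϖ ≤ 2 * η * κ := by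
    refine wt_le (rp_mid (inv_pos.2 x0) ?_ h0 h1) fun hw =>
      rp_mid (by positivity) (not_lt.1 fun h2 => z2 ⟨hw, h2⟩) h0 h1
    rw [Real.exp_neg, ← div_eq_mul_inv, inv_le_comm₀ x0 (by positivity), inv_div]
    exact not_lt.1 z1
  have a2 := mul_le_mul_of_nonneg_left a1 p1
  have a3 := mul_le_mul_of_nonneg_left a1 p2
  have a4 := mul_nonneg p2 k0
  exact ⟨P _ (by nlinarith), Q fun p q => (db_congr ob2 (db_sub ob2 (d2 p q)
    ((d1 p q).of_le (by norm_num))) fun y _ => by simp [TD.dv]).mono (by linarith),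
    Or.inr (P _ (by linarith))⟩

/-- **DATA** -/
theorem data (h : T.Ok) (hL : T.Lim g γ) (hS : T.Seq g γ l L G) (h0 : 0 < γ) (h1 : γ ≤ 1) :
    DATA T g γ l L G := by
  have key : ∀ s : T.S, ∃ K, 0 < K ∧ ∀ T0, 0 ≤ T0 → ∀ᶠ i in l, ∀ x ∈ T.gK (L i) s,
      Pre K (Real.exp (-(4 / 5 * γ * T0))) (kap T (γ / 5) (L i) s x)
        (clM T (gbL T g T0 (L i)) s x) (clM T (T.nrm (L i) (G i)) s x) := fun s => by
    cases s with
    | inl a =>
      obtain ⟨K, hK, h2⟩ := pre_ball hL hS a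
      exact ⟨K, hK, fun T0 hT => (h2 _ (Real.exp_pos _) (Real.exp_le_one_iff.2
        (neg_nonpos.2 (by positivity)))).mono fun i hi x hx => hi x (TD.mem_gK_inl.1 hx)⟩
    | inr w => exact pre_neck h hL hS h0 h1 w
  choose K hK hP using key
  have hs : 0 ≤ ∑ s, K s := Finset.sum_nonneg fun s _ => (hK s).le
  obtain ⟨K', h2, h3⟩ := cell (K := ∑ s, K s + 1) (by positivity)
  refine ⟨K', K', 0, h2, h2, fun T0 hT => ?_⟩
  filter_upwards [eventually_all.2 fun s => hP s T0 hT] with i hi s x hx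
  have h4 : 0 ≤ kap T (γ / 5) (L i) s x ∧ kap T (γ / 5) (L i) s x ≤ 2 := by
    cases s with
    | inl a => exact ⟨zero_le_one, one_le_two⟩
    | inr w => exact ⟨wt_nonneg, wt_two h (by positivity) hx⟩
  exact h3 _ _ _ _ (Real.exp_pos _).le h4.1 h4.2 ((hi s x hx).mono (hK s) (by
    linarith [Finset.single_le_sum (fun s _ => (hK s).le) (Finset.mem_univ s)])
    (Real.exp_pos _).le h4.1)

end Crest.Agent.N207.Ga

end
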