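import Crest.Agent.N207.Ga.Loc1
import Crest.Agent.N207.K.Hd1

/-!
# Row 207, GAUGE (helper3): the nonlinear estimate on one cell
-/

set_option autoImplicit false

open scoped ContDiff
open Metric Set Filter Topology Finset
open Crest.GeometryTopology.CoordMetric Crest.Agent.R202.Tens
open Crest.Agent.NLib.Ell Crest.Agent.N207.CB Crest.Agent.N207.K

noncomputable section

namespace Crest.Agent.N207.Ga

variable {K η κ M δ d r0 : ℝ} {gh Gh : MetricField 4} {e : E4 × E4 → E4} {o o1 o2 : Tn 4 1}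

local notation "δ₁" => (1 : Matrix (Fin 4) (Fin 4) ℝ)

/-- a common bound of all the leaves -/
def cB (K : ℝ) : ℝ := 2 * cA K + cN (cA K) * K + K + 2

/-- bound of the inner bracket of `tau` -/
def c1 (B : ℝ) : ℝ := B + 4 * (4 * (48 * (B * (48 * (B * B))))) + 4 * (48 * (B * B))

/-- bound of `tau` -/
def c2 (B : ℝ) : ℝ := 4 * (4 * (48 * (B * c1 B)))

/-- bound of the coefficient in front of `tau` -/
def c3 (B : ℝ) : ℝ := 4 * (48 * (B * B))

/-- the constant of `loc_lip` -/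
def cT (K : ℝ) : ℝ := 4 * (48 * (c3 (cB K) * c2 (cB K))) + 4096 * (c3 (cB K) * cB K) +
  32 * (c3 (cB K) * (128 * (c1 (cB K) + 32 * (cB K * cB K)))) + 32 * cA K

theorem cB_ge (hK : 0 ≤ K) : 2 * cA K ≤ cB K ∧ cN (cA K) * K + 1 ≤ cB K ∧ K + 1 ≤ cB K := by
  have h1 := cA_ge hK
  have h2 := mul_nonneg (cN_pos h1).le hK
  unfold cB
  exact ⟨by linarith, by linarith, by linarith⟩

theorem cT_parts (hK : 0 ≤ K) : 0 < cB K ∧ 0 < c1 (cB K) ∧ 0 < c2 (cB K) ∧ 0 < c3 (cB K) := by
  have h : 0 < cB K := by linarith [(cB_ge hK).2.2]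
  have h1 : 0 < c1 (cB K) := by unfold c1; positivity
  exact ⟨h, h1, by unfold c2; positivity, by unfold c3; positivity⟩

theorem cT_pos (hK : 0 ≤ K) : 0 < cT K := by
  obtain ⟨h0, h1, h2, h3⟩ := cT_parts hK
  have := cA_ge hK
  unfold cT; positivity

theorem J.cg {C : ℝ} {a0 a1 a2 a' : E4 → ℝ} (h : J δ d C a0 a1 a2 a') (b0 b' : E4 → ℝ)
    (e0 : ∀ y ∈ B1, b0 y = a0 y) (e' : ∀ y ∈ B1, b' y = a' y) : J δ d C b0 a1 a2 b' :=
  ⟨h.h0.congr ob e0, h.h1.congr ob fun y hy => by rw [e0 y hy],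
    h.h2.congr ob fun y hy => by rw [e0 y hy], h.h3.congr ob e',
    h.h4.congr ob fun y hy => by rw [e' y hy]⟩

/-- the Lie derivative of the connection -/
def lieC (g : MetricField 4) (v : E4 → E4) (k a b : Fin 4) (y : E4) : ℝ :=
  pderiv a (pderiv b fun z => v z k) y +
    ∑ l, (pderiv l (fun z => christoffel g z k a b) y * v y l +
      christoffel g y k l b * pderiv a (fun z => v z l) y +
      christoffel g y k a l * pderiv b (fun z => v z l) y -
      christoffel g y l a b * pderiv l (fun z => v z k) y)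

theorem tau_cell {z : E4 → E4} {a : ℝ} (h : CKA (1 / 2) B1 4 a z) {y : E4} (hy : y ∈ B1)
    (n : Fin 4) : tau Gh gh (fun y => y + z y) y n =
      ∑ a, ∑ d, (Gh y)⁻¹ a d * (pderiv a (pderiv d fun y => z y n) y +
        ∑ p, ∑ q, christoffel gh (y + z y) n p q * ((δ₁ p a + pderiv a (fun y => z y p) y) *
          (δ₁ q d + pderiv d (fun y => z y q) y)) -
        ∑ l, (δ₁ n l + pderiv l (fun y => z y n) y) * christoffel Gh y l a d) := by
  simp only [tau, pd_id_add (h.diffAt ob hy), pd2_id_add h hy]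

theorem loc_lip (hl : LIE) (c : CellG K η κ gh Gh) (E : CellE (K * κ) r0 e) (hK : 0 ≤ K)
    (hη1 : η ≤ 1) (hκ0 : 0 ≤ κ) (hκ : κ ≤ 2) (s : Sm K r0 δ) (h1 : X1 κ δ o1) (ho1 : SmT o1 B1)
    (h2 : X1 κ δ o2) (ho2 : SmT o2 B1) (h : X1 κ d (o1 - o2)) :
    Y1 κ (cT K * (η + δ) * d) (TT gh Gh e o1 - TT gh Gh e o2 - lapT gh (o1 - o2)) := by
  intro j
  have D := dp c E hK hκ0 hκ s h1 ho1 h2 ho2 h
  have p1 := uu_pull c E hK hκ0 hκ s h1 ho1
  have p2 := uu_pull c E hK hκ0 hκ s h2 ho2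
  have hG := riemOn_mono c.riemG ob b12
  have hg := riemOn_mono c.riem ob b12
  have hA := cA_ge hK
  have hη : 0 ≤ η := (c.Gi 0 0).nonneg zB
  have hδ := s.nn
  have hδ1 := s.le1 hK
  have hd := h.nn
  obtain ⟨b1, b2, b3⟩ := cB_ge hK
  obtain ⟨q0, q1, q2, q3⟩ := cT_parts hK
  set B := cB K with hB
  set z1 := dsp gh e o1
  set z2 := dsp gh e o2
  set v := shp gh (o1 - o2) with hv
  have jP := fun m q => (D.jP hA hκ hδ hd m q).mono hδ hd b1
  have jD := fun p q m => (D.jD hA hκ0 p q m).mono hδ hd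
    (mul_le_mul_of_nonneg_right (show cA K ≤ B by linarith) hκ0)
  have jΓ := fun n p q => (D.jN hA hκ hδ hd s.s1 (c.chr n p q)).mono hδ hd
    (show cN (cA K) * (K * κ) ≤ B * κ by nlinarith)
  have jg := fun m n => (D.jN hA hκ hδ hd s.s1 (c.gb m n)).mono hδ hd
    (show cN (cA K) * K ≤ B by linarith)
  have kgi : ∀ a d, CK B fun y => (gh y)⁻¹ a d := fun a d =>
    ((c.gi a d).of_le (by norm_num)).mono (by linarith)
  have kGi : ∀ a d, CK B fun y => (Gh y)⁻¹ a d := fun a d =>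
    (((c.Gi a d).add ob ((c.gi a d).of_le (by norm_num))).congr ob fun _ _ => by ring).mono
      (by linarith)
  have kΓ : ∀ l a d, CK (B * κ) fun y => christoffel Gh y l a d := fun l a d =>
    (((c.chrG l a d).add ob (D.jN hA hκ hδ hd s.s1 (c.chr l a d)).h0).congr ob fun _ _ => by
      ring).mono (by nlinarith)
  have jI := fun n a d' => (((jD a d' n).add (J.sum4 fun p => J.sum4 fun q =>
    (jΓ n p q).mul ((jP p a).mul (jP q d') hδ hδ1 hd) hδ hδ1 hd)).sub
    (J.sum4 fun l => (jP n l).mul (J.const (kΓ l a d') hδ hd) hδ hδ1 hd)).mono hδ hd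
    (show _ ≤ c1 B * κ from le_of_eq (by unfold c1; ring)) |>.cg
    (fun y => -(christoffel Gh y n a d' - christoffel gh y n a d'))
    (fun y => lieC gh v n a d' y - ∑ l,
      pderiv l (fun y => v y n) y * (christoffel Gh y l a d' - christoffel gh y l a d'))
    (fun y _ => by simp [Matrix.one_apply]) fun y _ => by
      simp only [lieC, Hd.fderiv_eq_sum, Matrix.one_apply, mul_ite, ite_mul, mul_one, one_mul,
        mul_zero, zero_mul, sum_ite_eq', Finset.mem_univ, if_true, add_zero, mul_add,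
        sum_add_distrib, sum_ite_irrel, sum_const_zero]
      simp only [Fin.sum_univ_four]
      ring
  have jT := fun n => (J.sum4 fun a => J.sum4 fun d' =>
    (J.const (kGi a d') hδ hd).mul (jI n a d') hδ hδ1 hd).mono hδ hd
    (show _ ≤ c2 B * κ from le_of_eq (by unfold c2; ring))
  have jA := fun n => (J.sum4 fun m => (jg m n).mul (jP m j) hδ hδ1 hd).cg (fun y => gh y j n) _
    (fun y _ => by simp [Matrix.one_apply]) fun _ _ => rfl
  have jF := J.sum4 fun n => (jA n).mul (jT n) hδ hδ1 hd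
  -- the value at `0` is small
  have k0 : ∀ n, CK (4 * (4 * (8 * (B * (η * κ))))) fun y => ∑ a, ∑ d', (Gh y)⁻¹ a d' *
      -(christoffel Gh y n a d' - christoffel gh y n a d') := fun n =>
    CK.sum4 fun a => CK.sum4 fun d' => CK.mul (kGi a d') ((c.chrG n a d').neg ob)
  have kR : ∀ n a d', CK (4 * (8 * (B * d * (η * κ)))) fun y => ∑ l,
      pderiv l (fun y => v y n) y * (christoffel Gh y l a d' - christoffel gh y l a d') :=
    fun n a d' => CK.sum4 fun l => CK.mul (jP n l).h3 (c.chrG l a d')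
  have k1 := fun n => CK.sum4 fun a => CK.sum4 fun d' =>
    (CK.mul (c.Gi a d') (jI n a d').h3).sub ob (CK.mul (kgi a d') (kR n a d'))
  have k2 := CK.sum4 fun n => (CK.mul (jA n).h3 (k0 n)).add ob (CK.mul (jA n).h0 (k1 n))
  have k3 := CK.sum4 fun l => CK.mul (c.ric j l) (cka_proj (D.ch.of_le (by norm_num)) l)
  refine (((jF.h4.add ob k2).add ob k3).congr ob fun y hy => ?_).mono ?_
  · have e1 := ten_tau hG p1 hy j
    have e2 := ten_tau hG p2 hy j
    have e3 := hl gh B1 (o1 - o2) hg (ho1.sub ho2) y hy j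
    have u1 : uu gh e o1 = fun y => y + z1 y := rfl
    have u2 : uu gh e o2 = fun y => y + z2 y := rfl
    simp only [u1, u2, tau_cell D.c1 hy, tau_cell D.c2 hy, pd_id_add (D.c1.diffAt ob hy),
      pd_id_add (D.c2.diffAt ob hy)] at e1 e2
    simp only [Pi.sub_apply, TT, u1, u2, e1, e2]
    rw [← hv] at e3
    have e4 : lapT gh (o1 - o2) y ![j] = _ := (eq_sub_of_add_eq e3.symm)
    rw [e4]
    have e5 : ∀ (A' k0 : Fin 4 → ℝ) (kR : Fin 4 → Fin 4 → Fin 4 → ℝ) (i0 : Fin 4 → Fin 4 → Fin 4 → ℝ),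
        ∑ n, (A' n * k0 n + gh y j n * ∑ a, ∑ d', (0 * i0 n a d' +
          (Gh y)⁻¹ a d' * (lieC gh v n a d' y - kR n a d'))) =
        ∑ n, (A' n * k0 n + gh y j n * ∑ a, ∑ d', (((Gh y)⁻¹ a d' - (gh y)⁻¹ a d') *
          (lieC gh v n a d' y - kR n a d') - (gh y)⁻¹ a d' * kR n a d')) +
        ∑ n, gh y j n * ∑ a, ∑ d', (gh y)⁻¹ a d' * lieC gh v n a d' y := fun A' k0 kR i0 => by
      rw [← sum_add_distrib]
      refine sum_congr rfl fun n _ => ?_
      rw [add_assoc, ← mul_add, ← sum_add_distrib]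
      refine congrArg _ (congrArg _ (sum_congr rfl fun a _ => ?_))
      rw [← sum_add_distrib]
      exact sum_congr rfl fun d' _ => by ring
    rw [e5]
    simp only [lieC]
    ring
  · unfold cT
    rw [← hB]
    have r1 : 0 ≤ κ * η * d := by positivity
    have r2 : 0 ≤ κ * δ * d := by positivity
    have r3 : 0 ≤ c3 B * c2 B := by positivity
    have r4 : 0 ≤ c3 B * B := by positivity
    have r5 : 0 ≤ c3 B * (128 * (c1 B + 32 * (B * B))) := by positivity
    have r6 : 4 * (48 * (B * B)) = c3 B := rfl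
    rw [r6]
    nlinarith [mul_nonneg r3 r1, mul_nonneg r4 r2, mul_nonneg r5 r2,
      mul_nonneg (zero_le_one.trans hA) r2]

end Crest.Agent.N207.Ga

end
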