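import Crest.Agent.N207.Ga.St3
import Crest.Agent.N207.Ga.Loc2

/-!
# Row 207, GAUGE (helper3): the dictionary between the charts and the cells
-/

set_option autoImplicit false

open scoped ContDiff
open Metric Set Filter Topology
open Crest.GeometryTopology.CoordMetric Crest.Agent.R202.Tens
open Crest.Agent.NLib.Ell Crest.Agent.N207.I Crest.Agent.N207.CB Crest.Agent.N207.N
  Crest.Agent.N207.Lg Crest.Agent.N207.K

noncomputable section

namespace Crest.Agent.N207.Ga

theorem ten_af (G b : MetricField 4) (x0 : E4) (r : ℝ) (y : E4) :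
    ten (fun y => G (x0 + r • y)) (fun y => b (x0 + r • y)) y = r • ten G b (x0 + r • y) := by
  have h : matT (fun y => b (x0 + r • y)) = fun y => matT b (x0 + r • y) := rfl
  funext I
  simp only [ten, divT, h, cov_af, trT, conT, ipA_two, matT, Pi.sub_apply, Pi.smul_apply,
    smul_eq_mul, mul_sub, Finset.mul_sum]
  congr 1
  · exact Finset.sum_congr rfl fun _ _ => Finset.sum_congr rfl fun _ _ => by ring
  · exact Finset.sum_congr rfl fun _ _ => Finset.sum_congr rfl fun _ _ =>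
      Finset.sum_congr rfl fun _ _ => Finset.sum_congr rfl fun _ _ => by ring

theorem ten_cs {c : ℝ} (hc : c ≠ 0) (G b : MetricField 4) :
    ten (fun y => c • G y) (fun y => c • b y) = ten G b := by
  have h : matT (fun y => c • b y) = c • matT b := rfl
  funext y I
  simp only [ten, divT, h, cov_cs hc, cov_smul, trT, conT, ipA_two, matT, Pi.sub_apply,
    Pi.smul_apply, Matrix.smul_apply, minv_smul hc, smul_eq_mul]
  congr 1
  · exact Finset.sum_congr rfl fun _ _ => Finset.sum_congr rfl fun _ _ => by field_simp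
  · congr 1
    exact Finset.sum_congr rfl fun _ _ => Finset.sum_congr rfl fun _ _ =>
      Finset.sum_congr rfl fun _ _ => Finset.sum_congr rfl fun _ _ => by field_simp

theorem lapT_add {G : MetricField 4} {U : Set E4} {S R : Tn 4 1} (hG : IsRiemannianOn G U)
    (hS : SmT S U) (hR : SmT R U) {y : E4} (hy : y ∈ U) :
    lapT G (S + R) y = lapT G S y + lapT G R y := by
  have h1 : cov G (cov G (S + R)) y = cov G (cov G S) y + cov G (cov G R) y := by
    rw [cov_congr_on hG.isOpen hy (T' := cov G S + cov G R) fun z hz =>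
      cov_add (hS.dAt hG.isOpen hz) (hR.dAt hG.isOpen hz)]
    exact cov_add ((hS.cov hG).dAt hG.isOpen hy) ((hR.cov hG).dAt hG.isOpen hy)
  funext I
  simp only [lapT, trT, h1, Pi.add_apply, mul_add, Finset.sum_add_distrib]

section XY

variable {κ a b : ℝ} {o o' : Tn 4 1}

theorem X1.mono (h : X1 κ a o) (hκ : 0 ≤ κ) (hab : a ≤ b) : X1 κ b o := fun j =>
  ⟨(h j).1.mono hab, fun p q => ((h j).2 p q).mono (by gcongr)⟩

theorem X1.zero : X1 κ 0 0 := fun j =>
  ⟨CKA.zero, fun p q => by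
    have : (pderiv p (pderiv q fun y : E4 => (0 : Tn 4 1) y ![j])) = fun _ => 0 := by
      funext y
      have : (pderiv q fun y : E4 => (0 : Tn 4 1) y ![j]) = fun _ => 0 :=
        funext fun _ => pd_const q 0
      rw [this, pd_const]
    rw [this, zero_mul]; exact CKA.zero⟩

theorem X1.add (h : X1 κ a o) (h' : X1 κ b o') (ho : SmT o B1) (ho' : SmT o' B1) :
    X1 κ (a + b) (o + o') := fun j => by
  refine ⟨(h j).1.add ob (h' j).1, fun p q => ?_⟩
  refine ((((h j).2 p q).add ob ((h' j).2 p q)).congr ob fun y hy => ?_).mono (le_of_eq (by ring))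
  have d : ∀ {o : Tn 4 1}, SmT o B1 → DifferentiableAt ℝ (pderiv q fun y => o y ![j]) y :=
    fun ho => ((sm_pd ob (ho ![j]) q).contDiffAt (ob.mem_nhds hy)).differentiableAt (by simp)
  rw [← pd_add p (d ho) (d ho')]
  exact pd_congr_on p ob hy fun x hx =>
    pd_add q ((h j).1.diffAt ob hx) ((h' j).1.diffAt ob hx)

theorem Y1.mono (h : Y1 κ a o) (hκ : 0 ≤ κ) (hab : a ≤ b) : Y1 κ b o := fun j =>
  (h j).mono (by gcongr)

theorem Y1.congr (h : Y1 κ a o) (e : ∀ y ∈ B1, o' y = o y) : Y1 κ a o' := fun j =>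
  (h j).congr ob fun y hy => by rw [e y hy]

theorem Y1.neg (h : Y1 κ a o) : Y1 κ a (-o) := fun j => (h j).neg ob

end XY

variable {M : Type*} {T : TD M} {L : T.V → ℝ} {s : T.S} {x0 : E4}

theorem rad_pos (hx : x0 ∈ T.gK L s) : 0 < rad T s x0 := by
  cases s with
  | inl a => show (0 : ℝ) < 1 / 8; norm_num
  | inr w =>
    have := (TD.mem_gK_inr.1 hx).1
    show (0 : ℝ) < ‖x0‖ / 8
    linarith

theorem pt_ball (hx : x0 ∈ T.gK L s) {t : ℝ} {y : E4} (hy : y ∈ ball (0 : E4) t) :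
    pt T s x0 y ∈ ball x0 (t * rad T s x0) := by
  have := rad_pos hx
  rw [mem_ball_zero_iff] at hy
  rw [mem_ball, dist_eq_norm, pt, add_sub_cancel_left, norm_smul, Real.norm_of_nonneg this.le]
  nlinarith

theorem pt_gU (hx : x0 ∈ T.gK L s) {y : E4} (hy : y ∈ B1) : pt T s x0 y ∈ gU T L 1 s :=
  cell_gU zero_le_one s hx (pt_ball hx hy) (by norm_num)

theorem pt_U (h : T.Ok) (hx : x0 ∈ T.gK L s) {y : E4} (hy : y ∈ B2) :
    pt T s x0 y ∈ (T.glob L).U s :=
  gU_sub' h (t := 5 / 4) (by norm_num) s (cell_gU (by norm_num) s hx (pt_ball hx hy) (by norm_num))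

theorem exists_pt (hL : T.Long L) {x : E4} (hx : x ∈ gU T L 1 s) :
    ∃ x0 ∈ T.gK L s, ∃ y ∈ B1, pt T s x0 y = x := by
  obtain ⟨x0, h0, h1⟩ := gU_cell hL one_pos (by norm_num) s hx
  have hr := rad_pos h0
  refine ⟨x0, h0, (rad T s x0)⁻¹ • (x - x0), ?_, by simp [pt, smul_smul, hr.ne']⟩
  rw [mem_ball, dist_eq_norm, one_mul] at h1
  rw [mem_ball_zero_iff, norm_smul, norm_inv, Real.norm_of_nonneg hr.le, inv_mul_lt_iff₀ hr]
  linarith

theorem scl_pt (hx : x0 ∈ T.gK L s) {y : E4} (hy : y ∈ B1) :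
    7 * rad T s x0 ≤ scl T s (pt T s x0 y) ∧ scl T s (pt T s x0 y) ≤ 9 * rad T s x0 := by
  have h := pt_ball hx hy
  cases s with
  | inl a => constructor <;> simp only [rad, scl, Sum.elim_inl] <;> norm_num
  | inr w =>
    rw [mem_ball, dist_eq_norm] at h
    have h1 := norm_sub_norm_le (pt T (Sum.inr w) x0 y) x0
    have h2 := norm_sub_norm_le x0 (pt T (Sum.inr w) x0 y)
    rw [norm_sub_rev] at h2
    simp only [rad, scl, Sum.elim_inr] at h h1 h2 ⊢
    constructor <;> linarith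

theorem pt_sm (s : T.S) (x0 : E4) : ContDiff ℝ ∞ (pt T s x0) :=
  contDiff_const.add (contDiff_id.const_smul _)

theorem smT_cell (h : T.Ok) (hx : x0 ∈ T.gK L s) {om : T.S → Tn 4 1} (ho : (T.glob L).Sec om) :
    SmT (clX T L om s x0) B1 := fun I =>
  contDiffOn_const.mul ((ho.sm s I).comp (pt_sm s x0).contDiffOn fun _ hy => pt_U h hx (b12 hy))

variable (gb G : Fam T) (E : T.S → E4 × E4 → E4) (om : T.S → Tn 4 1)

theorem eps2 (L : T.V → ℝ) (s : T.S) : T.eps L (T.un s) ^ 2 ≠ 0 :=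
  pow_ne_zero _ (TD.eps_pos L _).ne'

theorem shp_cell (s : T.S) (x0 y : E4) : shp (clM T gb s x0) (clX T L om s x0) y =
    (rad T s x0)⁻¹ • shp (rt T L gb s) (om s) (pt T s x0 y) := by
  ext k
  simp only [shp_apply, clM, clX, rt, minv_smul (eps2 L s), PiLp.smul_apply, Pi.smul_apply,
    Matrix.smul_apply, smul_eq_mul, Finset.mul_sum, mul_inv]
  exact Finset.sum_congr rfl fun _ _ => by ring

theorem uu_cell (hx : x0 ∈ T.gK L s) : uu (clM T gb s x0) (clE T E s x0) (clX T L om s x0) =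
    fun y => (rad T s x0)⁻¹ • (uG T (rt T L gb) E om s (pt T s x0 y) - x0) := by
  funext y
  simp only [uu, dsp, clE, shp_cell, smul_smul, mul_inv_cancel₀ (rad_pos hx).ne', one_smul, uG]
  abel

theorem dsp_cell (hx : x0 ∈ T.gK L s) : dsp (clM T gb s x0) (clE T E s x0) (clX T L om s x0) =
    clU T (uG T (rt T L gb) E om) s x0 := by
  funext y
  have h := congrFun (uu_cell gb E om hx) y
  rw [uu] at h
  rw [eq_sub_of_add_eq' h, clU]
  simp only [pt, smul_sub, smul_add, smul_smul, inv_mul_cancel₀ (rad_pos hx).ne', one_smul]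
  abel

theorem TT_cell (hx : x0 ∈ T.gK L s) :
    TT (clM T gb s x0) (clM T (T.nrm L G) s x0) (clE T E s x0) (clX T L om s x0) =
      clY T (opG T (rt T L gb) G E om) s x0 := by
  funext y
  have h1 := pbG_af (rad_pos hx).ne' (uG T (rt T L gb) E om s) (gb s) x0
  have h2 := ten_af (T.nrm L G s) (pbG (uG T (rt T L gb) E om s) (gb s)) x0 (rad T s x0) y
  have h3 := ten_cs (eps2 L s) (T.nrm L G s) (pbG (uG T (rt T L gb) E om s) (gb s))
  have h4 : (fun y => T.eps L (T.un s) ^ 2 • T.nrm L G s y) = G s := congrFun (rt_nrm T L G) s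
  rw [h4, ← pbG_cs] at h3
  rw [TT, uu_cell gb E om hx]
  exact (congrArg (fun b => ten _ b y) h1).trans (h2.trans (by rw [← h3]; rfl))

theorem lap_cell (hx : x0 ∈ T.gK L s) : lapT (clM T gb s x0) (clX T L om s x0) =
    clY T (fun s => lapT (rt T L gb s) (om s)) s x0 := by
  funext y
  have h1 := lapT_af (gb s) ((T.eps L (T.un s) ^ 2 * rad T s x0)⁻¹ • om s) x0 (rad T s x0) y
  have h2 := lapT_cs (eps2 L s) 1 (gb s) (om s) (pt T s x0 y)
  have h3 := lapT_cs one_ne_zero (T.eps L (T.un s) ^ 2 * rad T s x0)⁻¹ (gb s) (om s) (pt T s x0 y)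
  simp only [one_smul, inv_one, one_mul, mul_one] at h2 h3
  refine h1.trans ?_
  rw [clY]
  show _ • lapT (gb s) _ (pt T s x0 y) = _ • lapT (fun y => _ • gb s y) _ _
  rw [h2, h3, smul_smul, smul_smul]
  congr 1
  have := (rad_pos hx).ne'
  have := eps2 L s
  field_simp

theorem clX_add (om' : T.S → Tn 4 1) (s : T.S) (x0 : E4) :
    clX T L (om + om') s x0 = clX T L om s x0 + clX T L om' s x0 := by
  funext y; simp only [clX, Pi.add_apply, smul_add]

theorem clX_zero (s : T.S) (x0 : E4) : clX T L 0 s x0 = 0 := by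
  funext y; simp [clX]

end Crest.Agent.N207.Ga

end
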