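import Crest.Agent.N207.M.Ex3
import Crest.Agent.N207.Ga.Defs

/-!
# Row 207, GAUGE (helper52): the leaf `EXP`
-/

set_option autoImplicit false
set_option linter.unusedSectionVars false

open scoped ContDiff Topology
open Set Filter Metric
open Crest.Agent.N207.I Crest.Agent.N207.CB Crest.Agent.N207.K Crest.Agent.N207.M

noncomputable section

namespace Crest.Agent.N207.Ga

variable {M : Type*} {T : TD M} {L : T.V → ℝ}

/-- the closed region where the local addition is controlled -/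
def gV (T : TD M) (L : T.V → ℝ) : T.S → Set E4 :=
  Sum.elim (fun _ => closedBall 0 (7 / 4)) fun w =>
    {x | 5 / 4 ≤ ‖x‖ ∧ (w ≠ T.root → ‖x‖ ≤ 7 / 8 * T.r * Real.exp (L w))}

theorem gU_gV (h : T.Ok) (s : T.S) : gU T L 1 s ⊆ gV T L s := by
  cases s with
  | inl a => exact ball_subset_closedBall.trans (closedBall_subset_closedBall (by norm_num))
  | inr w =>
    have := mul_pos h.r_pos (Real.exp_pos (L w))
    exact fun x hx => ⟨by linarith [hx.1], fun hw => by nlinarith [hx.2 hw]⟩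

theorem gV_U (h : T.Ok) (s : T.S) : gV T L s ⊆ (T.glob L).U s := by
  cases s with
  | inl a => exact closedBall_subset_ball (by norm_num)
  | inr w =>
    have := mul_pos h.r_pos (Real.exp_pos (L w))
    exact fun x hx => ⟨by linarith [hx.1], fun hw => by nlinarith [hx.2 hw]⟩

theorem ex_mid (h : T.Ok) (hL : T.Long L) {w : T.V} {q : E4 × E4} (h1 : 8 < ‖q.1‖)
    (h2 : w ≠ T.root → ‖q.1‖ < T.r / 8 * Real.exp (L w)) (h3 : ‖q.2‖ < ‖q.1‖ / 2) :
    q ∈ exD (T.glob L) T.χ (Sum.inr w) ∧ ex (T.glob L) T.χ (Sum.inr w) q = q.1 + q.2 := by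
  have he := mul_pos h.r_pos (Real.exp_pos (L w))
  have key : ∀ t ∈ Icc (0 : ℝ) 1, 3 ≤ ‖q.1 + t • q.2‖ ∧
      (w ≠ T.root → ‖q.1 + t • q.2‖ ≤ T.r / 3 * Real.exp (L w)) := fun t ht => by
    have a1 : ‖t • q.2‖ ≤ ‖q.2‖ := by
      rw [norm_smul, Real.norm_of_nonneg ht.1]; exact mul_le_of_le_one_left (norm_nonneg _) ht.2
    have a2 := norm_add_le q.1 (t • q.2)
    have a3 := norm_sub_le (q.1 + t • q.2) (t • q.2)
    rw [add_sub_cancel_right] at a3
    exact ⟨by linarith, fun hw => by linarith [h2 hw]⟩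
  exact ex_flat (h.glob_ok hL) (h.glob_pou hL) (fun t ht => TD.mem_glob_inr.2
    ⟨by linarith [(key t ht).1], fun hw => by linarith [(key t ht).2 hw]⟩)
    fun t ht => acc_mid h hL (key t ht).1 (key t ht).2 _

theorem jet_arith {r c σ z D D' : ℝ} (hr : 0 < r) (hc : 0 < c) (hσ : 0 < σ) (hz : 0 < z)
    (h1 : r / 8 ≤ c * σ) (h2 : c * σ ≤ 8) {j : ℕ} (hj : j ≤ 7) (hD : D ≤ c⁻¹ * (c ^ j * D'))
    (hD' : D' ≤ z⁻¹) : σ ^ j * D ≤ 8 ^ 8 / (r * z) * σ := by
  have a1 : (c * σ) ^ j ≤ 8 ^ 7 :=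
    (pow_le_pow_left₀ (by positivity) h2 j).trans (pow_le_pow_right₀ (by norm_num) hj)
  have a2 : c⁻¹ ≤ 8 / r * σ := by
    rw [inv_le_iff_one_le_mul₀ hc, div_mul_eq_mul_div, div_mul_eq_mul_div, one_le_div hr]
    linarith
  calc σ ^ j * D ≤ σ ^ j * (c⁻¹ * (c ^ j * z⁻¹)) := by
        refine mul_le_mul_of_nonneg_left (hD.trans ?_) (by positivity)
        gcongr
    _ = c⁻¹ * ((c * σ) ^ j * z⁻¹) := by rw [mul_pow]; ring
    _ ≤ 8 / r * σ * (8 ^ 7 * z⁻¹) := by gcongr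
    _ = 8 ^ 8 / (r * z) * σ := by field_simp

theorem scl_pos {s : T.S} {x : E4} (hx : x ∈ gV T L s) : 0 < scl T s x := by
  cases s with
  | inl a => exact one_pos
  | inr w => exact lt_of_lt_of_le (by norm_num) hx.1

/-- the uniform radius and the uniform jets of the local addition of `glob L` -/
theorem exp_pt (h : T.Ok) : ∃ K r0 l0 : ℝ, 0 < K ∧ 0 < r0 ∧ r0 ≤ 1 / 4 ∧ ∀ L, Lg T l0 L →
    ∀ s, ∀ x ∈ gV T L s, ∀ v : E4, ‖v‖ ≤ r0 * scl T s x → (x, v) ∈ exD (T.glob L) T.χ s ∧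
      ∀ j ≤ 7, scl T s x ^ j * ‖iteratedFDeriv ℝ j (dev (T.glob L) T.χ s) (x, v)‖ ≤
        K * scl T s x := by
  have hr := h.r_pos
  have hr1 := h.r_lt
  have cp : ∀ a b : ℝ, IsCompact {x : E4 | a ≤ ‖x‖ ∧ ‖x‖ ≤ b} := fun a b =>
    (isCompact_closedBall (0 : E4) b).of_isClosed_subset
      ((isClosed_le continuous_const continuous_norm).inter
        (isClosed_le continuous_norm continuous_const)) fun x hx => mem_closedBall_zero_iff.2 hx.2
  have op : ∀ a b : ℝ, IsOpen {x : E4 | a < ‖x‖ ∧ ‖x‖ < b} := fun a b =>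
    (isOpen_lt continuous_const continuous_norm).inter (isOpen_lt continuous_norm continuous_const)
  have m1 := eventually_all.2 fun a : T.B => exists_mod (h.core_ok (T.vx a)) (h.core_pou _)
    (Sum.inl a) (isOpen_ball (x := (0 : E4)) (ε := 2)) (isCompact_closedBall 0 (7 / 4))
    (fun x hx => TD.mem_core_inl.2 ⟨rfl, by linarith [mem_closedBall_zero_iff.1 hx]⟩)
    (closedBall_subset_ball (by norm_num)) 7
  have m2 := eventually_all.2 fun w : T.V => exists_mod (h.core_ok w) (h.core_pou _)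
    (Sum.inr w) (op 1 9) (cp (5 / 4) 8) (fun x hx => TD.mem_core_out.2 (by linarith [hx.1]))
    (fun x hx => ⟨by linarith [hx.1], by linarith [hx.2]⟩) 7
  have m3 := eventually_all.2 fun w : {w : T.V // w ≠ T.root} => exists_mod (h.core_ok (T.par w))
    (h.core_pou _) (Sum.inr w.1) (op (T.r / 16) T.r) (cp (T.r / 8) (7 / 8 * T.r))
    (fun x hx => (TD.mem_core_inn (h.par_ne w.2)).2
      ⟨⟨w.2, rfl⟩, by linarith [hx.1], by linarith [hx.2]⟩)
    (fun x hx => ⟨by linarith [hx.1], by linarith [hx.2]⟩) 7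
  obtain ⟨z, ⟨h1, h2, h3⟩, hz, hz1⟩ := ((m1.and (m2.and m3)).and
    (Ioo_mem_nhdsGT (zero_lt_one' ℝ))).exists
  refine ⟨8 ^ 8 / (T.r * z), z / 8, Real.log (48 / T.r), by positivity, by positivity, by linarith,
    fun L hL s x hx v hv => ?_⟩
  have hA := h.glob_ok hL.1
  have hP := h.glob_pou hL.1
  have hl : ∀ w, w ≠ T.root → 48 ≤ T.r * Real.exp (L w) := fun w hw => by
    have := Real.exp_le_exp.2 (hL.2 w hw)
    rw [Real.exp_log (by positivity), div_le_iff₀ hr] at this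
    linarith
  have hs := scl_pos hx
  -- the transfer from a model
  have key : ∀ (v' : T.V) (W : Set E4) (c : ℝ), IsOpen W → 0 < c → (∀ x, c • x ∈ W →
      x ∈ (T.glob L).U s ∧ ∀ u, acc (T.glob L) T.χ s x u =
        c⁻¹ • acc (T.core v') T.χ s (c • x) (c • u)) → T.r / 8 ≤ c * scl T s x →
      c * scl T s x ≤ 8 → (∀ u : E4, ‖u‖ ≤ z → (c • x, u) ∈ stay (T.core v') T.χ s W ∧
        ∀ j ≤ 7, ‖iteratedFDeriv ℝ j (dev (T.core v') T.χ s) (c • x, u)‖ ≤ z⁻¹) →
      (x, v) ∈ exD (T.glob L) T.χ s ∧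
      ∀ j ≤ 7, scl T s x ^ j * ‖iteratedFDeriv ℝ j (dev (T.glob L) T.χ s) (x, v)‖ ≤
        8 ^ 8 / (T.r * z) * scl T s x := fun v' W c hW hc ha b1 b2 hm => by
    have b3 : ‖c • v‖ ≤ z := by
      rw [norm_smul, Real.norm_of_nonneg hc.le]
      nlinarith [mul_le_mul_of_nonneg_left hv hc.le]
    obtain ⟨b4, b5⟩ := hm _ b3
    exact ⟨(ex_transfer hA hP (h.core_ok v') (h.core_pou v') hc.ne' ha (q := (x, v)) b4).1,
      fun j hj => jet_arith hr hc hs hz b1 b2 hj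
        (jet_transfer hA hP (h.core_ok v') (h.core_pou v') hW hc ha (q := (x, v)) b4 j) (b5 j hj)⟩
  cases s with
  | inl a =>
    refine key (T.vx a) (ball 0 2) 1 isOpen_ball one_pos (fun y hy => ?_)
      (by simp only [scl, Sum.elim_inl]; linarith) (by simp [scl]) ?_
    · rw [one_smul] at hy
      exact ⟨hy, fun u => by simpa using acc_ball h hL.1 (mem_ball_zero_iff.1 hy) u⟩
    · rw [one_smul]; exact h1 a x hx
  | inr w =>
    have hs' : scl T (Sum.inr w) x = ‖x‖ := rfl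
    by_cases c1 : ‖x‖ ≤ 8
    · refine key w _ 1 (op 1 9) one_pos (fun y hy => ?_) (by rw [hs']; linarith [hx.1])
        (by rw [hs']; linarith) ?_
      · rw [one_smul] at hy
        exact ⟨⟨hy.1, fun hw => by linarith [hy.2, hl w hw]⟩, fun u => by
          simpa using acc_out h hL.1 hy.1 (fun hw => by linarith [hy.2, hl w hw]) u⟩
      · rw [one_smul]; exact h2 w x ⟨hx.1, c1⟩
    by_cases c2 : w ≠ T.root → ‖x‖ < T.r / 8 * Real.exp (L w)
    · have o1 : ∀ᶠ q : E4 × E4 in 𝓝 (x, v), 8 < ‖q.1‖ ∧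
          (w ≠ T.root → ‖q.1‖ < T.r / 8 * Real.exp (L w)) ∧ ‖q.2‖ < ‖q.1‖ / 2 := by
        refine Eventually.and ((isOpen_lt (g := fun q : E4 × E4 => ‖q.1‖) continuous_const
          (by fun_prop)).mem_nhds (not_le.1 c1)) (Eventually.and ?_ ?_)
        · by_cases hw : w = T.root
          · exact Eventually.of_forall fun _ h' => absurd hw h'
          · filter_upwards [(isOpen_lt (f := fun q : E4 × E4 => ‖q.1‖) (by fun_prop)
              continuous_const).mem_nhds (c2 hw)] with q hq _ using hq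
        · refine (isOpen_lt (f := fun q : E4 × E4 => ‖q.2‖) (g := fun q : E4 × E4 => ‖q.1‖ / 2)
            (by fun_prop) (by fun_prop)).mem_nhds ?_
          change ‖v‖ < ‖x‖ / 2
          rw [hs'] at hv hs
          nlinarith
      have o2 := o1.mono fun q hq => ex_mid h hL.1 hq.1 hq.2.1 hq.2.2
      refine ⟨o2.self_of_nhds.1, fun j hj => ?_⟩
      have o3 : dev (T.glob L) T.χ (Sum.inr w) =ᶠ[𝓝 (x, v)] fun _ => 0 :=
        o2.mono fun q hq => by rw [dev, hq.2, add_sub_cancel_left, sub_self]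
      rw [(o3.iteratedFDeriv ℝ j).eq_of_nhds, iteratedFDeriv_fun_zero]
      simp only [Pi.zero_apply, norm_zero, mul_zero]
      positivity
    · push Not at c2
      obtain ⟨hw, c2⟩ := c2
      have he := Real.exp_pos (-L w)
      have n1 : Real.exp (-L w) * ‖x‖ = ‖Real.exp (-L w) • x‖ := by
        rw [norm_smul, Real.norm_of_nonneg he.le]
      have n2 : T.r / 8 ≤ ‖Real.exp (-L w) • x‖ := not_lt.1 fun h' => by
        linarith [TD.nrm_exp_lt.1 h']
      have n3 : ‖Real.exp (-L w) • x‖ ≤ 7 / 8 * T.r := TD.nrm_exp_le.2 (hx.2 hw)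
      refine key (T.par w) _ _ (op (T.r / 16) T.r) he (fun y hy => ?_) (by rw [hs', n1]; exact n2)
        (by rw [hs', n1]; linarith) (h3 ⟨w, hw⟩ _ ⟨n2, n3⟩)
      have b1 := TD.lt_nrm_exp.1 hy.1
      have b2 := TD.nrm_exp_lt.1 hy.2
      have b3 := hl w hw
      exact ⟨⟨by linarith, fun _ => b2⟩, acc_inn h hL.1 hw (by linarith) b2⟩

theorem cell_pt (h : T.Ok) {s : T.S} {x0 y : E4} (hx : x0 ∈ T.gK L s) (hy : y ∈ B2) :
    0 < rad T s x0 ∧ pt T s x0 y ∈ gV T L s ∧ rad T s x0 ≤ scl T s (pt T s x0 y) ∧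
      scl T s (pt T s x0 y) ≤ 10 * rad T s x0 := by
  have hy' := mem_ball_zero_iff.1 hy
  have a0 : ∀ ρ : ℝ, 0 ≤ ρ → ‖x0 + ρ • y‖ ≤ ‖x0‖ + 5 / 4 * ρ ∧ ‖x0‖ - 5 / 4 * ρ ≤ ‖x0 + ρ • y‖ :=
    fun ρ hρ => by
      have a1 : ‖ρ • y‖ ≤ 5 / 4 * ρ := by
        rw [norm_smul, Real.norm_of_nonneg hρ]; nlinarith
      have a2 := norm_add_le x0 (ρ • y)
      have a3 := norm_sub_le (x0 + ρ • y) (ρ • y)
      rw [add_sub_cancel_right] at a3
      exact ⟨by linarith, by linarith⟩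
  cases s with
  | inl a =>
    have := TD.mem_gK_inl.1 hx
    have b := (a0 (1 / 8) (by norm_num)).1
    exact ⟨by simp [rad], mem_closedBall_zero_iff.2 (b.trans (by linarith)),
      by simp only [rad, scl, Sum.elim_inl]; norm_num, by simp only [rad, scl, Sum.elim_inl]; norm_num⟩
  | inr w =>
    obtain ⟨b1, b2⟩ := TD.mem_gK_inr.1 hx
    obtain ⟨b3, b4⟩ := a0 (‖x0‖ / 8) (by positivity)
    have := mul_pos h.r_pos (Real.exp_pos (L w))
    simp only [pt, rad, scl, Sum.elim_inr]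
    exact ⟨by linarith, ⟨by linarith, fun hw => by linarith [b2 hw]⟩, by linarith, by linarith⟩

open Classical in
/-- **EXP** -/
theorem exp (h : T.Ok) : EXP T := by
  obtain ⟨K, r0, l0, hK, hr0, hr1, H⟩ := exp_pt h
  have hr := h.r_pos
  refine ⟨10 * K, r0, 16 / T.r, l0, by positivity, hr0, by positivity, fun L hL =>
    ⟨fun s q => if ‖q.2‖ ≤ r0 * scl T s q.1 then ex (T.glob L) T.χ s q else q.1 + q.2,
      fun s x0 hx0 => ?_, fun w x v h1 h2 => ?_, fun s s' x F v tF h1 h2 h3 h4 => ?_⟩⟩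
  · have hA := h.glob_ok hL.1
    have hP := h.glob_pou hL.1
    set ρ := rad T s x0 with hρ
    have hO : IsOpen (B2 ×ˢ ball (0 : E4) r0) := isOpen_ball.prod isOpen_ball
    have b1 : ∀ p ∈ B2 ×ˢ ball (0 : E4) r0, ‖ρ • p.2‖ ≤ r0 * scl T s (pt T s x0 p.1) :=
      fun p hp => by
        obtain ⟨c1, -, c2, -⟩ := cell_pt h hx0 hp.1
        rw [norm_smul, Real.norm_of_nonneg c1.le, mul_comm]
        exact mul_le_mul (mem_ball_zero_iff.1 hp.2).le c2 c1.le hr0.le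
    have b0 : ∀ p : E4 × E4, ((x0, 0) : E4 × E4) + ρ • p = (pt T s x0 p.1, ρ • p.2) := fun p => by
      simp [pt, hρ, Prod.ext_iff]
    have hρ0 : 0 < ρ := (cell_pt h hx0 (mem_ball_self (by norm_num))).1
    have b2 : ∀ p ∈ B2 ×ˢ ball (0 : E4) r0, clE T (fun s q => if ‖q.2‖ ≤ r0 * scl T s q.1 then
        ex (T.glob L) T.χ s q else q.1 + q.2) s x0 =ᶠ[𝓝 p]
        fun p => ρ⁻¹ • dev (T.glob L) T.χ s ((x0, 0) + ρ • p) := fun p hp => by
      filter_upwards [hO.mem_nhds hp] with p hp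
      rw [b0, clE, ← hρ, if_pos (b1 p hp), dev]
      simp only [pt, ← hρ, smul_sub, smul_add, inv_smul_smul₀ hρ0.ne']
      abel
    have b3 := fun p (hp : p ∈ B2 ×ˢ ball (0 : E4) r0) =>
      H L hL s _ (cell_pt h hx0 hp.1).2.1 _ (b1 p hp)
    have b4 : ∀ y ∈ B2, ((y, 0) : E4 × E4) ∈ B2 ×ˢ ball (0 : E4) r0 := fun y hy =>
      ⟨hy, mem_ball_self hr0⟩
    have b5 : ∀ y ∈ B2, pt T s x0 y ∈ (T.glob L).U s := fun y hy =>
      gV_U h s (cell_pt h hx0 hy).2.1
    refine ⟨⟨fun p hp => ?_, fun j hj p hp => ?_⟩, fun y hy => ?_, fun y hy v => ?_⟩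
    · refine (ContDiffAt.congr_of_eventuallyEq ?_ (b2 p hp)).contDiffWithinAt
      have := dev_cda hA hP (b3 p hp).1
      rw [← b0] at this
      exact (this.comp p (f := fun p : E4 × E4 => ((x0, 0) : E4 × E4) + ρ • p)
        (by fun_prop)).const_smul _
    · rw [((b2 p hp).iteratedFDeriv ℝ j).eq_of_nhds]
      refine (norm_scale _ _ hρ0 (inv_pos.2 hρ0) j p).trans ?_
      obtain ⟨-, -, c2, c3⟩ := cell_pt h hx0 hp.1
      rw [b0, inv_mul_le_iff₀ hρ0]
      refine (mul_le_mul_of_nonneg_right (pow_le_pow_left₀ hρ0.le c2 j) (norm_nonneg _)).trans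
        (((b3 p hp).2 j hj).trans ?_)
      nlinarith
    · rw [(b2 _ (b4 y hy)).eq_of_nhds, b0, smul_zero, dev_zero hA hP (b5 y hy), smul_zero]
    · have c1 := dev_der hA hP (b5 y hy)
      have c2 : HasFDerivAt (fun p : E4 × E4 => ((x0, 0) : E4 × E4) + ρ • p)
          (ρ • ContinuousLinearMap.id ℝ (E4 × E4)) (y, 0) :=
        ((hasFDerivAt_id _).const_smul ρ).const_add _
      rw [show ((pt T s x0 y, 0) : E4 × E4) = (x0, 0) + ρ • ((y, 0) : E4 × E4) by
        rw [b0, smul_zero]] at c1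
      have c3 : HasFDerivAt (fun p => ρ⁻¹ • dev (T.glob L) T.χ s ((x0, 0) + ρ • p)) _ (y, 0) :=
        (HasFDerivAt.comp (g := dev (T.glob L) T.χ s)
          (f := fun p : E4 × E4 => ((x0, 0) : E4 × E4) + ρ • p) (y, 0) c1 c2).const_smul ρ⁻¹
      rw [(b2 _ (b4 y hy)).fderiv_eq, c3.fderiv]
      simp
  · split_ifs with h3
    · have c1 : 16 < 16 / T.r := by rw [lt_div_iff₀ hr]; linarith [h.r_lt]
      refine (ex_mid h hL.1 (q := (x, v)) (by change 8 < ‖x‖; linarith) (fun hw => ?_) ?_).2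
      · have := h2 hw
        rw [div_mul_eq_mul_div, div_le_iff₀ hr] at this
        change ‖x‖ < _
        linarith
      · change ‖v‖ ≤ r0 * ‖x‖ at h3
        change ‖v‖ < ‖x‖ / 2
        nlinarith
    · rfl
  · rw [if_pos h3, if_pos h4]
    exact ex_compat (h.glob_ok hL.1) (h.glob_pou hL.1) tF (H L hL s x (gU_gV h s h1) v h3).1
      (H L hL s' _ (gU_gV h s' h2) _ h4).1

end Crest.Agent.N207.Ga

end
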