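import Crest.Agent.N207.Ga.St2
import Crest.Agent.N207.M.Nd1

/-!
# Row 207, GAUGE (helper43): the exterior maximum principle
-/

set_option autoImplicit false

open scoped ContDiff
open Metric Set Filter Topology
open Crest.GeometryTopology.CoordMetric

noncomputable section

namespace Crest.Agent.N207.Ga

open Crest.Agent.N207.M

theorem extmp_up {w : E4 → ℝ} {R m : ℝ} (hR : 0 < R) (hm : 0 ≤ m)
    (hw : ∀ x : E4, R ≤ ‖x‖ → ContDiffAt ℝ 2 w x) (hl : ∀ x : E4, R ≤ ‖x‖ → lap0 w x = 0)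
    (h0 : Tendsto w (cocompact E4) (𝓝 0)) (h1 : ∀ x : E4, ‖x‖ = R → w x ≤ m) {x : E4}
    (hx : R ≤ ‖x‖) : w x ≤ m * R ^ 2 / ‖x‖ ^ 2 := by
  have e : ∀ y : E4, R ≤ ‖y‖ → ‖y‖ ^ (-2 : ℝ) = (‖y‖ ^ 2)⁻¹ := fun y _ => by
    rw [Real.rpow_neg (norm_nonneg _), Real.rpow_two]
  refine le_of_forall_pos_le_add fun ε hε => ?_
  obtain ⟨K, hK, k⟩ := mem_cocompact.1 (h0.eventually (gt_mem_nhds hε))
  obtain ⟨b, hb⟩ := hK.isBounded.subset_closedBall 0
  have ne : ∀ y : E4, R ≤ ‖y‖ → y ≠ 0 := fun y i => norm_pos_iff.1 (hR.trans_le i)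
  have c1 : ∀ y : E4, R ≤ ‖y‖ → ContDiffAt ℝ 2 (fun z : E4 => -(m * R ^ 2) * ‖z‖ ^ (-2 : ℝ)) y :=
    fun y i => contDiffAt_const.mul (contDiffAt_rp _ (ne y i))
  have := mp_ann (w := fun y => w y + -(m * R ^ 2) * ‖y‖ ^ (-2 : ℝ) + -ε) (a := R)
    (b := max (b + 1) ‖x‖) (x := x) hR
    (fun y i => ((hw y i.1).add (c1 y i.1)).add contDiffAt_const) (fun y i _ => ?_)
    (fun y i j => ?_) (fun y i j => ?_) ⟨hx, le_max_right _ _⟩
  · rw [e x hx] at this
    rw [div_eq_mul_inv]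
    linarith
  · rw [lap0_add ((hw y i.le).add (c1 y i.le)) contDiffAt_const, lap0_add (hw y i.le) (c1 y i.le),
      lap0_const, lap0_cmul, lap0_rp _ (ne y i.le), hl y i.le]
    norm_num
  · have := h1 y j
    rw [e y i.1, j, neg_mul, mul_inv_cancel_right₀ (by positivity)]
    linarith
  · have : w y < ε := k fun q => by
      have := mem_closedBall_zero_iff.1 (hb q)
      have := le_max_left (b + 1) ‖x‖
      linarith
    have : 0 ≤ m * R ^ 2 * ‖y‖ ^ (-2 : ℝ) := by positivity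
    linarith

theorem extmp : EXTMP := by
  intro w R m hR hw hl h0 h1 x hx
  have hm : 0 ≤ m := (abs_nonneg _).trans (h1 ((R / ‖x‖) • x) (by
    have : 0 < ‖x‖ := hR.trans_le hx
    rw [norm_smul, Real.norm_of_nonneg (by positivity)]; field_simp))
  have c : ∀ x : E4, R ≤ ‖x‖ → ContDiffAt ℝ 2 w x := fun y i =>
    hw.contDiffAt ((isOpen_lt continuous_const continuous_norm).mem_nhds
      (show R / 2 < ‖y‖ by linarith))
  refine abs_le.2 ⟨?_, extmp_up hR hm c hl h0 (fun y i => (le_abs_self _).trans (h1 y i)) hx⟩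
  have := extmp_up (w := fun y => -1 * w y) hR hm (fun y i => contDiffAt_const.mul (c y i))
    (fun y i => by rw [lap0_cmul, show lap0 w y = 0 from hl y i, mul_zero])
    (by simpa using h0.const_mul (-1)) (fun y i => by have := neg_abs_le (w y); linarith [h1 y i]) hx
  linarith

end Crest.Agent.N207.Ga

end
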