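import Crest.Agent.N207.Ga.Iter

/-!
# Row 207, GAUGE (helper3): assembly
-/

set_option autoImplicit false

open Metric Set Filter Topology
open Crest.Agent.N207.I Crest.Agent.N207.CB Crest.Agent.N207.N

noncomputable section

namespace Crest.Agent.N207.Ga

variable {M : Type*} {T : TD M}

theorem gauge_of {ι : Type} {g : T.V → Fam T} {γ : ℝ} {l : Filter ι} {L : ι → T.V → ℝ}
    {G : ι → Fam T} (hγ : 0 < γ) (h1 : SET T g γ l L G) (hx : X3 T g (γ / 5)) (hl : LIE)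
    (hs : SEC T) (hm : EXTMP) (hL : LIM T) : GAUGE T g γ l L G := by
  obtain ⟨hlg, K, r0, C1, T1, hK, hr0, hC1, h1⟩ := h1
  obtain ⟨C, T2, hC, hx⟩ := hx
  obtain ⟨C3, hC3, hL⟩ := hL
  have hA := cA_ge hK
  have h0 := c0_pos hK
  have t0 : Tendsto (fun T0 : ℝ => C1 * Real.exp (-(4 / 5 * γ * T0))) atTop (𝓝 0) := by
    simpa using (Real.tendsto_exp_neg_atTop_nhds_zero.comp
      (tendsto_id.const_mul_atTop (show 0 < 4 / 5 * γ by positivity))).const_mul C1
  have t1 : ∀ c ε : ℝ, 0 < ε → ∀ᶠ T0 : ℝ in atTop, c * (C1 * Real.exp (-(4 / 5 * γ * T0))) < ε :=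
    fun c ε hε => (t0.const_mul c).eventually (gt_mem_nhds (by simpa using hε))
  obtain ⟨T3, h3⟩ := eventually_atTop.1 ((t1 1 1 one_pos).and
    ((t1 (cA K * (2 * C * c0 K)) (1 / 8) (by norm_num)).and
    ((t1 (cA K * (2 * C * c0 K)) r0 hr0).and
    (t1 (cT K * (1 + 2 * C * c0 K) * C) (1 / 2) (by norm_num)))))
  refine ⟨C3 * (cA K * (2 * C * (c0 K * C1))), max T1 (max T2 T3), by positivity, fun T0 hT => ?_⟩
  obtain ⟨l0, hx⟩ := hx T0 ((le_max_left _ _).trans ((le_max_right _ _).trans hT))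
  obtain ⟨a1, a2, a3, a4⟩ := h3 T0 ((le_max_right _ _).trans ((le_max_right _ _).trans hT))
  filter_upwards [h1 T0 ((le_max_left _ _).trans hT), hlg l0] with i ⟨E, R0, S⟩ hi
  set η := C1 * Real.exp (-(4 / 5 * γ * T0)) with hη
  have hη0 : 0 ≤ η := by positivity
  have s : Sm K r0 (2 * C * (c0 K * η)) := ⟨by positivity, by linarith, by linarith⟩
  obtain ⟨u, u1, u2, u3, u4, u5⟩ :=
    iter S hl hs hm (hx (L i) hi) hη0 (by linarith) hC.le rfl s (by linarith)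
  have hR := S.R2
  obtain ⟨v, v1, v2⟩ := hL (L i) _ (G i) _ (2 * R0) _ u S.ok S.long S.mb S.mG s.s1 (by linarith)
    u1 u2 u3 u4 fun x hx =>
      ⟨(S.flat x (by linarith)).1, (S.flat x (by linarith)).2.1, u5 x hx⟩
  refine ⟨v, ?_, v2⟩
  convert v1 using 1
  rw [hη]; ring

end Crest.Agent.N207.Ga

end
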