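import Crest.Agent.N207.Ga.St2
import Crest.Agent.NLib.Ell.SchAll

/-!
# Row 207, GAUGE (helper43): decay of the jets of a decaying harmonic map
-/

set_option autoImplicit false

open scoped ContDiff
open Metric Set Filter Topology
open Crest.GeometryTopology.CoordMetric

noncomputable section

namespace Crest.Agent.N207.Ga

open Crest.Agent.NLib.Ell
open Crest.Agent.R273.SchB_152 (P2)
open Crest.Agent.R238 (Ell)

theorem hd_iter {F : Type} [NormedAddCommGroup F] [NormedSpace ℝ F] (f : E4 → F) {r : ℝ}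
    (hr : r ≠ 0) (j : ℕ) (x y : E4) :
    iteratedFDeriv ℝ j (fun z => f (x + r • z)) y = r ^ j • iteratedFDeriv ℝ j f (x + r • y) := by
  let g : E4 ≃L[ℝ] E4 := ContinuousLinearEquiv.smulLeft (Units.mk0 r hr)
  have h := g.iteratedFDerivWithin_comp_right (fun z => f (x + z)) uniqueDiffOn_univ
    (mem_univ (g y)) j
  rw [preimage_univ, iteratedFDerivWithin_univ, iteratedFDerivWithin_univ,
    iteratedFDeriv_comp_add_left] at h
  refine h.trans ?_
  ext m
  have e2 : (fun i => (g : E4 →L[ℝ] E4) (m i)) = fun i => r • m i := rfl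
  rw [ContinuousMultilinearMap.compContinuousLinearMap_apply, e2,
    ContinuousMultilinearMap.map_smul_univ]
  simp
  rfl

theorem hd_P2 {u : E4 → ℝ} {x : E4} (hu : ContDiffAt ℝ 2 u x) :
    P2 (fun _ => 1) u x = ∑ a, pderiv a (pderiv a u) x := by
  have hd : DifferentiableAt ℝ (fderiv ℝ u) x :=
    (hu.fderiv_right (m := 1) (by norm_num)).differentiableAt (by norm_num)
  refine Finset.sum_congr rfl fun i _ => ?_
  have h := ((ContinuousLinearMap.apply ℝ ℝ (ei i : E4)).hasFDerivAt.comp x hd.hasFDerivAt).fderiv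
  have e : (fun y => fderiv ℝ u y (EuclideanSpace.single i 1)) =
      (ContinuousLinearMap.apply ℝ ℝ (ei i : E4)) ∘ fderiv ℝ u := rfl
  rw [Finset.sum_eq_single i (fun j _ k => by simp [Matrix.one_apply_ne k.symm]) (by simp)]
  dsimp only
  rw [Matrix.one_apply_eq, one_mul]
  unfold pderiv
  rw [e, h]
  rfl

theorem hd_ell : Ell (n := 4) 1 1 1 := by
  refine ⟨fun i j => by simp [Matrix.one_apply, eq_comm], fun z => ?_⟩
  have : ∑ i, ∑ j, (1 : Matrix (Fin 4) (Fin 4) ℝ) i j * z i * z j = 1 * ∑ i, z i ^ 2 := by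
    simp [Matrix.one_apply, sq]
  exact ⟨this.ge, this.le⟩

theorem hdec : HDEC := by
  intro w R m hR hw hl hm
  obtain ⟨C, hC, H⟩ := schAll 4 2 (1 / 2) 1 1 1 1 (by norm_num) (by norm_num) one_pos le_rfl one_pos
    le_rfl
  have oU : IsOpen {x : E4 | R < ‖x‖} := isOpen_lt continuous_const continuous_norm
  refine ⟨16 ^ 4 * (4 * (C * (2 * |m|))), fun x hx j hj => ?_⟩
  have x0 : 0 < ‖x‖ := by linarith
  set r := ‖x‖ / 4 with er
  have r0 : 0 < r := by positivity
  have nn : ∀ y ∈ closedBall (0 : E4) 1, 3 / 4 * ‖x‖ ≤ ‖x + r • y‖ := fun y k => by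
    have a := norm_sub_le (x + r • y) (r • y)
    have := mem_closedBall_zero_iff.1 k
    rw [add_sub_cancel_right, norm_smul, Real.norm_of_nonneg r0.le] at a
    nlinarith
  have nR : ∀ y ∈ closedBall (0 : E4) 1, R < ‖x + r • y‖ := fun y k => by linarith [nn y k]
  have sm : ∀ n, ContDiffOn ℝ ∞ (fun y => w y n) {x : E4 | R < ‖x‖} := fun n =>
    (EuclideanSpace.proj (𝕜 := ℝ) n : E4 →L[ℝ] ℝ).contDiff.comp_contDiffOn hw
  have af : ContDiff ℝ ∞ fun y : E4 => x + r • y := contDiff_const.add (contDiff_id.const_smul _)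
  have k : ∀ n, CKA (1 / 2) (ball (0 : E4) (1 / 2)) 4 (C * (0 + 2 * |m| / ‖x‖ ^ 2))
      fun y => w (x + r • y) n := fun n => by
    refine H 0 (fun _ => 1) (fun _ _ => 0) (fun _ => 0) _ (fun _ => 0) 0 _ (fun _ _ => hd_ell)
      (fun i j => (CKA.const _).mono ?_) (fun _ => CKA.zero.mono zero_le_one)
      (CKA.zero.mono zero_le_one) CKA.zero
      (K.exists_cka (oU.preimage af.continuous) ((sm n).comp af.contDiffOn fun _ k => k) nR
        (by norm_num) (by norm_num) 2) (fun y k => ?_) fun y k => ?_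
    · rw [Matrix.one_apply]; split_ifs <;> simp
    · have a := nn y (ball_subset_closedBall k)
      have b := nR y (ball_subset_closedBall k)
      refine (hm _ b n).trans ((div_le_div_of_nonneg_right (le_abs_self m) (by positivity)).trans ?_)
      rw [div_le_div_iff₀ (pow_pos (hR.trans b) 2) (by positivity)]
      have : ‖x‖ ^ 2 ≤ 2 * ‖x + r • y‖ ^ 2 := by nlinarith
      nlinarith [abs_nonneg m]
    · have b := nR y (ball_subset_closedBall k)
      have := K.P2_aff (τ := fun _ => 1) (fun y => w y n) x r y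
      rw [hd_P2 (((sm n).contDiffAt (oU.mem_nhds b)).of_le (WithTop.coe_le_coe.2 le_top)), hl _ b n]
        at this
      simpa using this
  have k' := (CKA.sum_le isOpen_ball fun n => (k n).clm1 isOpen_ball
    (ContinuousLinearMap.toSpanSingleton ℝ (ei n : E4)) (by simp [ei])).congr isOpen_ball
    (g := fun y => w (x + r • y)) fun y _ => by
      ext i; simp [ei, Finset.sum_apply, Pi.single_apply]
  have b := ((k'.of_le hj).ho_iter isOpen_ball).bdd 0 (mem_ball_self (by norm_num))
  rw [hd_iter w r0.ne', smul_zero, add_zero, norm_smul, Real.norm_of_nonneg (by positivity)] at b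
  have e : ‖x‖ ^ j = 4 ^ j * r ^ j := by rw [← mul_pow, er]; congr 1; ring
  have p : (16 : ℝ) ^ j ≤ 16 ^ 4 := pow_le_pow_right₀ (by norm_num) hj
  have e2 : (16 : ℝ) ^ j = 4 ^ j * 4 ^ j := by rw [← mul_pow]; norm_num
  rw [e, mul_assoc]
  refine (mul_le_mul_of_nonneg_left b (by positivity)).trans ?_
  simp only [Fintype.card_fin, Nat.cast_ofNat, zero_add]
  rw [← mul_assoc, ← e2, mul_div_assoc (16 ^ 4 : ℝ)]
  refine mul_le_mul p (le_of_eq (by ring)) (by positivity) (by positivity)

end Crest.Agent.N207.Ga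

end
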