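import Crest.Agent.N207.Ga.Defs
import Crest.Agent.N207.A.Co2

/-!
# Row 207, GAUGE (helper3): first order Taylor calculus in `C^{2,1/2}(B1)`; the displacement
-/

set_option autoImplicit false

open scoped ContDiff
open Metric Set Filter Topology
open Crest.GeometryTopology.CoordMetric
open Crest.Agent.NLib.Ell Crest.Agent.N207.CB Crest.Agent.N207.K

noncomputable section

namespace Crest.Agent.N207.Ga

/-- `C^{2,1/2}` bound on the unit ball -/
abbrev CK (C : ℝ) (f : E4 → ℝ) : Prop := CKA (1 / 2) B1 2 C f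

theorem ob : IsOpen B1 := isOpen_ball

theorem zB : (0 : E4) ∈ B1 := mem_ball_self one_pos

theorem b12 : B1 ⊆ B2 := ball_subset_ball (by norm_num)

theorem CK.mul {C C' : ℝ} {f g : E4 → ℝ} (hf : CK C f) (hg : CK C' g) :
    CK (8 * (C * C')) fun y => f y * g y := (CKA.mul ob hf hg).mono (le_of_eq (by norm_num))

theorem CK.sum4 {C : ℝ} {f : Fin 4 → E4 → ℝ} (h : ∀ i, CK C (f i)) :
    CK (4 * C) fun y => ∑ i, f i y := (CKA.sum_le ob h).mono (by simp)

/-- `a1`, `a2` are the values at two points of size `δ` and distance `d`, `a0` the value at `0`,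
`a'` the linearisation applied to the difference -/
structure J (δ d C : ℝ) (a0 a1 a2 a' : E4 → ℝ) : Prop where
  h0 : CK C a0
  h1 : CK (C * δ) fun y => a1 y - a0 y
  h2 : CK (C * δ) fun y => a2 y - a0 y
  h3 : CK (C * d) a'
  h4 : CK (C * δ * d) fun y => a1 y - a2 y - a' y

variable {δ d C C' : ℝ} {a0 a1 a2 a' b0 b1 b2 b' : E4 → ℝ}

theorem J.mono (h : J δ d C a0 a1 a2 a') (hδ : 0 ≤ δ) (hd : 0 ≤ d) (hC : C ≤ C') :
    J δ d C' a0 a1 a2 a' :=
  ⟨h.h0.mono hC, h.h1.mono (by gcongr), h.h2.mono (by gcongr), h.h3.mono (by gcongr),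
    h.h4.mono (by gcongr)⟩

theorem J.const (h : CK C a0) (hδ : 0 ≤ δ) (hd : 0 ≤ d) : J δ d C a0 a0 a0 fun _ => 0 := by
  have hC : 0 ≤ C := h.nonneg zB
  have h0 : ∀ c, 0 ≤ c → CK c fun _ => (0 : ℝ) := fun c hc => CKA.zero.mono hc
  exact ⟨h, by simpa using h0 _ (by positivity), by simpa using h0 _ (by positivity),
    h0 _ (by positivity), by simpa using h0 _ (by positivity)⟩

theorem J.add (h : J δ d C a0 a1 a2 a') (h' : J δ d C' b0 b1 b2 b') :
    J δ d (C + C') (fun y => a0 y + b0 y) (fun y => a1 y + b1 y) (fun y => a2 y + b2 y)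
      fun y => a' y + b' y :=
  ⟨h.h0.add ob h'.h0,
    ((h.h1.add ob h'.h1).congr ob fun _ _ => by ring).mono (le_of_eq (by ring)),
    ((h.h2.add ob h'.h2).congr ob fun _ _ => by ring).mono (le_of_eq (by ring)),
    (h.h3.add ob h'.h3).mono (le_of_eq (by ring)),
    ((h.h4.add ob h'.h4).congr ob fun _ _ => by ring).mono (le_of_eq (by ring))⟩

theorem J.sub (h : J δ d C a0 a1 a2 a') (h' : J δ d C' b0 b1 b2 b') :
    J δ d (C + C') (fun y => a0 y - b0 y) (fun y => a1 y - b1 y) (fun y => a2 y - b2 y)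
      fun y => a' y - b' y :=
  ⟨h.h0.sub ob h'.h0,
    ((h.h1.sub ob h'.h1).congr ob fun _ _ => by ring).mono (le_of_eq (by ring)),
    ((h.h2.sub ob h'.h2).congr ob fun _ _ => by ring).mono (le_of_eq (by ring)),
    (h.h3.sub ob h'.h3).mono (le_of_eq (by ring)),
    ((h.h4.sub ob h'.h4).congr ob fun _ _ => by ring).mono (le_of_eq (by ring))⟩

theorem J.sum4 {a0 a1 a2 a' : Fin 4 → E4 → ℝ} (h : ∀ i, J δ d C (a0 i) (a1 i) (a2 i) (a' i)) :
    J δ d (4 * C) (fun y => ∑ i, a0 i y) (fun y => ∑ i, a1 i y) (fun y => ∑ i, a2 i y)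
      fun y => ∑ i, a' i y :=
  ⟨CK.sum4 fun i => (h i).h0,
    ((CK.sum4 fun i => (h i).h1).congr ob fun _ _ => by
      rw [Finset.sum_sub_distrib]).mono (le_of_eq (by ring)),
    ((CK.sum4 fun i => (h i).h2).congr ob fun _ _ => by
      rw [Finset.sum_sub_distrib]).mono (le_of_eq (by ring)),
    (CK.sum4 fun i => (h i).h3).mono (le_of_eq (by ring)),
    ((CK.sum4 fun i => (h i).h4).congr ob fun _ _ => by
      rw [Finset.sum_sub_distrib, Finset.sum_sub_distrib]).mono (le_of_eq (by ring))⟩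

theorem J.bd1 (h : J δ d C a0 a1 a2 a') (hδ1 : δ ≤ 1) : CK (2 * C) a1 :=
  ((h.h0.add ob h.h1).congr ob fun _ _ => by ring).mono (by nlinarith [h.h0.nonneg zB])

theorem J.bd2 (h : J δ d C a0 a1 a2 a') (hδ1 : δ ≤ 1) : CK (2 * C) a2 :=
  ((h.h0.add ob h.h2).congr ob fun _ _ => by ring).mono (by nlinarith [h.h0.nonneg zB])

theorem J.mul (h : J δ d C a0 a1 a2 a') (h' : J δ d C' b0 b1 b2 b') (hδ : 0 ≤ δ) (hδ1 : δ ≤ 1)
    (hd : 0 ≤ d) :
    J δ d (48 * (C * C')) (fun y => a0 y * b0 y) (fun y => a1 y * b1 y) (fun y => a2 y * b2 y)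
      fun y => a' y * b0 y + a0 y * b' y := by
  have hC : 0 ≤ C * C' := mul_nonneg (h.h0.nonneg zB) (h'.h0.nonneg zB)
  have e1 : 0 ≤ C * C' * δ := by positivity
  have e2 : 0 ≤ C * C' * d := by positivity
  refine ⟨(CK.mul h.h0 h'.h0).mono (by linarith),
    (((CK.mul h.h1 (h'.bd1 hδ1)).add ob (CK.mul h.h0 h'.h1)).congr ob fun _ _ => by ring).mono
      (by nlinarith),
    (((CK.mul h.h2 (h'.bd2 hδ1)).add ob (CK.mul h.h0 h'.h2)).congr ob fun _ _ => by ring).mono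
      (by nlinarith),
    ((CK.mul h.h3 h'.h0).add ob (CK.mul h.h0 h'.h3)).mono (by nlinarith), ?_⟩
  exact (((((CK.mul h.h4 (h'.bd1 hδ1)).add ob (CK.mul h.h3 h'.h1)).add ob
    (CK.mul (h.bd2 hδ1) h'.h4)).add ob (CK.mul h.h2 h'.h3)).congr ob fun _ _ => by ring).mono
    (le_of_eq (by ring))

theorem cka_id (k : ℕ) : CKA (1 / 2) B1 k 2 fun y : E4 => y := by
  have h0 : R273.SchA_152.HO (1 / 2) (2 * 1) B1 fun y : E4 => y :=
    ho_of_lip (by norm_num) (by norm_num) (fun x hx => (mem_ball_zero_iff.1 hx).le)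
      fun x _ y _ => by simp
  rw [mul_one] at h0
  cases k with
  | zero => exact h0
  | succ k =>
    refine ⟨h0, differentiableOn_id, fun i => ?_⟩
    refine ((CKA.const (ei i : E4)).congr ob fun x _ => by simp).mono (by simp)

theorem cka_proj {k : ℕ} {f : E4 → E4} (h : CKA (1 / 2) B1 k C f) (m : Fin 4) :
    CKA (1 / 2) B1 k C fun y => f y m :=
  h.clm1 ob (EuclideanSpace.proj m : E4 →L[ℝ] ℝ)
    (ContinuousLinearMap.opNorm_le_bound _ zero_le_one fun v => by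
      simpa using PiLp.norm_apply_le v m)

theorem cka_vec {k : ℕ} {f : E4 → E4} (h : ∀ m, CKA (1 / 2) B1 k C fun y => f y m) :
    CKA (1 / 2) B1 k (4 * C) f := by
  have h1 : ∀ m, CKA (1 / 2) B1 k C fun y => f y m • (ei m : E4) := fun m =>
    (h m).clm1 ob ((ContinuousLinearMap.id ℝ ℝ).smulRight (ei m : E4))
      (ContinuousLinearMap.opNorm_le_bound _ zero_le_one fun v => by simp [norm_smul])
  refine ((CKA.sum_le ob h1).congr ob fun y _ => ?_).mono (by simp)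
  ext i
  simp [Pi.single_apply]

/-- the displacements `z1`, `z2` and the linear part `h` of their difference -/
structure Dp (A κ δ d : ℝ) (z1 z2 h : E4 → E4) : Prop where
  c1 : CKA (1 / 2) B1 4 (A * δ) z1
  c2 : CKA (1 / 2) B1 4 (A * δ) z2
  ch : CKA (1 / 2) B1 4 (A * d) h
  cr : CKA (1 / 2) B1 4 (A * κ * δ * d) fun y => z1 y - z2 y - h y
  d1 : ∀ p q m, CK (A * κ * δ) (pderiv p (pderiv q fun y => z1 y m))
  d2 : ∀ p q m, CK (A * κ * δ) (pderiv p (pderiv q fun y => z2 y m))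
  dh : ∀ p q m, CK (A * κ * d) (pderiv p (pderiv q fun y => h y m))

variable {A κ K : ℝ} {z1 z2 h : E4 → E4}

theorem pd_sub3 {f g u : E4 → ℝ} {k : ℕ} {c1 c2 c3 : ℝ} (hf : CKA (1 / 2) B1 (k + 1) c1 f)
    (hg : CKA (1 / 2) B1 (k + 1) c2 g) (hu : CKA (1 / 2) B1 (k + 1) c3 u) (i : Fin 4) {y : E4}
    (hy : y ∈ B1) : pderiv i (fun y => f y - g y - u y) y = pderiv i f y - pderiv i g y - pderiv i u y := by
  rw [pd_sub i ((hf.diffAt ob hy).fun_sub (hg.diffAt ob hy)) (hu.diffAt ob hy),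
    pd_sub i (hf.diffAt ob hy) (hg.diffAt ob hy)]

/-- first derivatives -/
theorem Dp.jP (D : Dp A κ δ d z1 z2 h) (hA : 1 ≤ A) (hκ : κ ≤ 2) (hδ : 0 ≤ δ) (hd : 0 ≤ d)
    (m q : Fin 4) :
    J δ d (2 * A) (fun _ => (1 : Matrix (Fin 4) (Fin 4) ℝ) m q)
      (fun y => (1 : Matrix (Fin 4) (Fin 4) ℝ) m q + pderiv q (fun y => z1 y m) y)
      (fun y => (1 : Matrix (Fin 4) (Fin 4) ℝ) m q + pderiv q (fun y => z2 y m) y)
      (pderiv q fun y => h y m) := by
  have e1 : 0 ≤ A * δ := by positivity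
  have e2 : 0 ≤ A * d := by positivity
  have e3 : 0 ≤ A * δ * d := by positivity
  refine ⟨(CKA.const _).mono ?_, ?_, ?_, (((cka_proj D.ch m).pd q).pred).mono (by linarith), ?_⟩
  · by_cases hm : m = q <;> simp [Matrix.one_apply, hm] <;> linarith
  · exact ((((cka_proj D.c1 m).pd q).pred).congr ob fun _ _ => by simp [pderiv]).mono (by linarith)
  · exact ((((cka_proj D.c2 m).pd q).pred).congr ob fun _ _ => by simp [pderiv]).mono (by linarith)
  · refine ((((cka_proj D.cr m).pd q).pred).congr ob fun y hy => ?_).mono (by nlinarith)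
    have := pd_sub3 (cka_proj D.c1 m) (cka_proj D.c2 m) (cka_proj D.ch m) q hy
    simp only [PiLp.sub_apply]
    exact Eq.trans (by ring) this.symm

/-- second derivatives -/
theorem Dp.jD (D : Dp A κ δ d z1 z2 h) (hA : 1 ≤ A) (hκ : 0 ≤ κ) (p q m : Fin 4) :
    J δ d (A * κ) (fun _ => 0) (pderiv p (pderiv q fun y => z1 y m))
      (pderiv p (pderiv q fun y => z2 y m)) (pderiv p (pderiv q fun y => h y m)) := by
  refine ⟨CKA.zero.mono (by positivity), (D.d1 p q m).congr ob fun _ _ => by simp,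
    (D.d2 p q m).congr ob fun _ _ => by simp, D.dh p q m, ?_⟩
  refine ((((cka_proj D.cr m).pd q).pd p).congr ob fun y hy => ?_)
  have h1 := pd_sub3 ((cka_proj D.c1 m).pd q) ((cka_proj D.c2 m).pd q) ((cka_proj D.ch m).pd q) p hy
  refine Eq.trans h1.symm (pd_congr_on p ob hy fun x hx => ?_)
  simp only [PiLp.sub_apply]
  exact (pd_sub3 (cka_proj D.c1 m) (cka_proj D.c2 m) (cka_proj D.ch m) q hx).symm

theorem Dp.mem (D : Dp A κ δ d z1 z2 h) (hs : A * δ ≤ 1 / 8) {y : E4} (hy : y ∈ B1) :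
    y + z1 y ∈ B2 ∧ y + z2 y ∈ B2 := by
  have h1 := D.c1.bdd hy
  have h2 := D.c2.bdd hy
  rw [mem_ball_zero_iff] at hy
  constructor <;> rw [mem_ball_zero_iff]
  · linarith [norm_add_le y (z1 y)]
  · linarith [norm_add_le y (z2 y)]

/-- the constant of `Dp.jN` -/
def cN (A : ℝ) : ℝ := 16 * cL 3 2 * A * A + 16 * cC 3 2 * A + cL 3 2 * A + cC 3 2

theorem cN_pos (hA : 1 ≤ A) : 0 < cN A := by
  have := cL_pos (M := 3) (by norm_num) 2
  have := cC_pos (M := 3) (by norm_num) 2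
  unfold cN; positivity

/-- composition with a fixed function -/
theorem Dp.jN (D : Dp A κ δ d z1 z2 h) (hA : 1 ≤ A) (hκ : κ ≤ 2) (hδ : 0 ≤ δ) (hd : 0 ≤ d)
    (hs : A * δ ≤ 1 / 8) {Φ : E4 → ℝ} (hΦ : DB B2 5 K Φ) :
    J δ d (cN A * K) Φ (fun y => Φ (y + z1 y)) (fun y => Φ (y + z2 y))
      fun y => fderiv ℝ Φ y (h y) := by
  have hK : 0 ≤ K := (norm_nonneg _).trans (hΦ.zero (b12 zB))
  have hL := cL_pos (M := 3) (by norm_num) 2
  have hC := cC_pos (M := 3) (by norm_num) 2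
  have hb : IsOpen B2 := isOpen_ball
  have hc : Convex ℝ B2 := convex_ball _ _
  have i3 : CKA (1 / 2) B1 2 3 fun y : E4 => y := (cka_id 2).mono (by norm_num)
  have f1 : CKA (1 / 2) B1 2 3 fun y => y + z1 y :=
    ((cka_id 2).add ob (D.c1.of_le (by norm_num))).mono (by linarith)
  have f2 : CKA (1 / 2) B1 2 3 fun y => y + z2 y :=
    ((cka_id 2).add ob (D.c2.of_le (by norm_num))).mono (by linarith)
  have g1 : CKA (1 / 2) B1 2 (A * δ) fun y => y + z1 y - y :=
    (D.c1.of_le (by norm_num)).congr ob fun _ _ => by abel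
  have g2 : CKA (1 / 2) B1 2 (A * δ) fun y => y + z2 y - y :=
    (D.c2.of_le (by norm_num)).congr ob fun _ _ => by abel
  have hD := (hΦ.of_le (m' := 4) (by norm_num)).fderiv hb |>.comp ob hb hc (fun _ hy => b12 hy) i3
  have hκδ : A * κ * δ * d ≤ A * d := by
    have e1 : A * δ * d * κ ≤ A * δ * d * 2 := mul_le_mul_of_nonneg_left hκ (by positivity)
    have e2 : A * δ * d ≤ 1 / 8 * d := mul_le_mul_of_nonneg_right hs hd
    have e3 : 1 * d ≤ A * d := mul_le_mul_of_nonneg_right hA hd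
    linarith
  have g3 : CKA (1 / 2) B1 2 (2 * A * d) fun y => y + z1 y - (y + z2 y) :=
    (((D.cr.of_le (by norm_num)).add ob (D.ch.of_le (by norm_num))).congr ob fun _ _ => by
      abel).mono (by linarith)
  have p1 : 0 ≤ cL 3 2 * A * A * K := by positivity
  have p2 : 0 ≤ cC 3 2 * A * K := by positivity
  have p3 : 0 ≤ cL 3 2 * A * K := by positivity
  have p4 : 0 ≤ cC 3 2 * K := by positivity
  have q0 : cN A * K = 16 * (cL 3 2 * A * A * K) + 16 * (cC 3 2 * A * K) + cL 3 2 * A * K +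
    cC 3 2 * K := by unfold cN; ring
  refine ⟨((hΦ.of_le (by norm_num)).comp ob hb hc (fun _ hy => b12 hy) i3).mono (by linarith),
    ((hΦ.of_le (by norm_num)).lip ob (by norm_num) hb hc (fun _ hy => (D.mem hs hy).1)
      (fun _ hy => b12 hy) f1 i3 g1).mono ?_,
    ((hΦ.of_le (by norm_num)).lip ob (by norm_num) hb hc (fun _ hy => (D.mem hs hy).2)
      (fun _ hy => b12 hy) f2 i3 g2).mono ?_,
    (hD.app ob (D.ch.of_le (by norm_num))).mono ?_, ?_⟩
  · rw [q0]; nlinarith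
  · rw [q0]; nlinarith
  · rw [q0]; norm_num; nlinarith
  · have s1 := hΦ.sec ob (by norm_num) hb hc (fun _ hy => (D.mem hs hy).1)
      (fun _ hy => (D.mem hs hy).2) (fun _ hy => b12 hy) f1 f2 i3 g1 g2 g3
    refine ((s1.add ob (hD.app ob (D.cr.of_le (by norm_num)))).congr ob fun y _ => ?_).mono ?_
    · have : y + z1 y - (y + z2 y) = (z1 y - z2 y - h y) + h y := by abel
      rw [this, map_add]; ring
    · rw [q0]
      have r1 : 0 ≤ δ * d := mul_nonneg hδ hd
      have r2 : cC 3 2 * A * K * (δ * d) * κ ≤ cC 3 2 * A * K * (δ * d) * 2 :=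
        mul_le_mul_of_nonneg_left hκ (by positivity)
      norm_num
      nlinarith [mul_nonneg p1 r1, mul_nonneg p2 r1, mul_nonneg p3 r1, mul_nonneg p4 r1]

end Crest.Agent.N207.Ga

end
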