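import Crest.Agent.N207.A.Tg3
import Crest.Agent.N207.Ga.Defs

/-!
# Row 207, GAUGE (helper33): the trace of the Lie derivative of the connection
-/

set_option autoImplicit false

open scoped ContDiff
open Finset Crest.GeometryTopology.CoordMetric

noncomputable section

namespace Crest.Agent.N207.A

variable {n : ℕ} {S : Type*} [CommRing S] [Algebra ℝ S]

/-- the vector of a 1-form -/
def upv (H : Matrix (Fin n) (Fin n) S) (X : Ten n S 1) (k : Fin n) : S := ∑ j, H k j * X (v1 j)

lemma D_upv {δ : Derivation ℝ S S} {w H : Matrix (Fin n) (Fin n) S} (h : Compat δ w H)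
    (X : Ten n S 1) (k : Fin n) :
    δ (upv H X k) = upv H (cd δ w X) k - ∑ m, w m k * upv H X m := by
  have e1 : ∑ j, (∑ m, w m k * H m j) * X (v1 j) = ∑ m, w m k * ∑ j, H m j * X (v1 j) := by
    simp only [sum_mul, mul_sum, mul_assoc]; exact sum_comm
  have e2 : ∑ j, (∑ m, H k m * w m j) * X (v1 j) = ∑ j, H k j * ∑ m, w j m * X (v1 m) := by
    simp only [sum_mul, mul_sum, mul_assoc]; exact sum_comm
  simp only [upv, map_sum, D_mul, h k, cd_v1, sub_mul, neg_mul, mul_sub, sum_add_distrib,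
    sum_sub_distrib, sum_neg_distrib, e1, e2]
  ring

lemma Co.lie0 (C : Co n S) (o : Ten n S 1) (k a b : Fin n) :
    C.d a (C.d b (upv C.gi o k)) + ∑ l, (C.d l (C.Gam k a b) * upv C.gi o l
      + C.Gam k l b * C.d a (upv C.gi o l) + C.Gam k a l * C.d b (upv C.gi o l)
      - C.Gam l a b * C.d l (upv C.gi o k))
    = upv C.gi (sl (sl (C.cov (C.cov o)) a) b) k + ∑ l, C.riem k b l a * upv C.gi o l := by
  have h1 : ∀ X a k, C.d a (upv C.gi X k) = upv C.gi (cd (C.d a) (C.Gm a) X) k
      - ∑ m, C.Gam k a m * upv C.gi X m := fun X a k => D_upv (C.compat a) X k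
  have h2 : ∀ b k, upv C.gi (sl (C.cov o) b) k
      = C.d b (upv C.gi o k) + ∑ m, C.Gam k b m * upv C.gi o m := fun b k => by
    rw [h1, sub_add_cancel]; rfl
  have h3 : upv C.gi (sl (sl (C.cov (C.cov o)) a) b) k = upv C.gi (cd (C.d a) (C.Gm a)
      (sl (C.cov o) b)) k - ∑ m, C.Gam m a b * upv C.gi (sl (C.cov o) m) k := by
    rw [C.sl_cov (C.cov o), sl_cd]
    simp only [upv, Pi.sub_apply, Finset.sum_apply, Pi.smul_apply, smul_eq_mul, mul_sub,
      sum_sub_distrib, mul_sum]
    rw [sum_comm (f := fun j m => C.gi k j * (C.Gm a b m * sl (C.cov o) m (v1 j)))]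
    exact congrArg _ (sum_congr rfl fun _ _ => sum_congr rfl fun _ _ => mul_left_comm ..)
  have h4 := h1 (sl (C.cov o) b) a k
  have e1 : ∑ m, C.Gam k a m * ∑ l, C.Gam m b l * upv C.gi o l
      = ∑ l, (∑ m, C.Gam k a m * C.Gam m l b) * upv C.gi o l := by
    simp only [sum_mul, mul_sum, mul_assoc, C.Gam_symm _ b]; exact sum_comm
  have e2 : ∑ m, C.Gam m a b * ∑ l, C.Gam k m l * upv C.gi o l
      = ∑ l, (∑ m, C.Gam k l m * C.Gam m a b) * upv C.gi o l := by
    simp only [sum_mul, mul_sum]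
    rw [sum_comm]
    exact sum_congr rfl fun l _ => sum_congr rfl fun m _ => by rw [C.Gam_symm k m l]; ring
  simp only [h2, map_add, map_sum, D_mul, mul_add, sum_add_distrib, e1, C.Gam_symm k b] at h4
  simp only [h3, h2, Co.riem, mul_add, add_mul, sub_mul, sum_add_distrib, sum_sub_distrib, e2]
  linear_combination h4

lemma Co.lie (C : Co n S) (o : Ten n S 1) (j : Fin n) :
    ∑ k, C.g j k * ∑ a, ∑ b, C.gi a b * (C.d a (C.d b (upv C.gi o k))
      + ∑ l, (C.d l (C.Gam k a b) * upv C.gi o l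
      + C.Gam k l b * C.d a (upv C.gi o l) + C.Gam k a l * C.d b (upv C.gi o l)
      - C.Gam l a b * C.d l (upv C.gi o k)))
    = C.lapT o (v1 j) + ∑ l, C.ricc j l * upv C.gi o l := by
  have e0 : ∀ X : Fin n → Fin n → Fin n → S, ∑ k, C.g j k * ∑ a, ∑ b, C.gi a b * X k a b
      = ∑ a, ∑ b, C.gi a b * ∑ k, C.g j k * X k a b := fun X => by
    simp only [mul_sum]
    rw [sum_comm]
    refine sum_congr rfl fun a _ => ?_
    rw [sum_comm]
    exact sum_congr rfl fun _ _ => sum_congr rfl fun _ _ => mul_left_comm ..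
  have e1 : ∀ X : Ten n S 1, ∑ k, C.g j k * upv C.gi X k = X (v1 j) := fun X => by
    simp only [upv, mul_sum, ← mul_assoc]
    rw [sum_comm]
    simp only [← sum_mul, C.sum_g_gi, ite_mul, one_mul, zero_mul, sum_ite_eq, mem_univ, if_true]
  have e2 : ∀ a b, ∑ k, C.g j k * ∑ l, C.riem k b l a * upv C.gi o l
      = ∑ l, C.rl b j a l * upv C.gi o l := fun a b => by
    simp only [mul_sum, ← mul_assoc]
    rw [sum_comm]
    refine sum_congr rfl fun l _ => ?_
    rw [← sum_mul, C.rl_anti12, C.rl_anti34, neg_neg]; rfl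
  simp only [C.lie0, e0, mul_add, sum_add_distrib, e1, e2]
  congr 1
  simp only [C.ricc_eq, mul_sum, sum_mul, mul_assoc]
  rw [sum_comm, sum_congr rfl fun a _ => sum_comm, sum_comm]
  exact sum_congr rfl fun _ _ => sum_congr rfl fun _ _ => sum_congr rfl fun _ _ => by
    rw [C.gi_symm]

end Crest.Agent.N207.A

namespace Crest.Agent.N207.Ga

open Crest.Agent.N207.A

theorem lie : LIE := by
  intro g U o hg ho y hy j
  have c := cfam_const hg Set.univ
  have k := okU hg
  have hv : ∀ a, Rep (upv (co c k).gi (sT ho) a) fun _ z => shp g o z a := fun a =>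
    Rep.sum _ fun b => (rep_gi c k a b).mul (rep_sT ho (v1 b))
  have h1 := Rep.sum univ fun a => (rep_g c k j a).mul <| Rep.sum univ fun p => Rep.sum univ fun q =>
    (rep_gi c k p q).mul <| (rep_d c k (rep_d c k (hv a) q) p).add <| Rep.sum univ fun l =>
      ((((rep_d c k (rep_Gam c k a p q) l).mul (hv l)).add
        ((rep_Gam c k a l q).mul (rep_d c k (hv l) p))).add
        ((rep_Gam c k a p l).mul (rep_d c k (hv l) q))).sub
        ((rep_Gam c k l p q).mul (rep_d c k (hv a) l))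
  have h2 := ((rep_sT ho).lapT c k (v1 j)).add
    (Rep.sum univ fun l => (rep_ricc c k j l).mul (hv l))
  rw [(co c k).lie] at h1
  exact h1.unique h2 (Set.mem_univ 0) hy

end Crest.Agent.N207.Ga

end
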