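import Crest.Agent.N207.Ga.Sec
import Crest.Agent.N207.Ga.Hdec

/-!
# Row 207, GAUGE (helper29): the leaf `LIM`
-/

set_option autoImplicit false

open scoped ContDiff Matrix
open Metric Set Filter Topology
open Crest.GeometryTopology.CoordMetric Crest.Agent.R202.Tens
open Crest.Agent.NLib.Ell Crest.Agent.N207.I Crest.Agent.N207.CB Crest.Agent.N207.N
  Crest.Agent.N207.Lg

noncomputable section

namespace Crest.Agent.N207.Ga

namespace Lm

variable {V W : Set E4} {C : ℝ} {k : ℕ} {G g : MetricField 4} {x : E4}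

theorem pd_lim (hV : IsOpen V) {f : ℕ → E4 → ℝ} {f0 : E4 → ℝ}
    (h : ∀ n, CKA (1 / 2) V (k + 1) C (f n))
    (t : ∀ x ∈ V, Tendsto (fun n => f n x) atTop (𝓝 (f0 x))) (i : Fin 4) :
    ∀ x ∈ V, Tendsto (fun n => pderiv i (f n) x) atTop (𝓝 (pderiv i f0 x)) := fun _ hx =>
  (CKA.limit_one hV (by norm_num) (Eventually.of_forall fun n => (h n).of_le (by omega)) t hx).2 _

theorem proj (hV : IsOpen V) {f : E4 → E4} (h : CKA (1 / 2) V k C f) (m : Fin 4) :
    CKA (1 / 2) V k C fun y => f y m :=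
  h.clm1 hV (EuclideanSpace.proj m : E4 →L[ℝ] ℝ)
    (ContinuousLinearMap.opNorm_le_bound _ zero_le_one fun v => by
      simpa using PiLp.norm_apply_le v m)

/-- the equation passes to the limit -/
theorem eq_lim (hV : IsOpen V) (hg : IsRiemannianOn g W) {u : ℕ → E4 → E4} {v : E4 → E4}
    (h : ∀ n, CKA (1 / 2) V 4 C (u n))
    (t : ∀ x ∈ V, Tendsto (fun n => u n x) atTop (𝓝 (v x))) (hx : x ∈ V) (hv : v x ∈ W)
    (j : Fin 4) : Tendsto (fun n => ∑ l, (∑ m, g (u n x) m l * pderiv j (fun z => u n z m) x) *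
      tau G g (u n) x l) atTop
      (𝓝 (∑ l, (∑ m, g (v x) m l * pderiv j (fun z => v z m) x) * tau G g v x l)) := by
  have t0 : ∀ m, ∀ x ∈ V, Tendsto (fun n => u n x m) atTop (𝓝 (v x m)) := fun m x hx =>
    ((EuclideanSpace.proj m : E4 →L[ℝ] ℝ).continuous.tendsto _).comp (t x hx)
  have t1 := fun m i => pd_lim hV (fun n => proj hV (h n) m) (t0 m) i
  have t2 := fun m i a => pd_lim hV (fun n => cpd (proj hV (h n) m) i) (t1 m i) a x hx
  have c : ∀ {f : E4 → ℝ}, ContDiffOn ℝ ∞ f W → Tendsto (fun n => f (u n x)) atTop (𝓝 (f (v x))) :=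
    fun hf => (hf.continuousOn.continuousAt (hg.isOpen.mem_nhds hv)).tendsto.comp (t x hx)
  refine tendsto_finsetSum _ fun l _ => (tendsto_finsetSum _ fun m _ =>
    (c (hg.contDiffOn m l)).mul (t1 m j x hx)).mul ?_
  exact tendsto_finsetSum _ fun a _ => tendsto_finsetSum _ fun d _ => tendsto_const_nhds.mul
    (((t2 l d a).add (tendsto_finsetSum _ fun p _ => tendsto_finsetSum _ fun q _ =>
      (c (sm_chr hg l p q)).mul ((t1 p a x hx).mul (t1 q d x hx)))).sub
      (tendsto_finsetSum _ fun e _ => (t1 l e x hx).mul tendsto_const_nhds))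

theorem zero_of {A : E4 →L[ℝ] E4} (hA : Function.Injective A) {H : Matrix (Fin 4) (Fin 4) ℝ}
    (hH : H.PosDef) {τ : Fin 4 → ℝ}
    (h : ∀ j, ∑ l, (∑ m, H m l * A (EuclideanSpace.single j 1) m) * τ l = 0) (n : Fin 4) :
    τ n = 0 := by
  obtain ⟨X, hX⟩ := (LinearMap.injective_iff_surjective (f := A.toLinearMap)).1 hA
    (WithLp.toLp 2 τ)
  have e : ∀ m, τ m = ∑ j, A (EuclideanSpace.single j 1) m * X j := fun m =>
    (congrArg (fun Y : E4 => Y m) hX).symm.trans (vec_sum X A m)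
  by_contra hn
  refine (hH.dotProduct_mulVec_pos (x := τ) fun e0 => hn (congrFun e0 n)).ne' ?_
  have e2 : star τ ⬝ᵥ H *ᵥ τ =
      ∑ j, (∑ l, (∑ m, H m l * A (EuclideanSpace.single j 1) m) * τ l) * X j := by
    simp only [star_trivial, dotProduct, Matrix.mulVec, Finset.sum_mul]
    rw [Finset.sum_congr rfl fun m _ => congrArg (· * ∑ l, H m l * τ l) (e m)]
    simp only [Finset.sum_mul]
    rw [Finset.sum_comm]
    refine Finset.sum_congr rfl fun j _ => ?_
    simp only [Finset.mul_sum]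
    rw [Finset.sum_comm]
    exact Finset.sum_congr rfl fun l _ => Finset.sum_congr rfl fun m _ => by ring
  rw [e2]
  simp only [h, zero_mul, Finset.sum_const_zero]

theorem tau_cs {c : ℝ} (hc : c ≠ 0) (G g : MetricField 4) (u : E4 → E4) (y : E4) (n : Fin 4) :
    tau (fun y => c • G y) (fun y => c • g y) u y n = c⁻¹ * tau G g u y n := by
  simp only [tau, chr_csmul hc, minv_smul hc, Matrix.smul_apply, smul_eq_mul, Finset.mul_sum,
    mul_assoc]

theorem chr_one (h : ∀ᶠ y in 𝓝 x, G y = 1) : christoffel G x = 0 := by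
  rw [chr_congr (G' := fun _ => 1) h]
  funext k i j
  simp [christoffel, pd_const]

/-- from the cell to the chart -/
theorem chart {x0 : E4} {r : ℝ} (hr : 0 < r) : ∃ C : ℝ → ℝ, ∀ (ε : ℝ) (u : E4 → E4),
    CKA (1 / 2) B1 4 ε (fun y => r⁻¹ • (u (x0 + r • y) - (x0 + r • y))) →
      CKA (1 / 2) ((fun x => -(r⁻¹ • x0) + r⁻¹ • x) ⁻¹' B1) 4 (C ε) u := by
  refine ⟨_, fun ε u h => (CKA.affine ob (by norm_num) (by norm_num)
    ((CKA.const x0).add ob (((cka_id 4).add ob h).smul ob r)) (-(r⁻¹ • x0)) (le_max_left _ 1)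
    (le_max_right _ _)).congr (ob.preimage (by fun_prop)) fun x _ => ?_⟩
  simp [smul_add, smul_inv_smul₀ hr.ne']

variable {M : Type*} {T : TD M} {L : T.V → ℝ} {s : T.S} {x0 y : E4} {ε : ℝ}
  {v : T.S → E4 → E4}

theorem scl_le (hy : y ∈ B1) (h0 : x0 ∈ T.gK L s) :
    0 ≤ scl T s (x0 + rad T s x0 • y) ∧ scl T s (x0 + rad T s x0 • y) ≤ 9 * rad T s x0 := by
  have hr := Sc.rad_pos h0
  cases s with
  | inl a => simp only [rad, scl, Sum.elim_inl]; norm_num
  | inr w =>
    have h1 := norm_add_le x0 (rad T (Sum.inr w) x0 • y)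
    rw [norm_smul, Real.norm_of_nonneg hr.le] at h1
    have h2 := mul_le_mul_of_nonneg_left (mem_ball_zero_iff.1 hy).le hr.le
    simp only [rad, scl, Sum.elim_inr] at h1 h2 ⊢
    exact ⟨norm_nonneg _, by linarith⟩

theorem dsp_cka (h0 : x0 ∈ T.gK L s) (h : CKA (1 / 2) B1 4 ε (clU T v s x0)) :
    CKA (1 / 2) B1 4 (rad T s x0 * ε) fun y =>
      v s (x0 + rad T s x0 • y) - (x0 + rad T s x0 • y) := by
  have hr := Sc.rad_pos h0
  have := h.smul ob (rad T s x0)
  rw [abs_of_pos hr] at this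
  exact this.congr ob fun y _ => by simp only [clU, pt, smul_inv_smul₀ hr.ne']

section
variable (hL : T.Long L) (hε : ε ≤ 1 / 8)
  (cv : ∀ s, ∀ x0 ∈ T.gK L s, CKA (1 / 2) B1 4 ε (clU T v s x0))
include hL cv

theorem jet (hx : x ∈ gU T L 1 s) {j : ℕ} (hj : j ≤ 4) :
    scl T s x ^ j * ‖iteratedFDeriv ℝ j (fun y => v s y - y) x‖ ≤ 36 ^ 4 * ε * scl T s x := by
  obtain ⟨x0, h0, y, hy, rfl, h2⟩ := Sc.exists_cell hL hx
  have hr := Sc.rad_pos h0
  have e0 := (cv s x0 h0).nonneg zB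
  have h1 := (((dsp_cka h0 (cv s x0 h0)).of_le hj).ho_iter ob).bdd y hy
  rw [hd_iter (fun y => v s y - y) hr.ne', norm_smul, Real.norm_of_nonneg (pow_pos hr j).le] at h1
  obtain ⟨h3, h4⟩ := scl_le hy h0
  calc _ ≤ (9 * rad T s x0) ^ j * _ :=
        mul_le_mul_of_nonneg_right (pow_le_pow_left₀ h3 h4 j) (norm_nonneg _)
    _ = 9 ^ j * (rad T s x0 ^ j * _) := by rw [mul_pow, mul_assoc]
    _ ≤ 9 ^ j * _ := mul_le_mul_of_nonneg_left h1 (by positivity)
    _ = 36 ^ j * ε * rad T s x0 := by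
        rw [show (36 : ℝ) = 9 * 4 by norm_num, mul_pow]; push_cast; ring
    _ ≤ _ := mul_le_mul (mul_le_mul_of_nonneg_right (pow_le_pow_right₀ (by norm_num) hj) e0) h2
        hr.le (by positivity)

include hε

theorem near (hx : x ∈ gU T L 1 s) : ‖v s x - x‖ ≤ scl T s x / 8 := by
  obtain ⟨x0, h0, y, hy, rfl, h2⟩ := Sc.exists_cell hL hx
  have h1 := (dsp_cka h0 (cv s x0 h0)).bdd hy
  have := mul_le_mul_of_nonneg_left hε (Sc.rad_pos h0).le
  linarith

theorem maps (h : T.Ok) (hx : x ∈ gU T L 1 s) : v s x ∈ (T.glob L).U s := by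
  obtain ⟨x0, h0, y, hy, rfl, -⟩ := Sc.exists_cell hL hx
  have h2 := Sc.pt_mem h0 (by norm_num) (by norm_num)
    (mem_ball_zero_iff.1 (mem_of_small (cv s x0 h0) hε hy))
  rw [smul_add, clU, smul_inv_smul₀ (Sc.rad_pos h0).ne', pt, ← add_assoc, add_sub_cancel] at h2
  exact gU_sub' h (by norm_num) s h2

theorem imm (hx : x ∈ gU T L 1 s) : Function.Injective (fderiv ℝ (v s) x) := by
  obtain ⟨x0, h0, y, hy, rfl, -⟩ := Sc.exists_cell hL hx
  have hr := (Sc.rad_pos h0).ne'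
  have h1 := inj_of_small (cv s x0 h0) hε hy
  rwa [show (fun y => y + clU T v s x0 y) =
      fun y => (rad T s x0)⁻¹ • (v s (x0 + rad T s x0 • y) - x0) from funext fun y => by
    simp only [clU, pt, smul_sub, smul_add, inv_smul_smul₀ hr]; abel, fderiv_cell hr] at h1

end

end Lm

open Lm in
/-- **leaf LIM** -/
theorem lim {M : Type*} (T : TD M) (hb : BOOT) (hh : HDEC) : LIM T := by
  refine ⟨36 ^ 4, by norm_num, fun L gb G ε R m u h hL mb mG hε hR mor cu cau eq fl => ?_⟩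
  have hA := h.glob_ok hL
  obtain ⟨v, t⟩ : ∃ v : T.S → E4 → E4, ∀ s, ∀ x ∈ gU T L 1 s,
      Tendsto (fun n => u n s x) atTop (𝓝 (v s x)) :=
    ⟨fun s x => limUnder atTop fun n => u n s x, fun s x hx => (cau s x hx).tendsto_limUnder⟩
  have cell : ∀ s, ∀ x0 ∈ T.gK L s, ∀ y ∈ B1, x0 + rad T s x0 • y ∈ gU T L 1 s :=
    fun s x0 h0 y hy => Sc.pt_mem h0 zero_le_one (by norm_num) (mem_ball_zero_iff.1 hy)
  have cv : ∀ s, ∀ x0 ∈ T.gK L s, CKA (1 / 2) B1 4 ε (clU T v s x0) := fun s x0 h0 =>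
    CKA.limit ob (by norm_num) (Eventually.of_forall fun n => cu n s x0 h0) fun y hy =>
      ((t s _ (cell s x0 h0 y hy)).sub_const _).const_smul _
  have loc : ∀ s, ∀ x ∈ gU T L 1 s, ∃ V C, IsOpen V ∧ x ∈ V ∧ V ⊆ gU T L 1 s ∧
      (∀ n, CKA (1 / 2) V 4 C (u n s)) ∧ CKA (1 / 2) V 4 C (v s) := fun s x hx => by
    obtain ⟨x0, h0, y, hy, rfl, -⟩ := Sc.exists_cell hL hx
    have hr := Sc.rad_pos h0
    obtain ⟨C, hC⟩ := chart (x0 := x0) hr
    refine ⟨_, C ε, ob.preimage (by fun_prop), ?_, fun z hz => ?_, fun n => hC _ _ (cu n s x0 h0),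
      hC _ _ (cv s x0 h0)⟩
    · simpa [smul_add, inv_smul_smul₀ hr.ne'] using hy
    · simpa [smul_add, smul_inv_smul₀ hr.ne'] using cell s x0 h0 _ hz
  have rG : ∀ s, IsRiemannianOn (G s) (gU T L 1 s) := fun s =>
    riemOn_mono (mG.riem s) (gU_open s) (gU_sub h le_rfl s)
  have ta : ∀ s, ∀ x ∈ gU T L 1 s, ∀ n, tau (G s) (rt T L gb s) (v s) x n = 0 := fun s x hx => by
    obtain ⟨V, C, hV, hxV, hs, c1, c2⟩ := loc s x hx
    have hv := maps hL hε cv h hx
    refine zero_of (imm hL hε cv hx) ((mb.riem s).posDef _ hv) fun j => ?_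
    have e1 := eq_lim (G := G s) hV (mb.riem s) c1 (fun z hz => t s z (hs hz)) hxV hv j
    have e2 := (eq s x hx j).congr fun n => ten_tau (rG s) (pull_pbG (gU_open s) (mb.riem s)
      ((mor n).maps s) ((mor n).sm s) ((mor n).imm s)) hx j
    simpa only [pd_cmp (c2.diffAt hV hxV)] using tendsto_nhds_unique e1 e2
  have sm : ∀ s, ContDiffOn ℝ ∞ (v s) (gU T L 1 s) := fun s =>
    hb _ _ _ _ _ (rG s) (mb.riem s) (fun x hx => by
      obtain ⟨V, C, hV, hxV, -, -, c2⟩ := loc s x hx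
      exact (((c2.of_le (j := 3) (by norm_num)).contDiffOn hV (by norm_num)).contDiffAt
        (hV.mem_nhds hxV)).contDiffWithinAt) (fun x hx => maps hL hε cv h hx) (ta s)
  refine ⟨v, ⟨sm, fun s x hx => maps hL hε cv h hx, fun s x hx j hj => jet hL cv hx hj,
    fun s s' x hx x' hx' e => ?_, ?_⟩, fun s x hx => ?_⟩
  · by_contra ne
    obtain ⟨n, hn⟩ := (((t s x hx).prodMk_nhds (t s' x' hx')).eventually
      (hA.t2 s s' _ (maps hL hε cv h hx) _ (maps hL hε cv h hx') ne)).exists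
    exact hn ((mor n).cmp s s' x hx x' hx' e)
  · have O : ∀ a : ℝ, IsOpen {x : E4 | a < ‖x‖} := fun a => isOpen_lt continuous_const continuous_norm
    have sub : ∀ x : E4, 2 * R < ‖x‖ → x ∈ gU T L 1 (Sum.inr T.root) := fun x hx =>
      mem_gU_inr.2 ⟨by linarith, fun k => (k rfl).elim⟩
    have sw : ContDiffOn ℝ ∞ (fun y => v (Sum.inr T.root) y - y) {x | 2 * R < ‖x‖} :=
      ((sm _).mono sub).sub contDiffOn_id
    refine ⟨2 * (2 * R), hh _ (2 * R) m (by linarith) sw (fun x hx n => ?_) fun x hx n => ?_⟩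
    · have h1 := near hL hε cv (sub x hx)
      have h2 := norm_sub_norm_le x (v (Sum.inr T.root) x)
      rw [norm_sub_rev] at h2
      have h3 : R < ‖v (Sum.inr T.root) x‖ := by
        simp only [scl, Sum.elim_inr] at h1; linarith
      have c1 := chr_one (((O R).eventually_mem (show R < ‖x‖ by linarith)).mono
        fun y hy => (fl y (le_of_lt hy)).1)
      have c2 : christoffel (rt T L gb (Sum.inr T.root)) (v (Sum.inr T.root) x) = 0 :=
        chr_one (((O R).eventually_mem h3).mono fun y hy => by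
          rw [rt, (fl y (le_of_lt hy)).2.1, show T.un (Sum.inr T.root) = T.root from rfl,
            h.eps_root, one_pow, one_smul])
      have h4 := ta _ x (sub x hx) n
      simp only [tau, c1, c2, (fl x (by linarith)).1, inv_one, Pi.zero_apply, zero_mul, mul_zero,
        Finset.sum_const_zero, add_zero, sub_zero, Matrix.one_apply, ite_mul, one_mul,
        Finset.sum_ite_eq, Finset.mem_univ, if_true] at h4
      refine Eq.trans (Finset.sum_congr rfl fun a _ => ?_) h4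
      have h5 := pd_congr_on a (O _) hx fun y hy =>
        pd_id_add ((sw.contDiffAt ((O _).mem_nhds hy)).differentiableAt (by simp)) a n
      simp only [add_sub_cancel] at h5
      rw [h5]
      simp only [pderiv, fderiv_const_add]
      rfl
    · exact (PiLp.norm_apply_le (v (Sum.inr T.root) x - x) n).trans (le_of_tendsto
        ((t _ x (sub x hx)).sub_const x).norm
        (Eventually.of_forall fun n => (fl x (by linarith)).2.2 n))
  · have hc : 0 < (T.eps L (T.un s) ^ 2)⁻¹ := inv_pos.2 (pow_pos (TD.eps_pos L _) 2)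
    have rs : ∀ {H : MetricField 4} {U : Set E4}, IsRiemannianOn H U →
        IsRiemannianOn (fun x => (T.eps L (T.un s) ^ 2)⁻¹ • H x) U := fun k =>
      ⟨k.isOpen, fun a b => contDiffOn_const.mul (k.contDiffOn a b),
        fun x hx => (k.posDef x hx).smul hc⟩
    rw [← nrm_rt T L gb]
    exact gauT_of_tau (rs (rG s)) (pull_pbG (gU_open s) (rs (mb.riem s))
      (fun x hx => maps hL hε cv h hx) (sm s) fun x hx => imm hL hε cv hx) hx fun n =>
        (tau_cs hc.ne' _ _ _ _ n).trans (by rw [ta s x hx n, mul_zero])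

end Crest.Agent.N207.Ga

end
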