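import Crest.Agent.N207.Ga.St3
import Crest.Agent.N207.I.NkRot

/-!
# Row 207, GAUGE (helper78): the leaf `SEC`
-/

set_option autoImplicit false

open scoped ContDiff Matrix
open Metric Set Filter Topology
open Crest.GeometryTopology.CoordMetric Crest.Agent.R202.Tens
open Crest.Agent.NLib.Ell Crest.Agent.N207.I Crest.Agent.N207.CB Crest.Agent.N207.N
  Crest.Agent.N207.Lg

noncomputable section

namespace Crest.Agent.N207.Ga

namespace Sc

/-- the transformation law of the vector field of a 1-form -/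
theorem shp_tr {g g' : MetricField 4} {o o' : Tn 4 1} {F : E4 → E4} {x : E4}
    (hg : matT g x = pullT F (matT g') x) (ho : o x = pullT F o' x) (hd : (g x).det ≠ 0) :
    fderiv ℝ F x (shp g o x) = shp g' o' (F x) := by
  let J : Matrix (Fin 4) (Fin 4) ℝ :=
    Matrix.of fun a i => fderiv ℝ F x (EuclideanSpace.single i 1) a
  have h1 : g x = Jᵀ * g' (F x) * J := by
    ext i j
    have := congrFun hg ![i, j]
    rw [← matT_pbG] at this
    refine Eq.trans this ((pbG_apply F g' x i j).trans ?_)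
    simp only [Matrix.mul_apply, Matrix.transpose_apply, Finset.sum_mul, J, Matrix.of_apply]
    rw [Finset.sum_comm]
    exact Finset.sum_congr rfl fun _ _ => Finset.sum_congr rfl fun _ _ => by ring
  have h2 : (fun j => o x ![j]) = Jᵀ *ᵥ fun j => o' (F x) ![j] := by
    funext j
    rw [ho]
    simp only [pullT, evT, Matrix.mulVec, dotProduct, Matrix.transpose_apply, J, Matrix.of_apply]
    rw [← (Equiv.funUnique (Fin 1) (Fin 4)).symm.sum_comp]
    refine Finset.sum_congr rfl fun a _ => ?_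
    have : (Equiv.funUnique (Fin 1) (Fin 4)).symm a = ![a] := by
      funext s; fin_cases s; rfl
    simp [this]
  have hJ : IsUnit J.det := by
    rw [h1, Matrix.det_mul, Matrix.det_mul] at hd
    exact (right_ne_zero_of_mul hd).isUnit
  have h3 : J * (g x)⁻¹ * Jᵀ = (g' (F x))⁻¹ := by
    rw [h1, Matrix.mul_inv_rev, Matrix.mul_inv_rev, ← Matrix.mul_assoc, Matrix.mul_nonsing_inv _ hJ,
      Matrix.one_mul, Matrix.mul_assoc, Matrix.nonsing_inv_mul _ (by rwa [Matrix.det_transpose]),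
      Matrix.mul_one]
  ext k
  rw [vec_sum]
  have h4 := congrFun (show J *ᵥ ((g x)⁻¹ *ᵥ fun j => o x ![j]) =
    (g' (F x))⁻¹ *ᵥ fun j => o' (F x) ![j] by
      rw [h2, Matrix.mulVec_mulVec, Matrix.mulVec_mulVec, h3]) k
  exact h4

variable {M : Type*} {T : TD M} {L : T.V → ℝ} {gb G : Fam T} {E : T.S → E4 × E4 → E4}
  {om : T.S → Tn 4 1} {s : T.S} {x0 : E4}

theorem rad_pos (hx : x0 ∈ T.gK L s) : 0 < rad T s x0 := by
  cases s with
  | inl a => simp [rad]
  | inr w =>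
    have := (TD.mem_gK_inr.1 hx).1
    simp only [rad, Sum.elim_inr]; linarith

theorem shp_cell (hx : x0 ∈ T.gK L s) (y : E4) : rad T s x0 • shp (clM T gb s x0) (clX T L om s x0) y =
    shp (rt T L gb s) (om s) (pt T s x0 y) := by
  have h1 := (rad_pos hx).ne'
  have h2 : T.eps L (T.un s) ^ 2 ≠ 0 := (pow_pos (TD.eps_pos L _) 2).ne'
  ext k
  simp only [PiLp.smul_apply, shp_apply, rt, minv_smul h2, clM, clX, Pi.smul_apply, smul_eq_mul,
    Matrix.smul_apply, Finset.mul_sum]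
  exact Finset.sum_congr rfl fun j _ => by field_simp

theorem uu_cell (hx : x0 ∈ T.gK L s) : uu (clM T gb s x0) (clE T E s x0) (clX T L om s x0) =
    fun y => (rad T s x0)⁻¹ • (uG T (rt T L gb) E om s (x0 + rad T s x0 • y) - x0) := by
  funext y
  simp only [uu, dsp, clE, shp_cell hx, uG, pt]
  abel

theorem exists_cell (hL : T.Long L) {x : E4} (hx : x ∈ gU T L 1 s) :
    ∃ x0 ∈ T.gK L s, ∃ y ∈ B1, x = x0 + rad T s x0 • y ∧ rad T s x0 ≤ scl T s x := by
  obtain ⟨x0, h0, h1⟩ := gU_cell hL one_pos (by norm_num) s hx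
  have hr := rad_pos h0
  rw [one_mul, mem_ball, dist_eq_norm] at h1
  refine ⟨x0, h0, (rad T s x0)⁻¹ • (x - x0), ?_, ?_, ?_⟩
  · rw [mem_ball_zero_iff, norm_smul, norm_inv, Real.norm_of_nonneg hr.le,
      inv_mul_lt_iff₀ hr]; linarith
  · rw [smul_inv_smul₀ hr.ne']; abel
  · cases s with
    | inl a => simp only [rad, scl, Sum.elim_inl]; norm_num
    | inr w =>
      simp only [rad, scl, Sum.elim_inr] at h1 ⊢
      have := norm_sub_norm_le x0 x
      rw [norm_sub_rev] at this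
      linarith [norm_nonneg x0]

theorem pt_mem (hx : x0 ∈ T.gK L s) {t : ℝ} (h0 : 0 ≤ t) (ht : t ≤ 8) {y : E4} (hy : ‖y‖ < t) :
    x0 + rad T s x0 • y ∈ gU T L t s := by
  have hr := rad_pos hx
  refine cell_gU h0 s hx ?_ ht
  rw [mem_ball, dist_eq_norm, add_sub_cancel_left, norm_smul, Real.norm_of_nonneg hr.le, mul_comm]
  exact mul_lt_mul_of_pos_right hy hr

theorem smT_clX (h : T.Ok) (ho : (T.glob L).Sec om) (hx : x0 ∈ T.gK L s) :
    SmT (clX T L om s x0) B1 := fun I =>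
  contDiffOn_const.mul ((ho.sm s I).comp (by unfold pt; fun_prop) fun y hy =>
    gU_sub h le_rfl s (pt_mem hx zero_le_one (by norm_num) (mem_ball_zero_iff.1 hy)))

theorem mor {γ K η r0 R0 δ : ℝ} (S : St T γ K η r0 R0 L gb G E) (hs : Sm K r0 δ)
    (ho : (T.glob L).Sec om) (hX : XN T γ L δ om) :
    Atl.Mor (sh T L 1) (T.glob L) id (uG T (rt T L gb) E om) := by
  have hA := S.ok.glob_ok S.long
  have d1 := fun s x0 (hx : x0 ∈ T.gK L s) => (dsp_one (S.cg s x0 hx) (S.ce s x0 hx) S.K0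
    (S.k0 s x0 hx).1 (S.k0 s x0 hx).2 hs (hX s x0 hx) (smT_clX S.ok ho hx)).1
  have nb : ∀ s, ∀ x ∈ gU T L 1 s, ‖shp (rt T L gb s) (om s) x‖ ≤ r0 * scl T s x := by
    intro s x hx
    obtain ⟨x0, h0, y, hy, rfl, h2⟩ := exists_cell S.long hx
    have h3 := (shp_cka (S.cg s x0 h0) (hX s x0 h0) (smT_clX S.ok ho h0) (S.k0 s x0 h0).2).bdd hy
    have h4 := (h3.trans (hs.a S.K0)).trans hs.s2.le
    have hr := rad_pos h0
    refine (congrArg norm (shp_cell h0 y)).symm.le.trans ?_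
    rw [norm_smul, Real.norm_of_nonneg hr.le, mul_comm]
    exact mul_le_mul h4 h2 hr.le ((norm_nonneg _).trans h4)
  refine ⟨fun s x hx => ?_, fun s x hx => ?_, fun s x hx => ?_, fun s s' x hx x' hx' e => ?_⟩
  · obtain ⟨x0, h0, y, hy, rfl, -⟩ := exists_cell S.long hx
    have h1 : uu _ _ _ y ∈ B2 := mem_of_small (d1 s x0 h0) hs.s1 hy
    have h2 := pt_mem h0 (by norm_num) (by norm_num) (mem_ball_zero_iff.1 h1)
    rw [uu_cell h0, smul_inv_smul₀ (rad_pos h0).ne', add_sub_cancel] at h2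
    exact gU_sub' S.ok (by norm_num) s h2
  · obtain ⟨x0, h0, y, hy, rfl, -⟩ := exists_cell S.long hx
    have hr := (rad_pos h0).ne'
    have h1 := (uu_sm (S.cg s x0 h0) (S.ce s x0 h0) S.K0 (S.k0 s x0 h0).2 hs (hX s x0 h0)
      (smT_clX S.ok ho h0)).contDiffAt (isOpen_ball.mem_nhds hy)
    have e : uG T (rt T L gb) E om s = fun z => x0 + rad T s x0 •
        uu (clM T gb s x0) (clE T E s x0) (clX T L om s x0) ((rad T s x0)⁻¹ • (z - x0)) := by
      funext z
      simp only [uu_cell h0, smul_inv_smul₀ hr, add_sub_cancel]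
    rw [e]
    have h2 : ContDiffAt ℝ ∞ (fun z : E4 => (rad T s x0)⁻¹ • (z - x0)) (x0 + rad T s x0 • y) := by
      fun_prop
    have h3 := ContDiffAt.comp _ (by rwa [add_sub_cancel_left, inv_smul_smul₀ hr]) h2
    exact (contDiffAt_const.add (h3.const_smul _)).contDiffWithinAt
  · obtain ⟨x0, h0, y, hy, rfl, -⟩ := exists_cell S.long hx
    have h1 : Function.Injective (fderiv ℝ (uu _ _ _) y) := inj_of_small (d1 s x0 h0) hs.s1 hy
    rwa [uu_cell h0, fderiv_cell (rad_pos h0).ne'] at h1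
  · obtain ⟨F, t, rfl⟩ := hA.loc s s' x (gU_sub S.ok le_rfl s hx) x' (gU_sub S.ok le_rfl s' hx') e
    have h1 := shp_tr (S.mb.compat s s' x F t) (ho.compat s s' x F t)
      ((S.mb.riem s).posDef x t.mem).det_pos.ne'
    have h2 := S.compat s s' x F _ t hx hx' (nb s x hx) (h1 ▸ nb s' _ hx')
    rw [h1] at h2
    exact h2.symm

end Sc

/-- **leaf SEC** -/
theorem sec {M : Type*} (T : TD M) : SEC T := by
  intro γ K η r0 R0 δ L gb G E om S hs ho hX
  have m := Sc.mor S hs ho hX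
  refine ⟨m, ?_⟩
  have hA := S.ok.glob_ok S.long
  obtain ⟨h1, -, h3, h4, -⟩ := sh_ok S.ok S.long one_pos le_rfl
  have hb : (sh T L 1).IsMet fun s => pbG (uG T (rt T L gb) E om s) (rt T L gb s) :=
    m.isMet h1 hA S.mb fun s x _ => by rw [matT_pbG]; rfl
  have hG : (sh T L 1).IsMet G :=
    ⟨fun s => riemOn_mono (S.mG.riem s) (h1.isOpen s) (h4 s), res_compat h4 S.mG.compat⟩
  have hS : (sh T L 1).Sec (opG T (rt T L gb) G E om) :=
    ((Atl.Sec.met hb).divT h1 hG).sub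
      (((Atl.Sec.met hG).conT h1 hG ((Atl.Sec.met hb).cov h1 hG)).smul (1 / 2))
  exact glue _ _ _ _ _ _ _ hA (S.ok.glob_pou S.long) h1 h3 h4 hS

end Crest.Agent.N207.Ga

end
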