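import Crest.Agent.N207.Ga.Met1

/-!
# Row 207 (helper18): the reference metric `gbL` of the glued space, `met`
-/

set_option autoImplicit false

open scoped ContDiff
open Metric Set Filter Topology
open Crest.GeometryTopology.CoordMetric Crest.Agent.R202.Tens
open Crest.Agent.N207.I Crest.Agent.N207.CB Crest.Agent.N207.Jt Crest.Agent.N207.N

noncomputable section

namespace Crest.Agent.N207.Ga

variable {M : Type*} {T : TD M} {g : T.V → Fam T} {γ T0 : ℝ} {v w : T.V} {L : T.V → ℝ} {x : E4}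

theorem glob_ne (hx : x ∈ (T.glob L).U (Sum.inr w)) : x ≠ 0 := by
  rw [← norm_pos_iff]; linarith [hx.1]

theorem glob_out (hx : x ∈ (T.glob L).U (Sum.inr w)) : x ∈ (T.core w).U (Sum.inr w) :=
  TD.mem_core_out.2 hx.1

theorem glob_inn (h : T.Ok) (hw : w ≠ T.root) (hx : x ∈ (T.glob L).U (Sum.inr w)) :
    Real.exp (-L w) • x ∈ (T.core (T.par w)).U (Sum.inr w) :=
  (TD.mem_core_inn (h.par_ne hw)).2 ⟨⟨hw, rfl⟩,
    norm_pos_iff.2 (smul_ne_zero (Real.exp_pos _).ne' (glob_ne hx)), TD.nrm_exp_lt.2 (hx.2 hw)⟩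

theorem core_inl (a : T.B) : (T.core (T.vx a)).U (Sum.inl a) = ball 0 2 := by
  simp [TD.core, TD.bU]

theorem lim_ball (hL : T.Lim g γ) (a : T.B) :
    IsRiemannianOn (g (T.vx a) (Sum.inl a)) (ball 0 2) := core_inl a ▸ (hL.met _).riem _

theorem gbL_root (x : E4) :
    gbL T g T0 L (Sum.inr T.root) x = gb T g T0 T.root (Sum.inr T.root) x := by simp [gbL]

theorem gbL_kid (hw : w ≠ T.root) (x : E4) : gbL T g T0 L (Sum.inr w) x =
    gb T g T0 w (Sum.inr w) x + (gb T g T0 (T.par w) (Sum.inr w) (Real.exp (-L w) • x) - 1) := by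
  simp [gbL, hw]

theorem dv_root (a b : Fin 4) : TD.dv (gbL T g T0 L (Sum.inr T.root)) a b =
    TD.dv (gb T g T0 T.root (Sum.inr T.root)) a b := by
  funext z; simp only [TD.dv, gbL_root]

theorem dv_kid (hw : w ≠ T.root) (a b : Fin 4) : TD.dv (gbL T g T0 L (Sum.inr w)) a b =
    fun z => TD.dv (gb T g T0 w (Sum.inr w)) a b z +
      TD.dv (gb T g T0 (T.par w) (Sum.inr w)) a b (Real.exp (-L w) • z) := by
  funext z; simp only [TD.dv, gbL_kid hw, Matrix.add_apply, Matrix.sub_apply]; ring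

theorem wt_nonneg : 0 ≤ T.wt γ L w x := by unfold TD.wt; split_ifs <;> positivity

/-- jets of `gbL - δ` on the necks, uniformly in `T0` and `L` -/
theorem gbL_sj (h : T.Ok) (hL : T.Lim g γ) : ∃ C : ℕ → ℝ, (∀ k, 0 ≤ C k) ∧ ∀ T0 L w,
    ∀ x ∈ (T.glob L).U (Sum.inr w), ∀ a b,
      SJ C (T.wt γ L w x) (TD.dv (gbL T g T0 L (Sum.inr w)) a b) x := by
  obtain ⟨C, h0, hC⟩ := gb_sj hL
  refine ⟨C, h0, fun T0 L w x hx a b => ?_⟩
  have h1 := hC T0 w w x (glob_out hx) a b
  by_cases hw : w = T.root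
  · subst hw; rw [dv_root]
    exact h1.mono fun k => by simp [ew, TD.wt]
  · rw [dv_kid hw]
    refine (h1.add (SJ.smul (Real.exp_pos _) (hC T0 _ w _ (glob_inn h hw hx) a b))).mono fun k => ?_
    simp [ew, TD.wt, hw, h.par_ne hw, norm_smul]

theorem gbL_small (h : T.Ok) (hL : T.Lim g γ) (hx : x ∈ (T.glob L).U (Sum.inr w)) (a b : Fin 4) :
    |TD.dv (gbL T g T0 L (Sum.inr w)) a b x| ≤ 1 / 50 := by
  have h1 := gb_small (T0 := T0) hL (glob_out hx) a b
  by_cases hw : w = T.root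
  · subst hw; rw [dv_root]; linarith
  · rw [dv_kid hw]
    linarith [abs_add_le (TD.dv (gb T g T0 w (Sum.inr w)) a b x)
      (TD.dv (gb T g T0 (T.par w) (Sum.inr w)) a b (Real.exp (-L w) • x)),
      gb_small (T0 := T0) hL (glob_inn h hw hx) a b]

theorem gbL_symm (h : T.Ok) (hL : T.Lim g γ) (hx : x ∈ (T.glob L).U (Sum.inr w)) (a b : Fin 4) :
    gbL T g T0 L (Sum.inr w) x a b = gbL T g T0 L (Sum.inr w) x b a := by
  have h1 := gb_symm (T0 := T0) hL (glob_out hx) a b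
  by_cases hw : w = T.root
  · subst hw; rw [gbL_root, h1]
  · simp only [gbL_kid hw, Matrix.add_apply, Matrix.sub_apply, h1,
      gb_symm (T0 := T0) hL (glob_inn h hw hx) a b, pos_one.1 a b]

theorem gbL_pos (h : T.Ok) (hL : T.Lim g γ) (hx : x ∈ (T.glob L).U (Sum.inr w)) :
    Pos (1 / 2) (gbL T g T0 L (Sum.inr w) x) :=
  pos_near pos_one (gbL_symm h hL hx) fun a b => (gbL_small h hL hx a b).trans (by norm_num)

theorem gbL_riem (h : T.Ok) (hL : T.Lim g γ) (s : T.S) :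
    IsRiemannianOn (gbL T g T0 L s) ((T.glob L).U s) := by
  cases s with
  | inl a => exact lim_ball hL a
  | inr w =>
    obtain ⟨C, -, hC⟩ := gbL_sj h hL
    exact ⟨TD.glob_open w, fun a b x hx => (sm_of_dv (hC T0 L w x hx a b).sm).contDiffWithinAt,
      fun x hx => (gbL_pos h hL hx).posDef (by norm_num)⟩

/-- the outer part of a neck -/
theorem gbL_out (h : T.Ok) (hx : x ≠ 0) (h1 : Real.log ‖x‖ ≤ T0)
    (hl : w ≠ T.root → 2 * T0 + 1 ≤ L w) : gbL T g T0 L (Sum.inr w) x = g w (Sum.inr w) x := by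
  have h2 : gb T g T0 w (Sum.inr w) x = g w (Sum.inr w) x := gb_eq (by simp [tau, h1])
  by_cases hw : w = T.root
  · subst hw; rw [gbL_root, h2]
  · rw [gbL_kid hw, h2, gb_one, sub_self, add_zero]
    simp only [tau, if_neg (h.par_ne hw), log_smul _ hx]
    linarith [hl hw]

/-- the inner part of a neck -/
theorem gbL_inn (h : T.Ok) (hw : w ≠ T.root) (hx : x ≠ 0) (h1 : L w - Real.log ‖x‖ ≤ T0)
    (hl : 2 * T0 + 1 ≤ L w) :
    gbL T g T0 L (Sum.inr w) x = g (T.par w) (Sum.inr w) (Real.exp (-L w) • x) := by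
  rw [gbL_kid hw, gb_one, gb_eq, add_sub_cancel]
  · simp only [tau, if_neg (h.par_ne hw), log_smul _ hx]; linarith
  · simp only [tau, if_true]; linarith

theorem gbL_base (h : T.Ok) (hT : 4 / T.r ≤ T0) (hl : ∀ w, w ≠ T.root → 2 * T0 + 1 ≤ L w) {s : T.S}
    (hx : TD.sc (TD.lm L) s v • x ∈ (T.base v).U s) :
    gbL T g T0 L s x = g v s (TD.sc (TD.lm L) s v • x) ∧
      T.eps L (T.un s) = T.eps L v * TD.sc (TD.lm L) s v := by
  cases s with
  | inl a =>
    obtain ⟨rfl, -⟩ := TD.mem_base_inl.1 hx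
    simp [TD.sc, gbL, TD.un]
  | inr w =>
    have h1 := (tau_base h hT hx).1
    have h0 : x ≠ 0 := by
      rintro rfl
      rw [smul_zero] at hx
      exact core_ne ((h.str_core v).conv w v 0 rfl (by rwa [smul_zero])).1 rfl
    by_cases hw : w = v
    · subst hw
      simp only [TD.sc, TD.lm, Sum.elim_inr, if_true, one_smul, tau, sub_nonpos] at h1 ⊢
      exact ⟨gbL_out h h0 h1 (hl w), by simp [TD.un]⟩
    · simp only [TD.sc, TD.lm, Sum.elim_inr, if_neg hw, tau, log_smul _ h0] at h1 hx ⊢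
      obtain ⟨⟨h2, rfl⟩, -⟩ := (TD.mem_base_inn hw).1 hx
      exact ⟨gbL_inn h h2 h0 (by linarith) (hl w h2), h.eps_kid L h2⟩

theorem riem_smul {G : MetricField 4} {U : Set E4} (h : IsRiemannianOn G U) {c : ℝ} (hc : 0 < c) :
    IsRiemannianOn (fun x => c • G x) U :=
  ⟨h.isOpen, fun a b => contDiffOn_const.mul (h.contDiffOn a b), fun x hx => (h.posDef x hx).smul hc⟩

theorem gbL_inv (h : T.Ok) (hL : T.Lim g γ) {e : Iso4} (he : e ∈ T.Γ w)
    (hx : x ∈ (T.glob L).U (Sum.inr w)) : PM (e.toContinuousLinearEquiv : E4 →L[ℝ] E4)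
      (gbL T g T0 L (Sum.inr w) x) (gbL T g T0 L (Sum.inr w) (e x)) := by
  have h1 := gb_inv (T0 := T0) h hL he (glob_out hx)
  by_cases hw : w = T.root
  · subst hw; rwa [gbL_root, gbL_root]
  · rw [gbL_kid hw, gbL_kid hw, ← e.map_smul]
    exact h1.add ((gb_inv h hL he (glob_inn h hw hx)).sub (pm_one e))

/-- the reference metric of the glued space -/
theorem gR_met (h : T.Ok) (hL : T.Lim g γ) (hT : 4 / T.r ≤ T0) (hl : Lg T (2 * T0 + 1) L) :
    (T.glob L).IsMet (gR T g T0 L) := by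
  have hA := h.str_glob hl.1
  refine ⟨fun s => riem_smul (gbL_riem h hL s) (pow_pos (TD.eps_pos L _) 2),
    hA.compat_of h (fun a b x F u _ t e => ?_) fun w e he x hx => ?_⟩
  · obtain ⟨e1, e2, -⟩ := e.self_of_nhds
    obtain ⟨a1, a2⟩ := gbL_base (g := g) h hT hl.2 e1
    obtain ⟨b1, b2⟩ := gbL_base (g := g) h hT hl.2 e2
    have pa := hA.sc_pos a u
    have pb := hA.sc_pos b u
    set α := TD.sc (TD.lm L) a u
    set β := TD.sc (TD.lm L) b u
    have h1 : ∀ s : T.S, TD.sc (fun _ _ => (1 : ℝ)) s u = 1 := fun s => by cases s <;> rfl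
    have cv : ∀ {s : T.S} {z : E4}, z ∈ (T.base u).U s → z ∈ (T.core u).U s ∧
        (T.core u).c s z = Sum.inl (u, (T.base u).c s z) := fun {s z} hz => by
      simpa only [h1, one_smul] using (h.str_core u).conv' (s := s) (x := z) rfl (by rwa [h1, one_smul])
    have i1 : ∀ z : E4, α⁻¹ • α • z = z := fun z => inv_smul_smul₀ pa.ne' z
    have tz : Tendsto (fun z : E4 => α⁻¹ • z) (𝓝 (α • x)) (𝓝 x) := by
      simpa only [ContinuousAt, i1] using (continuous_const_smul α⁻¹).continuousAt (x := α • x)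
    have t' : (T.core u).Tr a b (α • x) fun z => β • F (α⁻¹ • z) :=
      ⟨(cv e1).1, by rw [i1]; exact (cv e2).1, (tz.eventually t.sm).mono fun z hz =>
        (hz.comp z (f := fun z : E4 => α⁻¹ • z) (by fun_prop)).const_smul β,
        (tz.eventually e).mono fun z hz => by
          rw [smul_inv_smul₀ pa.ne'] at hz
          rw [(cv hz.1).2, (cv hz.2.1).2, hz.2.2]⟩
    have hd : fderiv ℝ (fun z => β • F (α⁻¹ • z)) (α • x) = (β / α) • fderiv ℝ F x := by
      have d1 : HasFDerivAt F (fderiv ℝ F x) (α⁻¹ • α • x) := by rw [i1]; exact t.diff.hasFDerivAt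
      refine ((d1.comp (α • x) ((hasFDerivAt_id (α • x)).const_smul α⁻¹)).const_smul β).fderiv.trans ?_
      ext z : 1
      simp [smul_smul, div_eq_mul_inv]
    have h2 := pm_iff.1 ((hL.met u).compat _ _ _ _ t')
    rw [hd, i1] at h2
    have h3 := h2.scale.smul ((T.eps L u * α) ^ 2)
    rw [pm_iff]
    simp only [gR, rt, a1, a2, b1, b2]
    convert h3 using 1
    rw [smul_smul]
    congr 1
    field_simp
  · rw [pm_iff, LinearIsometryEquiv.fderiv]; exact (gbL_inv h hL he hx).smul _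

/-- **MET** -/
theorem met (h : T.Ok) (hL : T.Lim g γ) : MET T g :=
  ⟨4 / T.r, fun T0 hT => ⟨2 * T0 + 1, fun _ hl => gR_met h hL hT hl⟩⟩

end Crest.Agent.N207.Ga

end
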