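import Crest.Agent.N207.Ga.St3
import Crest.Agent.N207.Ga.Met2

/-!
# Row 207, GAUGE (helper76): the global setting
-/

set_option autoImplicit false

open scoped ContDiff
open Metric Set Filter Topology
open Crest.GeometryTopology.CoordMetric
open Crest.Agent.NLib.Ell Crest.Agent.N207.I Crest.Agent.N207.CB Crest.Agent.N207.N
  Crest.Agent.N207.Lg Crest.Agent.N207.K

noncomputable section

namespace Crest.Agent.N207.Ga

variable {M : Type*} {T : TD M}

theorem CellG.monoK {K K' η κ : ℝ} {gh Gh : MetricField 4} (c : CellG K η κ gh Gh) (h : K ≤ K')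
    (hκ : 0 ≤ κ) : CellG K' η κ gh Gh :=
  have h' := mul_le_mul_of_nonneg_right h hκ
  ⟨c.riem, c.riemG, fun a b => (c.gb a b).mono h, fun a b => (c.gi a b).mono h,
    fun a b d => (c.dgi a b d).mono h', fun k a b => (c.chr k a b).mono h', c.ric, c.Gi, c.chrG⟩

theorem kap_bd (h : T.Ok) {γ : ℝ} (hγ : 0 ≤ γ) {L : T.V → ℝ} {s : T.S} {x0 : E4}
    (hx : x0 ∈ T.gK L s) : 0 ≤ kap T γ L s x0 ∧ kap T γ L s x0 ≤ 2 := by
  cases s with
  | inl a => simp [kap]
  | inr w =>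
    refine ⟨wt_nonneg, ?_⟩
    have h1 : ‖x0‖ ^ (-γ) ≤ 1 :=
      Real.rpow_le_one_of_one_le_of_nonpos (by linarith [hx.1]) (by linarith)
    simp only [kap, Sum.elim_inr, TD.wt]
    split_ifs with hw
    · linarith
    · have h2 : Real.exp (-L w) * ‖x0‖ ≤ 1 := by
        have h3 := hx.2 hw
        rw [Real.exp_neg, inv_mul_le_iff₀ (Real.exp_pos _)]
        nlinarith [h.r_lt, h.r_pos, Real.exp_pos (L w)]
      linarith [Real.rpow_le_one (by positivity) h2 hγ]

theorem ex_cell {K r0 R1 γ : ℝ} (hγ : 0 ≤ γ) (hK : 0 ≤ K) (hR : 0 < R1) {L : T.V → ℝ}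
    {E : T.S → E4 × E4 → E4} (hE : Ex T K r0 R1 L E) {s : T.S} {x0 : E4} (hx : x0 ∈ T.gK L s)
    {K' : ℝ} (hK' : K / min 1 ((2 * R1) ^ (-γ)) ≤ K') :
    CellE (K' * kap T γ L s x0) r0 (clE T E s x0) := by
  have c := hE.cell s x0 hx
  have c0 : 0 < min 1 ((2 * R1) ^ (-γ)) := lt_min one_pos (by positivity)
  have K0 : 0 ≤ K' := (div_nonneg hK c0.le).trans hK'
  have up : min 1 ((2 * R1) ^ (-γ)) ≤ kap T γ L s x0 →
      CellE (K' * kap T γ L s x0) r0 (clE T E s x0) := fun h => by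
    refine ⟨c.db.mono ?_, c.zero, c.dzero⟩
    rw [div_le_iff₀ c0] at hK'
    exact hK'.trans (mul_le_mul_of_nonneg_left h K0)
  cases s with
  | inl a => exact up (min_le_left _ _)
  | inr w =>
    have x0p : 0 < ‖x0‖ := by linarith [hx.1]
    by_cases h1 : 2 * R1 ≤ ‖x0‖
    swap
    · refine up ((min_le_right _ _).trans ?_)
      have := Real.rpow_le_rpow_of_nonpos x0p (not_le.1 h1).le (neg_nonpos.2 hγ)
      simp only [kap, Sum.elim_inr, TD.wt]
      split_ifs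
      · linarith
      · linarith [Real.rpow_nonneg (mul_pos (Real.exp_pos (-L w)) x0p).le γ]
    by_cases h2 : w ≠ T.root → 2 * R1 * ‖x0‖ ≤ Real.exp (L w)
    swap
    · rw [Classical.not_imp, not_le] at h2
      refine up ((min_le_right _ _).trans ?_)
      have h3 : (2 * R1)⁻¹ ≤ Real.exp (-L w) * ‖x0‖ := by
        rw [Real.exp_neg, le_inv_mul_iff₀ (Real.exp_pos _), mul_inv_le_iff₀ (by positivity)]
        linarith [h2.2]
      have h4 := Real.rpow_le_rpow (by positivity) h3 hγ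
      rw [Real.inv_rpow (by positivity), ← Real.rpow_neg (by positivity)] at h4
      simp only [kap, Sum.elim_inr, TD.wt, if_neg h2.1]
      linarith [Real.rpow_nonneg x0p.le (-γ)]
    have z : ∀ q ∈ B2 ×ˢ (univ : Set E4), clE T E (Sum.inr w) x0 q = 0 := by
      rintro ⟨y, v⟩ ⟨hy, -⟩
      have hy : ‖y‖ < 5 / 4 := mem_ball_zero_iff.1 hy
      have n1 : ‖(‖x0‖ / 8) • y‖ ≤ ‖x0‖ / 2 := by
        rw [norm_smul, Real.norm_eq_abs, abs_of_pos (by positivity)]; nlinarith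
      have n2 := norm_add_le x0 ((‖x0‖ / 8) • y)
      have n3 := norm_sub_le (x0 + (‖x0‖ / 8) • y) ((‖x0‖ / 8) • y)
      rw [add_sub_cancel_right] at n3
      simp only [clE, pt, rad, Sum.elim_inr]
      rw [hE.flat w _ _ (by linarith) fun hw => le_trans (by nlinarith) (h2 hw), add_assoc,
        add_sub_cancel_left, ← smul_add, inv_smul_smul₀ (by positivity)]
      simp
    refine ⟨⟨c.db.sm, fun j _ q hq => ?_⟩, c.zero, c.dzero⟩
    have e : clE T E (Sum.inr w) x0 =ᶠ[𝓝 q] fun _ => 0 :=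
      mem_of_superset ((isOpen_ball.prod isOpen_univ).mem_nhds ⟨hq.1, mem_univ _⟩) z
    rw [(e.iteratedFDeriv ℝ j).eq_of_nhds, iteratedFDeriv_fun_zero]
    simpa [kap] using mul_nonneg K0 (wt_nonneg (T := T) (γ := γ) (L := L) (w := w) (x := x0))

theorem set {ι : Type} {g : T.V → Fam T} {γ : ℝ} {l : Filter ι} {L : ι → T.V → ℝ} {G : ι → Fam T}
    (h : T.Ok) (h0 : 0 < γ) (hS : T.Seq g γ l L G) (hF : ∀ᶠ i in l, Sk.Flat T (G i))
    (hM : MET T g) (hE : EXP T) (hD : DATA T g γ l L G) : SET T g γ l L G := by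
  have lg : ∀ l0, ∀ᶠ i in l, Lg T l0 (L i) := fun l0 => by
    have e : ∀ᶠ i in l, ∀ w, w ≠ T.root → l0 ≤ L i w := eventually_all.2 fun w => by
      by_cases hw : w = T.root
      · exact Eventually.of_forall fun _ h' => absurd hw h'
      · exact ((hS.top w hw).eventually (eventually_ge_atTop l0)).mono fun _ h' _ => h'
    exact (hS.met.and e).mono fun i hi => ⟨hi.1.1, hi.2⟩
  obtain ⟨T1, hM⟩ := hM
  obtain ⟨Ke, r0, R1, l1, Ke0, r00, R10, hE⟩ := hE
  obtain ⟨Kd, C, T2, Kd0, C0, hD⟩ := hD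
  refine ⟨lg, max Kd (Ke / min 1 ((2 * R1) ^ (-(γ / 5)))), r0, C, max T1 T2,
    Kd0.le.trans (le_max_left _ _), r00, C0, fun T0 hT => ?_⟩
  obtain ⟨l0, hM⟩ := hM T0 ((le_max_left _ _).trans hT)
  filter_upwards [lg l0, lg l1, hD T0 ((le_max_right _ _).trans hT), hF, hS.met]
    with i a1 a2 a3 ⟨R', a4⟩ a5
  obtain ⟨E, hE⟩ := hE _ a2
  have γ0 : 0 ≤ γ / 5 := by positivity
  refine ⟨E, max (max 2 R') (max R1 (Real.exp (T0 + 1 / 10))), h, a5.1,
    Kd0.le.trans (le_max_left _ _), (le_max_left _ _).trans (le_max_left _ _), hM _ a1, a5.2,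
    fun s x0 hx => kap_bd h γ0 hx,
    fun s x0 hx => (a3 s x0 hx).monoK (le_max_left _ _) (kap_bd h γ0 hx).1,
    fun s x0 hx => ex_cell γ0 Ke0.le R10 hE hx (le_max_right _ _), hE.compat, fun x hx => ?_⟩
  simp only [max_le_iff] at hx
  refine ⟨a4 x hx.1.2, ?_, fun v => hE.flat _ x v hx.2.1 fun hw => absurd rfl hw⟩
  rw [gbL_root]
  refine gb_one ?_
  have := (Real.le_log_iff_exp_le (by linarith [hx.1.1])).2 hx.2.2
  rw [CB.tau, if_pos rfl]; linarith

end Crest.Agent.N207.Ga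

end
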