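import Crest.Agent.N207.Ga.Fin
import Crest.Agent.N207.Ga.Sec
import Crest.Agent.N207.Ga.Lie
import Crest.Agent.N207.Ga.Extmp
import Crest.Agent.N207.Ga.Hdec
import Crest.Agent.N207.Ga.Boot
import Crest.Agent.N207.Ga.Data2
import Crest.Agent.N207.Ga.Exp
import Crest.Agent.N207.Ga.Set
import Crest.Agent.N207.Ga.Lim

/-!
# Row 207, GAUGE (helper3): everything but `X3`
-/

set_option autoImplicit false

open Filter
open Crest.Agent.N207.I Crest.Agent.N207.CB

namespace Crest.Agent.N207.Ga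

theorem gauge_x3 {M : Type*} {T : TD M} {ι : Type} {g : T.V → Fam T} {γ : ℝ} {l : Filter ι}
    {L : ι → T.V → ℝ} {G : ι → Fam T} (h : T.Ok) (h0 : 0 < γ) (h1 : γ ≤ 1) (hL : T.Lim g γ)
    (hS : T.Seq g γ l L G) (hF : ∀ᶠ i in l, Sk.Flat T (G i)) (hx : X3 T g (γ / 5)) :
    GAUGE T g γ l L G :=
  gauge_of h0 (set h h0 hS hF (met h hL) (exp h) (data h hL hS h0 h1)) hx lie (sec T) extmp
    (lim T boot hdec)

end Crest.Agent.N207.Ga
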