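import Crest.Agent.N207.Ga.Met2

/-!
# Row 207 (helper18): reading jets in cells
-/

set_option autoImplicit false

open scoped ContDiff
open Metric Set Filter Topology
open Crest.GeometryTopology.CoordMetric Crest.Agent.R202.Tens Crest.Agent.NLib.Ell
open Crest.Agent.N207.I Crest.Agent.N207.CB Crest.Agent.N207.Jt Crest.Agent.N207.K
open Crest.Agent.R238 (Ell)

noncomputable section

namespace Crest.Agent.N207.Ga

variable {C : ℕ → ℝ} {ϖ N N' ρ : ℝ} {f f' : E4 → ℝ} {x c y : E4} {W W' : Set E4} {m : ℕ}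

theorem norm_aff_le (f : E4 → ℝ) (c : E4) (hρ : 0 < ρ) (k : ℕ) (y : E4) :
    ‖iteratedFDeriv ℝ k (fun y => f (c + ρ • y)) y‖ ≤ ρ ^ k * ‖iteratedFDeriv ℝ k f (c + ρ • y)‖ := by
  have := norm_iter_smul (fun z => f (c + z)) hρ k y
  rwa [iteratedFDeriv_comp_add_left] at this

theorem cell_norm {t : ℝ} (x : E4) (hy : ‖y‖ ≤ t) :
    (1 - t / 8) * ‖x‖ ≤ ‖x + (‖x‖ / 8) • y‖ ∧ ‖x + (‖x‖ / 8) • y‖ ≤ (1 + t / 8) * ‖x‖ := by
  have h1 : ‖(‖x‖ / 8) • y‖ ≤ t / 8 * ‖x‖ := by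
    rw [norm_smul, Real.norm_of_nonneg (by positivity)]
    nlinarith [norm_nonneg x]
  have h2 := norm_add_le x ((‖x‖ / 8) • y)
  have h3 := norm_sub_le (x + (‖x‖ / 8) • y) ((‖x‖ / 8) • y)
  rw [add_sub_cancel_right] at h3
  constructor <;> linarith

theorem ball_norm {t : ℝ} (hx : ‖x‖ ≤ 3 / 2) (hy : ‖y‖ ≤ t) :
    ‖x + (1 / 8 : ℝ) • y‖ ≤ 3 / 2 + t / 8 := by
  have h2 := norm_add_le x ((1 / 8 : ℝ) • y)
  rw [norm_smul, Real.norm_of_nonneg (by positivity)] at h2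
  linarith

/-- the sum of the constants up to the order `m` -/
def sm (C : ℕ → ℝ) (m : ℕ) : ℝ := ∑ k ∈ Finset.range (m + 1), C k

theorem le_sm (hC : ∀ k, 0 ≤ C k) {k : ℕ} (hk : k ≤ m) : C k ≤ sm C m :=
  Finset.single_le_sum (fun i _ => hC i) (Finset.mem_range.2 (by omega))

theorem sm_nonneg (hC : ∀ k, 0 ≤ C k) : 0 ≤ sm C m := Finset.sum_nonneg fun i _ => hC i

theorem db_sj (hC : ∀ k, 0 ≤ C k) (h0 : 0 ≤ ϖ) (hx : x ≠ 0) (hW : ∀ y ∈ W, ‖y‖ ≤ 2)
    (h : ∀ y ∈ W, SJ C ϖ f (x + (‖x‖ / 8) • y)) :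
    DB W m (sm C m * ϖ) fun y => f (x + (‖x‖ / 8) • y) := by
  have hp : 0 < ‖x‖ / 8 := by have := norm_pos_iff.2 hx; positivity
  refine ⟨fun y hy => ((h y hy).sm.comp y (f := fun y : E4 => x + (‖x‖ / 8) • y)
    (by fun_prop)).contDiffWithinAt, fun k hk y hy => (norm_aff_le f x hp k y).trans ?_⟩
  refine le_trans ?_ (((h y hy).bd k).trans (mul_le_mul_of_nonneg_right (le_sm hC hk) h0))
  rw [mul_comm]
  gcongr
  linarith [(cell_norm x (hW y hy)).1]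

theorem db_aff {R : ℝ} (h : DB W' m N f) (hρ : 0 < ρ) (hR : ρ ≤ R) (h1 : 1 ≤ R)
    (hW : ∀ y ∈ W, c + ρ • y ∈ W') : DB W m (R ^ m * N) fun y => f (c + ρ • y) :=
  ⟨h.sm.comp (f := fun y : E4 => c + ρ • y) (by fun_prop) hW, fun k hk y hy =>
    (norm_aff_le f c hρ k y).trans (mul_le_mul
      ((pow_le_pow_left₀ hρ.le hR k).trans (pow_le_pow_right₀ h1 hk)) (h.bd k hk _ (hW y hy))
      (norm_nonneg _) (by positivity))⟩

theorem db_cka (h : DB W (m + 1) N f) (hW : IsOpen W') (hc : Convex ℝ W') (hs : W' ⊆ W) :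
    CKA (1 / 2) W' m (2 * N) f :=
  CKA.of_bounds hW hc (by norm_num) (by norm_num)
    ((h.sm.mono hs).of_le (by exact_mod_cast le_top)) fun j hj x hx => h.bd j hj x (hs hx)

theorem db_add (hW : IsOpen W) (h : DB W m N f) (h' : DB W m N' f') :
    DB W m (N + N') fun y => f y + f' y :=
  ⟨h.sm.add h'.sm, fun k hk y hy => by
    rw [show (fun y => f y + f' y) = f + f' from rfl, iteratedFDeriv_add_apply
      ((h.sm.contDiffAt (hW.mem_nhds hy)).of_le (kle k))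
      ((h'.sm.contDiffAt (hW.mem_nhds hy)).of_le (kle k))]
    exact (norm_add_le _ _).trans (add_le_add (h.bd k hk y hy) (h'.bd k hk y hy))⟩

theorem db_sub (hW : IsOpen W) (h : DB W m N f) (h' : DB W m N' f') :
    DB W m (N + N') fun y => f y - f' y :=
  ⟨h.sm.sub h'.sm, fun k hk y hy => by
    rw [show (fun y => f y - f' y) = f - f' from rfl, iteratedFDeriv_sub_apply
      ((h.sm.contDiffAt (hW.mem_nhds hy)).of_le (kle k))
      ((h'.sm.contDiffAt (hW.mem_nhds hy)).of_le (kle k))]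
    exact (norm_sub_le _ _).trans (add_le_add (h.bd k hk y hy) (h'.bd k hk y hy))⟩

theorem db_const {a : ℝ} (h : |a| ≤ N) : DB W m N fun _ : E4 => a :=
  ⟨contDiffOn_const, fun k _ y _ => by
    rcases eq_or_ne k 0 with rfl | hk
    · simpa [norm_iteratedFDeriv_zero] using h
    · simpa [iteratedFDeriv_const_of_ne hk] using (abs_nonneg a).trans h⟩

theorem db_congr (hW : IsOpen W) (h : DB W m N f) (e : ∀ y ∈ W, f' y = f y) : DB W m N f' :=
  ⟨h.sm.congr e, fun k hk y hy => by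
    rw [((eventuallyEq_of_mem (hW.mem_nhds hy) e).iteratedFDeriv ℝ k).eq_of_nhds]
    exact h.bd k hk y hy⟩

theorem db_pd (hW : IsOpen W) (h : DB W (m + 1) N f) (i : Fin 4) : DB W m N (pderiv i f) := by
  have h1 := h.fderiv hW
  let A := ContinuousLinearMap.apply ℝ ℝ (EuclideanSpace.single i (1 : ℝ) : E4)
  have hA : ‖A‖ ≤ 1 := ContinuousLinearMap.opNorm_le_bound _ zero_le_one fun B => by
    simpa [A] using B.le_opNorm (EuclideanSpace.single i (1 : ℝ))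
  refine ⟨A.contDiff.comp_contDiffOn h1.sm, fun k hk y hy => ?_⟩
  refine (A.norm_iteratedFDeriv_comp_left (h1.sm.contDiffAt (hW.mem_nhds hy)) (kle k)).trans ?_
  exact (mul_le_of_le_one_left (norm_nonneg _) hA).trans (h1.bd k hk y hy)

theorem one_abs (a b : Fin 4) : |(1 : Matrix (Fin 4) (Fin 4) ℝ) a b| ≤ 1 := by
  rw [Matrix.one_apply]; split_ifs <;> simp

theorem db_of_dv {G : MetricField 4} {a b : Fin 4} (hW : IsOpen W) (h : DB W m N (TD.dv G a b)) :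
    DB W m (N + 1) fun y => G y a b :=
  db_congr hW (db_add hW h (db_const (one_abs a b))) fun y _ => by simp [TD.dv]

theorem ell_of {lo hi : ℝ} {A : Matrix (Fin 4) (Fin 4) ℝ} (h : Pos lo A)
    (h' : ∀ v : E4, bil A v v ≤ hi * ‖v‖ ^ 2) : Ell lo hi A :=
  ⟨h.1, fun z => by
    have h1 := h.2 (WithLp.toLp 2 z)
    have h2 := h' (WithLp.toLp 2 z)
    rw [EuclideanSpace.real_norm_sq_eq, bil_apply] at h1 h2
    exact ⟨h1, h2⟩⟩

variable {M : Type*} {T : TD M} {g : T.V → Fam T} {γ T0 : ℝ} {v w : T.V} {L : T.V → ℝ}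

/-- the limits on the balls -/
theorem ball_bd (hL : T.Lim g γ) : ∃ (C : ℕ → ℝ) (c : ℝ), (∀ k, 0 ≤ C k) ∧ 0 < c ∧
    ∀ a, ∀ x : E4, ‖x‖ ≤ 15 / 8 → Pos c (g (T.vx a) (Sum.inl a) x) ∧
      ∀ k p q, ‖iteratedFDeriv ℝ k (fun y => g (T.vx a) (Sum.inl a) y p q) x‖ ≤ C k := by
  have hK := isCompact_closedBall (0 : E4) (15 / 8)
  have hs : closedBall (0 : E4) (15 / 8) ⊆ ball 0 2 := closedBall_subset_ball (by norm_num)
  obtain ⟨C, h0, hC⟩ := exists_seq (α := T.B × Fin 4 × Fin 4) (P := fun p k c =>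
    ∀ x ∈ closedBall (0 : E4) (15 / 8),
      ‖iteratedFDeriv ℝ k (fun y => g (T.vx p.1) (Sum.inl p.1) y p.2.1 p.2.2) x‖ ≤ c)
    (fun p k => hK.exists_bound_of_continuousOn fun x hx =>
      ((((lim_ball hL p.1).contDiffOn _ _).contDiffAt
        (isOpen_ball.mem_nhds (hs hx))).continuousAt_iteratedFDeriv (kle k)).continuousWithinAt)
    fun _ _ _ _ h h' x hx => (h' x hx).trans h
  choose c hc hp using fun a : T.B => pos_of_compact hK (A := g (T.vx a) (Sum.inl a))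
    (fun p q => ((lim_ball hL a).contDiffOn p q).continuousOn.mono hs)
    fun z hz => (lim_ball hL a).posDef z (hs hz)
  obtain ⟨c0, h1, h2⟩ : ∃ c0 : ℝ, 0 < c0 ∧ ∀ a, c0 ≤ c a := by
    rcases isEmpty_or_nonempty T.B with h | h
    · exact ⟨1, one_pos, fun k => h.elim k⟩
    · obtain ⟨k, hk⟩ := Finite.exists_min c
      exact ⟨c k, hc k, hk⟩
  exact ⟨C, c0, h0, h1, fun a x hx => ⟨(hp a x (mem_closedBall_zero_iff.2 hx)).mono (h2 a),
    fun k p q => hC (a, p, q) k x (mem_closedBall_zero_iff.2 hx)⟩⟩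

theorem ball_db (hL : T.Lim g γ) {C : ℕ → ℝ} (hC : ∀ k, 0 ≤ C k) {a : T.B} {p q : Fin 4}
    (h : ∀ x : E4, ‖x‖ ≤ 15 / 8 → ∀ k,
      ‖iteratedFDeriv ℝ k (fun y => g (T.vx a) (Sum.inl a) y p q) x‖ ≤ C k)
    (hx : ‖x‖ ≤ 3 / 2) (hW : ∀ y ∈ W, ‖y‖ ≤ 2) :
    DB W m (sm C m) fun y => g (T.vx a) (Sum.inl a) (x + (1 / 8 : ℝ) • y) p q := by
  have h1 : DB (closedBall 0 (15 / 8)) m (sm C m) fun y => g (T.vx a) (Sum.inl a) y p q :=
    ⟨((lim_ball hL a).contDiffOn p q).mono (closedBall_subset_ball (by norm_num)), fun k hk z hz =>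
      (h z (mem_closedBall_zero_iff.1 hz) k).trans (le_sm hC hk)⟩
  simpa using db_aff (W := W) (c := x) h1 (by norm_num : (0 : ℝ) < 1 / 8) (by norm_num) le_rfl
    fun y hy => mem_closedBall_zero_iff.2 ((ball_norm hx (hW y hy)).trans (by norm_num))

end Crest.Agent.N207.Ga

end
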