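import Crest.Agent.N207.Ga.Defs
import Crest.Agent.N207.I.Cal5
import Crest.Agent.N207.I.Car3

/-!
# Row 207, GAUGE (helper21): near identity families are diffeomorphisms
-/

set_option autoImplicit false

open scoped ContDiff NNReal
open Metric Set Filter Topology
open Crest.Agent.N207.I Crest.Agent.N207.I.TD Crest.Agent.N207.CB

noncomputable section

namespace Crest.Agent.N207.Ga

/-- uniform changes of charts on compact sets -/
theorem leb0 {X : Type*} {α : Type} {A : Atl X α} (h : A.Ok) {a b : α} {K K' : Set E4}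
    (hK : IsCompact K) (hK' : IsCompact K') (hU : K ⊆ A.U a) (hU' : K' ⊆ A.U b) {ρ : ℝ}
    (hρ : 0 < ρ) : ∀ᶠ d in 𝓝 (0 : E4), ∀ p ∈ K ×ˢ K', A.c a p.1 = A.c b p.2 →
      p.1 + d ∈ A.U a ∧ ∃ x' ∈ A.U b, ‖x' - p.2‖ ≤ ρ ∧ A.c b x' = A.c a (p.1 + d) := by
  refine (hK.prod hK').eventually_forall_of_forall_eventually fun p hp => ?_
  by_cases e : A.c a p.1 = A.c b p.2
  · obtain ⟨F, t, e'⟩ := h.loc a b _ (hU hp.1) _ (hU' hp.2) e
    have c1 : Tendsto (fun q : E4 × E4 × E4 => q.2.1 + q.1) (𝓝 (0, p)) (𝓝 p.1) :=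
      (by fun_prop : Continuous fun q : E4 × E4 × E4 => q.2.1 + q.1).tendsto' _ _ (by simp)
    have c2 : Tendsto (fun q : E4 × E4 × E4 => ‖F (q.2.1 + q.1) - q.2.2‖) (𝓝 (0, p)) (𝓝 0) := by
      have := ((t.cont.tendsto.comp c1).sub
        ((by fun_prop : Continuous fun q : E4 × E4 × E4 => q.2.2).tendsto (0, p))).norm
      simpa [e'] using this
    filter_upwards [c1 (t.ev h), c2.eventually (ge_mem_nhds hρ)] with q h1 h2 _
    exact ⟨h1.mem, _, h1.mem', h2, h1.eq0⟩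
  · have c1 : Tendsto (fun q : E4 × E4 × E4 => q.2) (𝓝 (0, p)) (𝓝 (p.1, p.2)) :=
      continuous_snd.tendsto (0, p)
    filter_upwards [c1 (h.t2 a b _ (hU hp.1) _ (hU' hp.2) e)] with q h1 h2 using absurd h2 h1

variable {M : Type*} {T : TD M} {L : T.V → ℝ}

/-- compact parts of the charts of `base v` -/
def KB (T : TD M) (v : T.V) : T.S → Set E4 :=
  Sum.elim (fun a => {x | T.vx a = v ∧ ‖x‖ ≤ 7 / 4}) fun w =>
    {x | (w = v ∧ 5 / 4 ≤ ‖x‖ ∧ ‖x‖ ≤ 3) ∨ (w ≠ v ∧ T.kid v w ∧ T.r / 3 ≤ ‖x‖ ∧ ‖x‖ ≤ 7 / 8 * T.r)}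

/-- closed parts of the charts of `glob L` -/
def gW (T : TD M) (L : T.V → ℝ) : T.S → Set E4 :=
  Sum.elim (fun _ => {x | ‖x‖ ≤ 7 / 4}) fun w =>
    {x | 5 / 4 ≤ ‖x‖ ∧ (w ≠ T.root → ‖x‖ ≤ 7 / 8 * T.r * Real.exp (L w))}

theorem KB_cpt (h : T.Ok) (v : T.V) (s : T.S) : IsCompact (KB T v s) := by
  have hr := h.r_lt
  have a1 : ∀ c : ℝ, IsClosed {x : E4 | ‖x‖ ≤ c} := fun c => isClosed_le continuous_norm continuous_const
  have a2 : ∀ c : ℝ, IsClosed {x : E4 | c ≤ ‖x‖} := fun c => isClosed_le continuous_const continuous_norm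
  refine (isCompact_closedBall (0 : E4) 3).of_isClosed_subset ?_ ?_
  · rcases s with a | w
    · exact isClosed_const.inter (a1 _)
    · exact (isClosed_const.inter ((a2 _).inter (a1 _))).union
        (isClosed_const.inter (isClosed_const.inter ((a2 _).inter (a1 _))))
  · rcases s with a | w
    · exact fun x hx => mem_closedBall_zero_iff.2 (by linarith [hx.2])
    · rintro x (hx | hx)
      exacts [mem_closedBall_zero_iff.2 hx.2.2, mem_closedBall_zero_iff.2 (by linarith [hx.2.2.2])]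

theorem KB_sub (h : T.Ok) (v : T.V) (s : T.S) : KB T v s ⊆ (T.base v).U s := by
  have hr := h.r_pos
  rcases s with a | w
  · exact fun x hx => mem_base_inl.2 ⟨hx.1, by linarith [hx.2]⟩
  · rintro x (⟨rfl, h1, h2⟩ | ⟨h0, h1, h2, h3⟩)
    · exact mem_base_out.2 ⟨by linarith, by linarith⟩
    · exact (mem_base_inn h0).2 ⟨h1, by linarith, by linarith⟩

theorem gW_sub (h : T.Ok) (s : T.S) : gW T L s ⊆ (T.glob L).U s := by
  rcases s with a | w
  · exact fun x hx => mem_glob_inl.2 (by linarith [show ‖x‖ ≤ 7 / 4 from hx])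
  · have := mul_pos h.r_pos (Real.exp_pos (L w))
    exact fun x hx => mem_glob_inr.2 ⟨by linarith [hx.1], fun hw => by linarith [hx.2 hw]⟩

theorem gK_sub_gW (h : T.Ok) (s : T.S) : T.gK L s ⊆ gW T L s := by
  rcases s with a | w
  · exact fun x hx => (mem_gK_inl.1 hx).trans (by norm_num)
  · have := mul_pos h.r_pos (Real.exp_pos (L w))
    exact fun x hx => ⟨by linarith [hx.1], fun hw => by linarith [hx.2 hw]⟩

theorem scl_lip (s : T.S) (x y : E4) : scl T s x ≤ scl T s y + ‖x - y‖ := by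
  rcases s with a | w
  · exact le_add_of_nonneg_right (norm_nonneg _)
  · exact norm_le_norm_add_norm_sub' x y

theorem scl_iso (s : T.S) (γ : Iso4) (x : E4) : scl T s (γ x) = scl T s x := by
  rcases s with a | w
  · rfl
  · exact γ.norm_map x

theorem scl_ge {s : T.S} {x : E4} (hx : x ∈ (T.glob L).U s) : 1 ≤ scl T s x := by
  rcases s with a | w
  · exact le_rfl
  · exact hx.1.le

theorem near_gW (h : T.Ok) {s : T.S} {x y : E4} (hx : x ∈ gU T L 1 s)
    (hy : ‖y - x‖ ≤ 1 / 32 * scl T s x) : y ∈ gW T L s := by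
  have h1 := norm_le_norm_add_norm_sub' y x
  have h2 := norm_le_norm_add_norm_sub y x
  rcases s with a | w
  · have := mem_ball_zero_iff.1 hx
    show ‖y‖ ≤ 7 / 4
    simp only [scl, Sum.elim_inl] at hy
    linarith
  · have := mul_pos h.r_pos (Real.exp_pos (L w))
    simp only [scl, Sum.elim_inr] at hy
    exact ⟨by linarith [hx.1], fun hw => by linarith [hx.2 hw]⟩

theorem cell_sub {s : T.S} {z : E4} (hz : z ∈ T.gK L s) : ball z (scl T s z / 8) ⊆ gU T L 1 s := by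
  intro x hx
  rw [mem_ball, dist_eq_norm] at hx
  have h1 := norm_le_norm_add_norm_sub' x z
  have h2 := norm_le_norm_add_norm_sub x z
  rcases s with a | w
  · simp only [scl, Sum.elim_inl] at hx
    exact mem_ball_zero_iff.2 (by linarith [mem_gK_inl.1 hz])
  · simp only [scl, Sum.elim_inr] at hx
    exact ⟨by linarith [hz.1], fun hw => by linarith [hz.2 hw]⟩

theorem gU_open' (t : ℝ) (s : T.S) : IsOpen (gU T L t s) := by
  rcases s with a | w
  · exact isOpen_ball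
  · refine (isOpen_lt continuous_const continuous_norm).inter ?_
    show IsOpen {x : E4 | w ≠ T.root → ‖x‖ < 3 / 4 * T.r * Real.exp (L w) * (1 + t / 8)}
    by_cases hw : w = T.root
    · simp [hw]
    · simp only [ne_eq, hw, not_false_eq_true, forall_const]
      exact isOpen_lt continuous_norm continuous_const

theorem mem_KB (h : T.Ok) {a b : T.S} (hab : a ≠ b) {v : T.V} {x z : E4} (hx : x ∈ gW T L a)
    (h1 : sc (lm L) a v • x ∈ (T.base v).U a) (h2 : sc (lm L) b v • z ∈ (T.base v).U b)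
    (e : (T.base v).c a (sc (lm L) a v • x) = (T.base v).c b (sc (lm L) b v • z)) :
    sc (lm L) a v • x ∈ KB T v a ∧ T.r / 3 ≤ sc (lm L) a v * scl T a x ∧
      sc (lm L) a v * scl T a x ≤ 3 := by
  have hr := h.r_lt
  have hr0 := h.r_pos
  rcases a with a | w
  · simp only [sc, Sum.elim_inl, one_smul, scl, mul_one] at h1 ⊢
    exact ⟨⟨(mem_base_inl.1 h1).1, hx⟩, by linarith, by norm_num⟩
  rcases b with b | w'
  · simp only [sc, Sum.elim_inl, one_smul, Sum.elim_inr, scl] at h1 h2 e ⊢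
    obtain ⟨rfl, h3⟩ := mem_base_inl.1 h2
    have nf := h.not_far h3 h1 e.symm
    have hn : lm L w (T.vx b) * ‖x‖ = ‖lm L w (T.vx b) • x‖ := by
      rw [norm_smul, Real.norm_of_nonneg (by unfold lm; split_ifs <;> positivity)]
    rw [hn]
    by_cases hw : w = T.vx b
    · have a1 : ‖lm L w (T.vx b) • x‖ ≤ 3 := le_of_not_ge fun k => nf ⟨fun _ => k, fun k' => absurd hw k'⟩
      have a2 : 5 / 4 ≤ ‖lm L w (T.vx b) • x‖ := by simpa [lm, hw] using hx.1
      exact ⟨Or.inl ⟨hw, a2, a1⟩, by linarith, a1⟩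
    · have a1 : T.r / 3 ≤ ‖lm L w (T.vx b) • x‖ :=
        le_of_not_ge fun k => nf ⟨fun k' => absurd k' hw, fun _ => k⟩
      have hk := ((mem_base_inn hw).1 h1).1
      have a2 : ‖lm L w (T.vx b) • x‖ ≤ 7 / 8 * T.r := by
        rw [lm, if_neg hw]; exact nrm_exp_le.2 (hx.2 hk.1)
      exact ⟨Or.inr ⟨hw, hk, a1, a2⟩, a1, by linarith⟩
  · exact absurd e (h.disj v w w' (fun k => hab (by rw [k])) _ h1 _ h2)

/-- uniform changes of charts in `glob L` -/
theorem leb (h : T.Ok) {ρ : ℝ} (hρ : 0 < ρ) : ∃ δ : ℝ, 0 < δ ∧ ∀ L, T.Long L → ∀ a b,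
    ∀ x1 ∈ gW T L a, ∀ z ∈ gW T L b, (T.glob L).c a x1 = (T.glob L).c b z →
    ∀ x ∈ (T.glob L).U a, ‖x - x1‖ ≤ δ * scl T a x1 →
      ∃ x' ∈ (T.glob L).U b, ‖x' - z‖ ≤ ρ * scl T b z ∧ (T.glob L).c b x' = (T.glob L).c a x := by
  have hr0 := h.r_pos
  obtain ⟨δ, hδ, hb⟩ := Metric.eventually_nhds_iff.1 (eventually_all.2 fun i : T.V × T.S × T.S =>
    leb0 (h.base i.1) (KB_cpt h i.1 i.2.1) (KB_cpt h i.1 i.2.2) (KB_sub h _ _) (KB_sub h _ _)
      (ρ := ρ * (T.r / 3)) (by positivity))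
  refine ⟨min ρ (δ / 4), lt_min hρ (by positivity), fun L hL a b x1 hx1 z hz e x hx hd => ?_⟩
  have hS := h.str_glob hL
  have s1 := scl_ge (gW_sub h a hx1)
  by_cases hab : a = b
  · subst hab
    obtain ⟨γ, hγ, rfl⟩ := (hS.fib h (gW_sub h a hx1) (gW_sub h a hz)).1 e
    refine ⟨γ x, (hS.inv' hγ hx).1, ?_, (hS.inv' hγ hx).2⟩
    rw [← map_sub, γ.norm_map, scl_iso]
    exact hd.trans (mul_le_mul_of_nonneg_right (min_le_left _ _) (by linarith))
  rcases hS.rel (gW_sub h a hx1) (gW_sub h b hz) e with ⟨v, -, h1, h2, e'⟩ | h1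
  swap
  · exact absurd h1.1 hab
  obtain ⟨k1, -, k2⟩ := mem_KB h hab hx1 h1 h2 e'
  obtain ⟨k3, k4, -⟩ := mem_KB h (Ne.symm hab) hz h2 h1 e'.symm
  have pa := hS.sc_pos a v
  have pb := hS.sc_pos b v
  obtain ⟨m1, x', m2, m3, m4⟩ := hb (y := sc (lm L) a v • (x - x1)) (by
    rw [dist_zero_right, norm_smul, Real.norm_of_nonneg pa.le]
    have a1 : ‖x - x1‖ ≤ δ / 4 * scl T a x1 :=
      hd.trans (mul_le_mul_of_nonneg_right (min_le_right _ _) (by linarith))
    have a2 := mul_le_mul_of_nonneg_left a1 pa.le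
    have a3 := mul_le_mul_of_nonneg_left k2 hδ.le
    linarith) (v, a, b) (_, _) ⟨k1, k3⟩ e'
  simp only [← smul_add, add_sub_cancel] at m1 m3 m4
  have e2 : sc (lm L) b v • (sc (lm L) b v)⁻¹ • x' = x' := smul_inv_smul₀ pb.ne' _
  obtain ⟨n1, n2⟩ := hS.conv' (x := (sc (lm L) b v)⁻¹ • x') trivial (e2.symm ▸ m2)
  refine ⟨_, n1, ?_, by rw [n2, e2, m4, (hS.conv' trivial m1).2]⟩
  rw [← e2, ← smul_sub, norm_smul, Real.norm_of_nonneg pb.le] at m3
  refine le_of_mul_le_mul_left (m3.trans ?_) pb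
  nlinarith [mul_le_mul_of_nonneg_left k4 hρ.le]

/-- quantitative freeness -/
theorem exists_free (h : T.Ok) : ∃ c : ℝ, 0 < c ∧ ∀ s, ∀ γ ∈ T.grp s, ∀ z : E4,
    ‖γ z - z‖ < c * scl T s z → γ = 1 := by
  have h1 : ∀ i : Σ w, T.Γ w, ∀ᶠ c in 𝓝[>] (0 : ℝ), ∀ z : E4, ‖i.2.1 z - z‖ < c * ‖z‖ → i.2.1 = 1 := by
    rintro ⟨w, γ, hγ⟩
    by_cases h0 : γ = 1
    · exact Eventually.of_forall fun _ _ _ => h0
    obtain ⟨K, hK, hA⟩ := LinearMap.exists_antilipschitzWith
      ((γ.toLinearEquiv : E4 →ₗ[ℝ] E4) - LinearMap.id) (LinearMap.ker_eq_bot'.2 fun z hz => by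
        by_contra k
        exact h0 (h.free w γ hγ z k (sub_eq_zero.1 hz)))
    filter_upwards [Ioc_mem_nhdsGT (show (0 : ℝ) < K⁻¹ by positivity)] with c hc z hz
    have a1 : ‖z‖ ≤ K * ‖γ z - z‖ := ZeroHomClass.bound_of_antilipschitz _ hA z
    have a2 : c * K ≤ 1 := by
      have := hc.2
      rwa [← le_div_iff₀ (by exact_mod_cast hK), one_div]
    have a3 := mul_le_mul_of_nonneg_left a1 hc.1.le
    have a4 := mul_le_mul_of_nonneg_right a2 (norm_nonneg (γ z - z))
    exact absurd hz (by simp only [not_lt]; linarith)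
  have := h.fin
  obtain ⟨c, h2, hc⟩ := ((eventually_all.2 h1).and self_mem_nhdsWithin).exists
  refine ⟨c, hc, ?_⟩
  rintro (a | w) γ hγ z hz
  exacts [Subgroup.mem_bot.1 hγ, h2 ⟨w, γ, hγ⟩ z hz]

theorem exists_gK (h : T.Ok) (hL : T.Long L) {b : T.S} {y : E4} (hy : y ∈ (T.glob L).U b) :
    ∃ s, ∃ z ∈ T.gK L s, (T.glob L).c s z = (T.glob L).c b y := by
  have hP := h.glob_pou hL
  obtain ⟨s, -, hs⟩ := Finset.exists_ne_zero_of_sum_ne_zero
    ((hP.sum b y hy).trans_ne one_ne_zero)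
  exact ⟨s, hP.supp s b y hy hs⟩

section
variable {ε : ℝ} {u : T.S → E4 → E4} (n : NearId T L ε u)
include n

theorem NearId.val {s : T.S} {x : E4} (hx : x ∈ gU T L 1 s) : ‖u s x - x‖ ≤ ε * scl T s x := by
  simpa [norm_iteratedFDeriv_zero] using n.jet s x hx 0 (by norm_num)

theorem NearId.diff {s : T.S} {x : E4} (hx : x ∈ gU T L 1 s) : DifferentiableAt ℝ (u s) x :=
  ((n.sm s).contDiffAt ((gU_open' 1 s).mem_nhds hx)).differentiableAt (by simp)

theorem NearId.der (h : T.Ok) {s : T.S} {x : E4} (hx : x ∈ gU T L 1 s) :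
    ‖fderiv ℝ (fun y => u s y - y) x‖ ≤ ε := by
  have h1 := n.jet s x hx 1 (by norm_num)
  have h2 := scl_ge (gW_sub h s (near_gW h hx (y := x) (by
    rcases s with a | w <;> simp [scl])))
  rw [pow_one, norm_iteratedFDeriv_one, mul_comm] at h1
  exact le_of_mul_le_mul_right h1 (by linarith)

theorem NearId.lip (h : T.Ok) {s : T.S} {z x y : E4} (hz : z ∈ T.gK L s)
    (hx : x ∈ ball z (scl T s z / 8)) (hy : y ∈ ball z (scl T s z / 8)) :
    ‖(u s y - y) - (u s x - x)‖ ≤ ε * ‖y - x‖ :=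
  (convex_ball _ _).norm_image_sub_le_of_norm_fderiv_le (f := fun y => u s y - y)
    (fun _ hw => (n.diff (cell_sub hz hw)).fun_sub differentiableAt_fun_id)
    (fun _ hw => n.der h (cell_sub hz hw)) hx hy

end

/-- **NI** -/
theorem ni (h : T.Ok) : ∃ ε0 : ℝ, 0 < ε0 ∧ ∀ (L : T.V → ℝ) (ε : ℝ) (u : T.S → E4 → E4), T.Long L →
    ε ≤ ε0 → NearId T L ε u → Atl.Mor (sh T L 1) (T.glob L) id u ∧
      Atl.MInj (sh T L 1) (T.glob L) id u ∧
      ∀ s, ∀ y ∈ (T.glob L).U s, (T.glob L).c s y ∈ Atl.img (sh T L 1) (T.glob L) id u := by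
  obtain ⟨c, hc, hfree⟩ := exists_free h
  obtain ⟨δ, hδ, hleb⟩ := leb h (ρ := min (c / 4) (1 / 16)) (lt_min (by positivity) (by norm_num))
  refine ⟨min (min (δ / 2) (c / 4)) (1 / 32), lt_min (lt_min (by positivity) (by positivity))
    (by norm_num), fun L ε u hL hε n => ?_⟩
  have e1 : ε ≤ δ / 2 := hε.trans ((min_le_left _ _).trans (min_le_left _ _))
  have e2 : ε ≤ c / 4 := hε.trans ((min_le_left _ _).trans (min_le_right _ _))
  have e3 : ε ≤ 1 / 32 := hε.trans (min_le_right _ _)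
  have hO := h.glob_ok hL
  have hU : ∀ {s x}, x ∈ gU T L 1 s → x ∈ (T.glob L).U s := fun {s x} hx =>
    gW_sub h s (near_gW h hx (y := x) (by rcases s with a | w <;> simp [scl]))
  refine ⟨⟨n.maps, n.sm, fun s x hx => ?_, fun a b x hx y hy e => n.compat a b x hx y hy e⟩,
    fun a b x hx y hy e => ?_, fun b y hy => ?_⟩
  · refine (injective_iff_map_eq_zero _).2 fun v hv => ?_
    have h1 := (fderiv ℝ (fun y => u s y - y) x).le_of_opNorm_le (n.der h hx) v
    rw [fderiv_fun_sub (n.diff hx) differentiableAt_fun_id, fderiv_fun_id] at h1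
    simp only [sub_apply, hv, ContinuousLinearMap.id_apply, zero_sub, norm_neg] at h1
    exact norm_le_zero_iff.1 (by nlinarith [norm_nonneg v])
  · obtain ⟨s, z, hz, ez⟩ := exists_gK h hL (n.maps a x hx)
    have sz := scl_ge (gW_sub h s (gK_sub_gW h s hz))
    have key : ∀ a, ∀ x ∈ gU T L 1 a, (T.glob L).c s z = (T.glob L).c a (u a x) →
        ∃ x' ∈ ball z (scl T s z / 8), u s x' = z ∧ (T.glob L).c s x' = (T.glob L).c a x := by
      intro a x hx ez
      have a0 := scl_ge (hU hx)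
      have a1 := n.val hx
      have a2 : ‖u a x - x‖ ≤ 1 / 32 * scl T a x := a1.trans (by gcongr)
      have a3 := scl_lip (T := T) a x (u a x)
      rw [norm_sub_rev] at a3
      obtain ⟨x', b1, b2, b3⟩ := hleb L hL a s _ (near_gW h hx a2) z (gK_sub_gW h s hz) ez.symm x (hU hx)
        (by rw [norm_sub_rev]; refine a1.trans ?_; nlinarith)
      have b4 : ‖x' - z‖ ≤ c / 4 * scl T s z := b2.trans (by gcongr; exact min_le_left _ _)
      have b5 : ‖x' - z‖ ≤ 1 / 16 * scl T s z := b2.trans (by gcongr; exact min_le_right _ _)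
      have b6 : x' ∈ ball z (scl T s z / 8) := by rw [mem_ball, dist_eq_norm]; linarith
      have b7 := cell_sub hz b6
      obtain ⟨γ, hγ, eγ⟩ := (hO.fib s z (gW_sub h s (gK_sub_gW h s hz)) _ (n.maps s x' b7)).1
        (ez.trans (n.compat s a x' b7 x hx b3).symm)
      have b8 := n.val b7
      have b9 := scl_lip (T := T) s x' z
      have b10 := norm_sub_le_norm_sub_add_norm_sub (u s x') x' z
      have b11 : ε * scl T s x' ≤ c / 4 * scl T s x' := by gcongr; linarith [scl_ge b1]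
      have : γ = 1 := hfree s γ hγ z (by rw [eγ]; nlinarith)
      subst this
      exact ⟨x', b6, eγ.symm, b3⟩
    obtain ⟨x', p1, p2, p3⟩ := key a x hx ez
    obtain ⟨y', q1, q2, q3⟩ := key b y hy (ez.trans e)
    have h1 := n.lip h hz p1 q1
    rw [p2, q2, sub_sub_sub_cancel_left, norm_sub_rev] at h1
    have h2 : y' = x' := sub_eq_zero.1 (norm_le_zero_iff.1 (by nlinarith [norm_nonneg (y' - x')]))
    exact p3.symm.trans (h2 ▸ q3)
  · obtain ⟨s, z, hz, ez⟩ := exists_gK h hL hy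
    have sz := scl_ge (gW_sub h s (gK_sub_gW h s hz))
    have hb : closedBall z (scl T s z / 16) ⊆ ball z (scl T s z / 8) :=
      closedBall_subset_ball (by linarith)
    have hm : MapsTo (fun x => z - (u s x - x)) (closedBall z (scl T s z / 16))
        (closedBall z (scl T s z / 16)) := fun x hx => by
      have a1 := n.val (cell_sub hz (hb hx))
      have a2 := scl_lip (T := T) s x z
      have a3 : ε * scl T s x ≤ 1 / 32 * scl T s x := by
        gcongr; linarith [scl_ge (hU (cell_sub hz (hb hx)))]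
      rw [mem_closedBall, dist_eq_norm] at hx ⊢
      rw [sub_sub_cancel_left, norm_neg]
      linarith
    obtain ⟨x, hx, hf, -⟩ := ContractingWith.exists_fixedPoint' (K := 1 / 2)
      isClosed_closedBall.isComplete hm ⟨by norm_num, LipschitzWith.of_dist_le_mul fun p q => by
        have := n.lip h hz (hb p.2) (hb q.2)
        rw [Subtype.dist_eq, Subtype.dist_eq, dist_eq_norm, dist_eq_norm, MapsTo.val_restrict_apply,
          MapsTo.val_restrict_apply, sub_sub_sub_cancel_left, norm_sub_rev p.1]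
        push_cast
        nlinarith [norm_nonneg (q.1 - p.1)]⟩ (mem_closedBall_self (by linarith)) (edist_ne_top _ _)
    have : u s x = z := by
      have h1 : z - (u s x - x) = x := hf
      rw [sub_eq_iff_eq_add, add_sub_cancel] at h1
      exact h1.symm
    exact ⟨s, x, cell_sub hz (hb hx), (congrArg _ this).trans ez⟩

end Crest.Agent.N207.Ga

end
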