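import Crest.Agent.N207.Ga.Ten

/-!
# Row 207, GAUGE (helper3): three Euclidean leaves
-/

set_option autoImplicit false

open scoped ContDiff
open Metric Set Filter Topology
open Crest.GeometryTopology.CoordMetric

noncomputable section

namespace Crest.Agent.N207.Ga

/-- **BOOT**: `C³` harmonic maps are smooth -/
def BOOT : Prop :=
  ∀ (G g : MetricField 4) (U W : Set E4) (u : E4 → E4), IsRiemannianOn G U → IsRiemannianOn g W →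
    ContDiffOn ℝ 3 u U → (∀ y ∈ U, u y ∈ W) → (∀ y ∈ U, ∀ n, tau G g u y n = 0) →
    ContDiffOn ℝ ∞ u U

/-- **EXTMP**: exterior maximum principle -/
def EXTMP : Prop :=
  ∀ (w : E4 → ℝ) (R m : ℝ), 0 < R → ContDiffOn ℝ 2 w {x | R / 2 < ‖x‖} →
    (∀ x : E4, R ≤ ‖x‖ → ∑ a, pderiv a (pderiv a w) x = 0) → Tendsto w (cocompact E4) (𝓝 0) →
    (∀ x : E4, ‖x‖ = R → |w x| ≤ m) → ∀ x : E4, R ≤ ‖x‖ → |w x| ≤ m * R ^ 2 / ‖x‖ ^ 2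

/-- **HDEC**: decay of the jets of a decaying harmonic map -/
def HDEC : Prop :=
  ∀ (w : E4 → E4) (R m : ℝ), 0 < R → ContDiffOn ℝ ∞ w {x | R < ‖x‖} →
    (∀ x : E4, R < ‖x‖ → ∀ n, ∑ a, pderiv a (pderiv a fun y => w y n) x = 0) →
    (∀ x : E4, R < ‖x‖ → ∀ n, |w x n| ≤ m / ‖x‖ ^ 2) →
    ∃ C : ℝ, ∀ x : E4, 2 * R ≤ ‖x‖ → ∀ j ≤ 4, ‖x‖ ^ j * ‖iteratedFDeriv ℝ j w x‖ ≤ C / ‖x‖ ^ 2

end Crest.Agent.N207.Ga

end
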