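import Crest.Agent.N207.Ga.St2
import Crest.Agent.N207.Ga.Loc1
import Crest.Agent.N207.Ga.Glue
import Crest.Agent.N207.I.Cal5
import Crest.Agent.N207.Sk.Sta2

/-!
# Row 207, GAUGE (helper3): the global setting and three more leaves
-/

set_option autoImplicit false

open scoped ContDiff
open Metric Set Filter Topology
open Crest.GeometryTopology.CoordMetric
open Crest.Agent.NLib.Ell Crest.Agent.N207.I Crest.Agent.N207.CB Crest.Agent.N207.N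
  Crest.Agent.N207.Lg

noncomputable section

namespace Crest.Agent.N207.Ga

variable {M : Type*} (T : TD M)

/-- the map of a 1-form (`g0` in root units) -/
def uG (g0 : Fam T) (E : T.S → E4 × E4 → E4) (om : T.S → Tn 4 1) (s : T.S) (x : E4) : E4 :=
  E s (x, shp (g0 s) (om s) x)

/-- the nonlinear operator (root units) -/
def opG (g0 G : Fam T) (E : T.S → E4 × E4 → E4) (om : T.S → Tn 4 1) (s : T.S) : Tn 4 1 :=
  ten (G s) (pbG (uG T g0 E om s) (g0 s))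

/-- the displacement of a family of maps read in a cell -/
def clU (u : T.S → E4 → E4) (s : T.S) (x0 y : E4) : E4 :=
  (rad T s x0)⁻¹ • (u s (pt T s x0 y) - pt T s x0 y)

/-- the setting: `gb` in vertex units, `G` in root units -/
structure St (γ K η r0 R0 : ℝ) (L : T.V → ℝ) (gb G : Fam T) (E : T.S → E4 × E4 → E4) : Prop where
  ok : T.Ok
  long : T.Long L
  K0 : 0 ≤ K
  R2 : 2 ≤ R0
  mb : (T.glob L).IsMet (rt T L gb)
  mG : (T.glob L).IsMet G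
  k0 : ∀ s, ∀ x0 ∈ T.gK L s, 0 ≤ kap T γ L s x0 ∧ kap T γ L s x0 ≤ 2
  cg : ∀ s, ∀ x0 ∈ T.gK L s, CellG K η (kap T γ L s x0) (clM T gb s x0) (clM T (T.nrm L G) s x0)
  ce : ∀ s, ∀ x0 ∈ T.gK L s, CellE (K * kap T γ L s x0) r0 (clE T E s x0)
  compat : ∀ s s' x F v, (T.glob L).Tr s s' x F → x ∈ gU T L 1 s → F x ∈ gU T L 1 s' →
    ‖v‖ ≤ r0 * scl T s x → ‖fderiv ℝ F x v‖ ≤ r0 * scl T s' (F x) →
    (T.glob L).c s' (E s' (F x, fderiv ℝ F x v)) = (T.glob L).c s (E s (x, v))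
  flat : ∀ x : E4, R0 ≤ ‖x‖ → G (Sum.inr T.root) x = 1 ∧ gb (Sum.inr T.root) x = 1 ∧
    ∀ v, E (Sum.inr T.root) (x, v) = x + v

/-- **SET** -/
def SET {ι : Type} (g : T.V → Fam T) (γ : ℝ) (l : Filter ι) (L : ι → T.V → ℝ) (G : ι → Fam T) :
    Prop :=
  (∀ l0, ∀ᶠ i in l, Lg T l0 (L i)) ∧
  ∃ K r0 C T1 : ℝ, 0 ≤ K ∧ 0 < r0 ∧ 0 < C ∧ ∀ T0, T1 ≤ T0 → ∀ᶠ i in l, ∃ E R0,
    St T (γ / 5) K (C * Real.exp (-(4 / 5 * γ * T0))) r0 R0 (L i) (gbL T g T0 (L i)) (G i) E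

/-- **SEC**: small sections give morphisms, and the operator gives sections -/
def SEC : Prop :=
  ∀ (γ K η r0 R0 δ : ℝ) (L : T.V → ℝ) (gb G : Fam T) (E : T.S → E4 × E4 → E4) (om : T.S → Tn 4 1),
    St T γ K η r0 R0 L gb G E → Sm K r0 δ → (T.glob L).Sec om → XN T γ L δ om →
    Atl.Mor (sh T L 1) (T.glob L) id (uG T (rt T L gb) E om) ∧
      ∃ F : T.S → Tn 4 1, (T.glob L).Sec F ∧
        ∀ s, ∀ x ∈ gU T L 1 s, F s x = opG T (rt T L gb) G E om s x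

/-- **LIM**: the limit of approximate solutions -/
def LIM : Prop :=
  ∃ C : ℝ, 0 < C ∧ ∀ (L : T.V → ℝ) (gb G : Fam T) (ε R m : ℝ) (u : ℕ → T.S → E4 → E4),
    T.Ok → T.Long L → (T.glob L).IsMet (rt T L gb) → (T.glob L).IsMet G → ε ≤ 1 / 8 → 2 ≤ R →
    (∀ n, Atl.Mor (sh T L 1) (T.glob L) id (u n)) →
    (∀ n s, ∀ x0 ∈ T.gK L s, CKA (1 / 2) B1 4 ε (clU T (u n) s x0)) →
    (∀ s, ∀ x ∈ gU T L 1 s, CauchySeq fun n => u n s x) →
    (∀ s, ∀ x ∈ gU T L 1 s, ∀ j,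
      Tendsto (fun n => ten (G s) (pbG (u n s) (rt T L gb s)) x ![j]) atTop (𝓝 0)) →
    (∀ x : E4, R ≤ ‖x‖ → G (Sum.inr T.root) x = 1 ∧ gb (Sum.inr T.root) x = 1 ∧
      ∀ n, ‖u n (Sum.inr T.root) x - x‖ ≤ m / ‖x‖ ^ 2) →
    ∃ v : T.S → E4 → E4, NearId T L (C * ε) v ∧
      ∀ s, ∀ x ∈ gU T L 1 s, gauT (pbG (v s) (gb s)) (T.nrm L G s) x = 0

end Crest.Agent.N207.Ga

end
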